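import Vale.Agent.P205F.Start.Prep

/-!
# START: the base map

The immersion straightened at the marked points, scaled down, with the contracted flat piece
inserted at scale `ε`.
-/

namespace Vale.Agent.P205F.Start

open scoped Manifold ContDiff RealInnerProductSpace Topology
open Set Function Filter

section SumExt

variable {M : Type*} [TopologicalSpace M] [ChartedSpace E2 M] {ι : Type*} [Fintype ι]
  (ψ : ι → Chart M) (u : ι → E2 → R4) (f : M → R4)

/-- Corrections in disjoint charts. -/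
noncomputable def sumExt (p : M) : R4 := f p + ∑ i, (ψ i).ext (u i) p

variable {ψ u f}

lemma sumExt_apply (hd : Pairwise fun i j => Disjoint (range (ψ i).toFun) (range (ψ j).toFun))
    (i : ι) (y : E2) : sumExt ψ u f ((ψ i).toFun y) = f ((ψ i).toFun y) + u i y := by
  classical
  rw [sumExt, Finset.sum_eq_single i (fun j _ hji => Chart.ext_of_notMem _ _ fun h =>
    disjoint_left.1 (hd hji) h ⟨y, rfl⟩) (by simp), Chart.ext_apply]

lemma sumExt_smooth [T2Space M] (hf : ContMDiff (𝓡 2) (𝓡 4) ∞ f) (hu : ∀ i, ContDiff ℝ ∞ (u i))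
    {r : ι → ℝ} (h0 : ∀ i y, r i ≤ ‖y‖ → u i y = 0) :
    ContMDiff (𝓡 2) (𝓡 4) ∞ (sumExt ψ u f) :=
  hf.add (ContMDiff.sum fun i _ => Chart.ext_contMDiff _ (hu i)
    (HasCompactSupport.intro (isCompact_closedBall (0 : E2) (r i)) fun y hy =>
      h0 i y (le_of_lt (by simpa using hy))))

lemma sumExt_eventuallyEq [T2Space M] {r : ι → ℝ} (h0 : ∀ i y, r i ≤ ‖y‖ → u i y = 0) {p : M}
    (hp : ∀ i, p ∉ (ψ i).toFun '' Metric.closedBall 0 (r i)) : sumExt ψ u f =ᶠ[𝓝 p] f := by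
  have hc : IsClosed (⋃ i, (ψ i).toFun '' Metric.closedBall 0 (r i)) :=
    isClosed_iUnion_of_finite fun i =>
      ((isCompact_closedBall 0 (r i)).image (ψ i).continuous).isClosed
  filter_upwards [hc.isOpen_compl.mem_nhds (by simpa using hp)] with q hq
  simp only [sumExt]
  rw [Finset.sum_eq_zero fun i _ => ?_, add_zero]
  by_cases h : q ∈ range (ψ i).toFun
  · obtain ⟨y, rfl⟩ := h
    rw [Chart.ext_apply]
    exact h0 i y (le_of_lt (not_le.1 fun hy => hq (mem_iUnion.2 ⟨i, y, by simpa using hy, rfl⟩)))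
  · exact Chart.ext_of_notMem _ _ h

lemma sumExt_cases (r : ι → ℝ) (p : M) :
    (∃ i y, ‖y‖ ≤ r i ∧ (ψ i).toFun y = p) ∨ ∀ i, p ∉ (ψ i).toFun '' Metric.closedBall 0 (r i) := by
  by_cases h : ∀ i, p ∉ (ψ i).toFun '' Metric.closedBall 0 (r i)
  · exact Or.inr h
  · push Not at h
    obtain ⟨i, y, hy, e⟩ := h
    exact Or.inl ⟨i, y, by simpa using hy, e⟩

end SumExt

lemma frame_smul {u : E2 → R4} (hu : ContDiff ℝ ∞ u) {c : ℝ} (hc : c ≠ 0) {x : E2} {v : R4}
    (h : Injective (frameMap u x v)) : Injective (frameMap (fun z => c • u z) x v) := by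
  rw [injective_iff_map_eq_zero]
  rintro ⟨w, t⟩ e
  simp only [frameMap, fderiv_fun_const_smul (hu.differentiable (by simp) x),
    ContinuousLinearMap.coprod_apply, smul_apply] at e
  have := h (a₁ := (c • w, t)) (a₂ := 0) (by simpa [frameMap] using e)
  simpa [hc] using this

/-- The inserted piece, in coordinates. -/
lemma frame_piece {W : E2 → R4} (hW : ContDiff ℝ ∞ W) (a : R4) {c ε : ℝ} (hc : c ≠ 0)
    (hε : ε ≠ 0) (R : R4 ≃ₗᵢ[ℝ] R4) (x : E2) (v : R4) (h : Injective (frameMap W (ε⁻¹ • x) v)) :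
    Injective (frameMap (fun z => a + c • R (W (ε⁻¹ • z))) x (R v)) ∧
      nrm (fun z => a + c • R (W (ε⁻¹ • z))) x (R v) = R (nrm W (ε⁻¹ • x) v) := by
  have hW' : ContDiff ℝ ∞ fun z => W (ε⁻¹ • z) := hW.comp (contDiff_const_smul _)
  have hd : DifferentiableAt ℝ (fun z : E2 => ε⁻¹ • z) x := differentiableAt_id.const_smul ε⁻¹
  have he : fderiv ℝ (fun z : E2 => ε⁻¹ • z) x = ε⁻¹ • ContinuousLinearMap.id ℝ E2 :=
    ((hasFDerivAt_id x).const_smul ε⁻¹).fderiv
  have hb : Bijective (fderiv ℝ (fun z : E2 => ε⁻¹ • z) x) := by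
    rw [he]
    exact ⟨smul_right_injective E2 (inv_ne_zero hε), fun w => ⟨ε • w, by simp [hε]⟩⟩
  have hn : nrm (fun z => W (ε⁻¹ • z)) x v = nrm W (ε⁻¹ • x) v :=
    nrm_comp (hW.differentiable (by simp) _) hd hb.2 v
  obtain ⟨hi, hne⟩ := (frameMap_iff _ _ _).1 h
  have hi' : Injective (fderiv ℝ (fun z => W (ε⁻¹ • z)) x) := by
    rw [fderiv_comp_plane (hW.differentiable (by simp) _) hd]
    exact hi.comp hb.1
  refine ⟨(frameMap_iff _ _ _).2 ⟨similar_injective hW' a hc R hi', ?_⟩, ?_⟩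
  · rw [nrm_similar hW' a hc, hn]
    exact fun h0 => hne (R.map_eq_zero_iff.1 h0)
  · rw [nrm_similar hW' a hc, hn]

universe u

theorem base : BaseStmt.{u} := by
  obtain ⟨rad, hrad, hmodel⟩ := exists_model
  refine ⟨rad, hrad, fun M _ _ _ _ _ g f0 n0 Q P hF hP => ?_⟩
  obtain ⟨hf0, hn0, hn01, hfI⟩ := hF
  obtain ⟨Us, hUs, hUd⟩ := Q.finite_toSet.t2_separation
  choose ψ hψ0 hψU hψg using fun q : Q => exists_normal_chart g ((hUs q.1).2.mem_nhds (hUs q.1).1)
  have hd : Pairwise fun i j => Disjoint (range (ψ i).toFun) (range (ψ j).toFun) := fun i j hij =>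
    (hUd i.2 j.2 (Subtype.coe_injective.ne hij)).mono (hψU i) (hψU j)
  refine ⟨ψ, hψ0, hψg, hd, fun lam hlam hlam2 => ?_⟩
  have horth : ∀ (φ : Chart M) x v, ⟪n0 (φ.toFun x), fderiv ℝ (fun z => f0 (φ.toFun z)) x v⟫ = 0 :=
    fun φ x v => by
      rw [apply_eq_pd, inner_add_right, real_inner_smul_right, real_inner_smul_right,
        (hfI φ).2 x 0, (hfI φ).2 x 1]
      ring
  have hframe0 : ∀ (φ : Chart M) x,
      Injective (frameMap (fun z => f0 (φ.toFun z)) x (n0 (φ.toFun x))) := fun φ x => by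
    refine (frameMap_iff _ _ _).2 ⟨(hfI φ).1 x, ?_⟩
    rw [nrm_self_of_orth _ _ fun v => by rw [real_inner_comm]; exact horth φ x v]
    intro h; simpa [h] using hn01 (φ.toFun x)
  -- straightening
  choose R hR0 hR using fun q : Q => exists_isom P ((hfI (ψ q)).1 0) (hn01 ((ψ q).toFun 0))
    (horth (ψ q) 0)
  choose u v ρ hρ hu hv hout hin hframe using fun q : Q => exists_blend_affine
    ((ψ q).contDiff_comp hf0) ((ψ q).contDiff_comp hn0) (hframe0 (ψ q)) (hR q)
  let U : Q → E2 →L[ℝ] R4 := fun q =>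
    ((R q).toContinuousLinearEquiv : R4 →L[ℝ] R4).comp (fderiv ℝ P.F 0)
  let du : Q → E2 → R4 := fun q y => u q y - f0 ((ψ q).toFun y)
  let dv : Q → E2 → R4 := fun q y => v q y - n0 ((ψ q).toFun y)
  have hdu : ∀ q y, (1 : ℝ) ≤ ‖y‖ → du q y = 0 := fun q y hy => by simp [du, (hout q y hy).1]
  have hdv : ∀ q y, (1 : ℝ) ≤ ‖y‖ → dv q y = 0 := fun q y hy => by simp [dv, (hout q y hy).2]
  let f1 := sumExt ψ du f0
  let v1 := sumExt ψ dv n0
  have hf1 : ContMDiff (𝓡 2) (𝓡 4) ∞ f1 :=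
    sumExt_smooth hf0 (fun q => (hu q).sub ((ψ q).contDiff_comp hf0)) hdu
  have hv1 : ContMDiff (𝓡 2) (𝓡 4) ∞ v1 :=
    sumExt_smooth hn0 (fun q => (hv q).sub ((ψ q).contDiff_comp hn0)) hdv
  have hf1ψ : ∀ q y, f1 ((ψ q).toFun y) = u q y := fun q y => by
    simp [f1, sumExt_apply hd, du]
  have hv1ψ : ∀ q y, v1 ((ψ q).toFun y) = v q y := fun q y => by
    simp [v1, sumExt_apply hd, dv]
  have hT1 : ∀ p, Transv f1 v1 p := fun p => by
    rcases sumExt_cases (ψ := ψ) (fun _ => 1) p with ⟨q, y, -, rfl⟩ | hp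
    · rw [transv_iff hf1]
      simpa only [hf1ψ, hv1ψ] using hframe q y
    · intro φ x e
      subst e
      have e1 := (sumExt_eventuallyEq (f := f0) hdu hp).comp_tendsto φ.continuous.continuousAt
      have e2 := (sumExt_eventuallyEq (f := n0) hdv hp).self_of_nhds
      rw [frameMap, show fderiv ℝ (fun z => f1 (φ.toFun z)) x = _ from e1.fderiv_eq,
        show v1 (φ.toFun x) = _ from e2]
      exact hframe0 φ x
  -- the size of the outer map
  have hlt1 : 0 < 1 - lam := by linarith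
  have hsq : 0 < Real.sqrt (1 - lam) := Real.sqrt_pos.2 hlt1
  have hopen : IsOpen {q : ℝ × M |
      PosAt (Tn.sub (Tn.gcT g) (Tn.cmul (q.1 ^ 2) (Tn.metT hf1))) q.2} :=
    isOpen_posAt (fun t : ℝ => Tn.sub (Tn.gcT g) (Tn.cmul (t ^ 2) (Tn.metT hf1))) fun φ => by
      show Continuous fun q : ℝ × E2 => gc g φ q.2 - q.1 ^ 2 • met (fun z => f1 (φ.toFun z)) q.2
      exact (((Tn.gcT g).smooth φ).continuous.comp continuous_snd).sub
        ((continuous_fst.pow 2).smul (((Tn.metT hf1).smooth φ).continuous.comp continuous_snd))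
  have hev : ∀ᶠ t in 𝓝 (0 : ℝ), (∀ p ∈ (univ : Set M),
      (t, p) ∈ {q : ℝ × M | PosAt (Tn.sub (Tn.gcT g) (Tn.cmul (q.1 ^ 2) (Tn.metT hf1))) q.2}) ∧
      t < Real.sqrt (1 - lam) / 2 :=
    (tube hopen isCompact_univ fun p _ φ x _ => pd_iff.2 fun w hw => by
      show 0 < bil (gc g φ x - (0 : ℝ) ^ 2 • met (fun z => f1 (φ.toFun z)) x) w w
      simpa using bil_gc_pos g φ x hw).and (gt_mem_nhds (by positivity))
  obtain ⟨lp, ⟨hlp, hlp2⟩, hlp0⟩ :=
    ((hev.filter_mono nhdsWithin_le_nhds).and (self_mem_nhdsWithin (s := Ioi (0 : ℝ)))).exists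
  have hlp0 : 0 < lp := hlp0
  obtain ⟨W, V, R3, hR3, hW, hV, hWin, hWout, hWd⟩ := hmodel P hP (lp / Real.sqrt (1 - lam))
    (by positivity) (by rw [div_le_iff₀ hsq]; linarith)
  have hR30 : 0 < R3 := by linarith
  -- the scale
  have hsc : ∀ᶠ t in 𝓝 (0 : ℝ), ∀ q : Q, t * R3 < ρ q ∧
      ∀ y ∈ Metric.closedBall (0 : E2) R3, ‖gc g (ψ q) (t • y) - euc‖ < lam / 8 :=
    eventually_all.2 fun q => (((continuous_id.mul continuous_const).tendsto' 0 0
      (zero_mul R3)).eventually (gt_mem_nhds (hρ q))).and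
        ((isCompact_closedBall 0 R3).eventually_forall_of_forall_eventually fun y _ =>
          (((((Tn.gcT g).smooth (ψ q)).continuous.comp (continuous_fst.smul continuous_snd)).sub
            continuous_const).norm.continuousAt (x := (0, y))).eventually (gt_mem_nhds (by
              show ‖gc g (ψ q) ((0 : ℝ) • y) - euc‖ < lam / 8
              rw [zero_smul, hψg, sub_self, norm_zero]; linarith)))
  obtain ⟨ε0, hε0, hsc⟩ := Metric.eventually_nhds_iff_ball.1 hsc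
  refine ⟨ε0, hε0, fun ε hε hεlt => ?_⟩
  obtain ⟨hρε, hGε⟩ : (∀ q, ε * R3 < ρ q) ∧ ∀ q, ∀ y ∈ Metric.closedBall (0 : E2) R3,
      ‖gc g (ψ q) (ε • y) - euc‖ < lam / 8 := by
    have h := hsc ε (by rw [mem_ball_zero_iff, Real.norm_eq_abs, abs_of_pos hε]; exact hεlt)
    exact ⟨fun q => (h q).1, fun q => (h q).2⟩
  set c := ε * Real.sqrt (1 - lam) with hc
  have hc0 : c ≠ 0 := by positivity
  let D : Q → E2 → R4 := fun q x => c • R q (W (ε⁻¹ • x)) - lp • U q x
  let E : Q → E2 → R4 := fun q x => R q (V (ε⁻¹ • x)) - n0 ((ψ q).toFun 0)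
  have hnorm : ∀ x : E2, ε * R3 ≤ ‖x‖ → R3 ≤ ‖ε⁻¹ • x‖ := fun x hx => by
    rw [norm_smul, Real.norm_eq_abs, abs_of_pos (inv_pos.2 hε), le_inv_mul_iff₀ hε]; exact hx
  have hD0 : ∀ q x, ε * R3 ≤ ‖x‖ → D q x = 0 := fun q x hx => by
    simp only [D, U, (hWout _ (hnorm x hx)).1, map_smul, smul_smul, ContinuousLinearMap.comp_apply]
    rw [show c * (lp / Real.sqrt (1 - lam) * ε⁻¹) = lp by rw [hc]; field_simp]
    simp
  have hE0 : ∀ q x, ε * R3 ≤ ‖x‖ → E q x = 0 := fun q x hx => by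
    simp only [E, (hWout _ (hnorm x hx)).2, hR0, sub_self]
  let fb := sumExt ψ D (fun p => lp • f1 p)
  let vb := sumExt ψ E v1
  have hlpf : ContMDiff (𝓡 2) (𝓡 4) ∞ fun p => lp • f1 p :=
    (contMDiff_const (c := lp) : ContMDiff (𝓡 2) 𝓘(ℝ, ℝ) ∞ fun _ : M => lp).smul hf1
  have hfb : ContMDiff (𝓡 2) (𝓡 4) ∞ fb := sumExt_smooth hlpf (fun q =>
    (((R q).toContinuousLinearEquiv.contDiff.comp (hW.comp (contDiff_const_smul ε⁻¹))).const_smul
      c).sub ((U q).contDiff.const_smul lp)) hD0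
  have hvb : ContMDiff (𝓡 2) (𝓡 4) ∞ vb := sumExt_smooth hv1 (fun q =>
    ((R q).toContinuousLinearEquiv.contDiff.comp (hV.comp (contDiff_const_smul ε⁻¹))).sub
      contDiff_const) hE0
  have hfbψ : ∀ q x, ‖x‖ ≤ ρ q →
      fb ((ψ q).toFun x) = lp • f0 ((ψ q).toFun 0) + c • R q (W (ε⁻¹ • x)) := fun q x hx => by
    simp only [fb, sumExt_apply hd, hf1ψ, (hin q x hx).1, D, U]
    simp [smul_add]
  have hvbψ : ∀ q x, ‖x‖ ≤ ρ q → vb ((ψ q).toFun x) = R q (V (ε⁻¹ • x)) := fun q x hx => by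
    simp only [vb, sumExt_apply hd, hv1ψ, (hin q x hx).2, E]
    abel
  have hfbev : ∀ q x, ‖x‖ < ρ q → (fun z => fb ((ψ q).toFun z)) =ᶠ[𝓝 x]
      fun z => lp • f0 ((ψ q).toFun 0) + c • R q (W (ε⁻¹ • z)) := fun q x hx =>
    ((continuous_norm.tendsto x).eventually (gt_mem_nhds hx)).mono fun z hz => hfbψ q z hz.le
  have hTb : ∀ p, Transv fb vb p := fun p => by
    rcases sumExt_cases (ψ := ψ) (fun _ => ε * R3) p with ⟨q, x, hx, rfl⟩ | hp
    · have hx' : ‖x‖ < ρ q := lt_of_le_of_lt hx (hρε q)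
      rw [transv_iff hfb, frameMap, (hfbev q x hx').fderiv_eq, hvbψ q x hx'.le]
      exact (frame_piece hW _ hc0 hε.ne' (R q) x _ (hWd _).1).1
    · intro φ x e
      subst e
      have e1 := (sumExt_eventuallyEq (f := fun p => lp • f1 p) hD0 hp).comp_tendsto
        φ.continuous.continuousAt
      have e2 := (sumExt_eventuallyEq (f := v1) hE0 hp).self_of_nhds
      rw [frameMap, show fderiv ℝ (fun z => fb (φ.toFun z)) x = _ from e1.fderiv_eq,
        show vb (φ.toFun x) = _ from e2]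
      exact frame_smul (φ.contDiff_comp hf1) hlp0.ne' ((transv_iff hf1 v1 φ x).1 (hT1 _))
  have hTb' : ∀ (φ : Chart M) x, Injective (fderiv ℝ (fun z => fb (φ.toFun z)) x) ∧
      nrm (fun z => fb (φ.toFun z)) x (vb (φ.toFun x)) ≠ 0 := fun φ x =>
    (frameMap_iff _ _ _).1 ((transv_iff hfb vb φ x).1 (hTb _))
  refine ⟨fb, unitN fb vb, framed_unitN hfb hvb (fun φ x => (hTb' φ x).1) (fun p => ?_),
    fun φ x w hw => ?_, fun q => ⟨lp • f0 ((ψ q).toFun 0), R q, fun y hy => ?_⟩⟩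
  · obtain ⟨φ, x, rfl, -⟩ := Chart.exists_mem (Filter.univ_mem (f := 𝓝 p))
    rw [nrmM_chart hfb]
    exact (hTb' φ x).2
  · -- strictly short
    rcases sumExt_cases (ψ := ψ) (fun _ => ε * R3) (φ.toFun x) with ⟨q, z, hz, e⟩ | hp
    · have hr : φ.toFun x ∈ range (ψ q).toFun := ⟨z, e⟩
      rw [bil_met_change (ψ q) φ hfb hr, bil_gc_change g (ψ q) φ hr, Chart.trans_eq e.symm]
      set w' := fderiv ℝ ((ψ q).trans φ) x w
      have hw' : w' ≠ 0 := fun h =>
        hw ((ψ q).trans_fderiv_injective φ hr (h.trans (map_zero _).symm))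
      have hy : ε⁻¹ • z ∈ Metric.closedBall (0 : E2) R3 := by
        rw [mem_closedBall_zero_iff, norm_smul, Real.norm_eq_abs, abs_of_pos (inv_pos.2 hε),
          inv_mul_le_iff₀ hε]
        exact hz
      have hG := hGε q _ hy
      rw [smul_inv_smul₀ hε.ne'] at hG
      have hW' : ContDiff ℝ ∞ fun x => W (ε⁻¹ • x) := hW.comp (contDiff_const_smul _)
      rw [bil_met, (hfbev q z (lt_of_le_of_lt hz (hρε q))).fderiv_eq,
        fderiv_similar hW' _ c (R q) z w', real_inner_self_eq_norm_sq, norm_smul, (R q).norm_map]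
      have hdW : ‖fderiv ℝ (fun x => W (ε⁻¹ • x)) z w'‖ ≤ ε⁻¹ * ‖w'‖ := by
        rw [fderiv_comp_plane (F := W) (τ := fun z : E2 => ε⁻¹ • z) (hW.differentiable (by simp) _)
            (differentiableAt_id.const_smul ε⁻¹),
          show fderiv ℝ (fun z : E2 => ε⁻¹ • z) z = _ from
            ((hasFDerivAt_id z).const_smul ε⁻¹).fderiv]
        refine ((hWd _).2 _).trans (le_of_eq ?_)
        simp [norm_smul, abs_of_pos hε]
      have hG2 : bil euc w' w' - bil (gc g (ψ q) z) w' w' ≤ lam / 4 * ‖w'‖ ^ 2 := by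
        have e1 : bil euc w' w' - bil (gc g (ψ q) z) w' w' = bil (euc - gc g (ψ q) z) w' w' :=
          (Tn.bil_sub _ _ _ _).symm
        rw [e1]
        have h : ∀ i, |(euc - gc g (ψ q) z) i| ≤ lam / 8 := fun i =>
          (norm_le_pi_norm (euc - gc g (ψ q) z) i).trans (by rw [norm_sub_rev]; exact hG.le)
        obtain ⟨a0, b0⟩ := abs_le.1 (h 0)
        obtain ⟨a1, b1⟩ := abs_le.1 (h 1)
        obtain ⟨a2, b2⟩ := abs_le.1 (h 2)
        rw [EuclideanSpace.norm_sq_eq, Fin.sum_univ_two, Real.norm_eq_abs, Real.norm_eq_abs, sq_abs,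
          sq_abs, bil]
        nlinarith [sq_nonneg (w' 0 + w' 1), sq_nonneg (w' 0 - w' 1)]
      have he : bil euc w' w' = ‖w'‖ ^ 2 := by
        rw [EuclideanSpace.norm_sq_eq, Fin.sum_univ_two]; simp [bil, euc, pow_two]
      have hpos : 0 < ‖w'‖ ^ 2 := by positivity
      have h1 : (‖c‖ * ‖fderiv ℝ (fun x => W (ε⁻¹ • x)) z w'‖) ^ 2 ≤ (1 - lam) * ‖w'‖ ^ 2 := by
        rw [Real.norm_eq_abs, mul_pow, sq_abs]
        refine (mul_le_mul_of_nonneg_left (pow_le_pow_left₀ (norm_nonneg _) hdW 2)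
          (sq_nonneg c)).trans (le_of_eq ?_)
        rw [hc, mul_pow, mul_pow, Real.sq_sqrt hlt1.le]
        field_simp
      nlinarith [mul_pos hlam hpos]
    · have h := pd_iff.1 (hlp _ (mem_univ _) φ x rfl) w hw
      change 0 < bil (gc g φ x - lp ^ 2 • met (fun z => f1 (φ.toFun z)) x) w w at h
      rw [Tn.bil_sub, bil_smul] at h
      have e1 := (sumExt_eventuallyEq (f := fun p => lp • f1 p) hD0 hp).comp_tendsto
        φ.continuous.continuousAt
      rw [bil_met, show fderiv ℝ (fun z => fb (φ.toFun z)) x = _ from e1.fderiv_eq,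
        show fderiv ℝ ((fun p => lp • f1 p) ∘ φ.toFun) x = _ from
          fderiv_fun_const_smul ((φ.contDiff_comp hf1).differentiable (by simp) x) lp]
      rw [bil_met] at h
      simp only [smul_apply, real_inner_smul_left, real_inner_smul_right]
      linarith [h]
  · -- the flat piece
    have hx : ‖ε • y‖ < ε * R3 := by
      rw [norm_smul, Real.norm_eq_abs, abs_of_pos hε]; exact mul_lt_mul_of_pos_left (by linarith) hε
    have hx' : ‖ε • y‖ < ρ q := hx.trans (hρε q)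
    have hy' : ε⁻¹ • ε • y = y := inv_smul_smul₀ hε.ne' y
    refine ⟨by rw [hfbψ q _ hx'.le, hy', (hWin y hy.le).1], ?_⟩
    have hn : nrmM fb vb ((ψ q).toFun (ε • y)) = R q (P.V y) := by
      rw [nrmM_chart hfb, hvbψ q _ hx'.le]
      have e : nrm (fun z => fb ((ψ q).toFun z)) (ε • y) (R q (V (ε⁻¹ • ε • y))) =
          nrm (fun z => lp • f0 ((ψ q).toFun 0) + c • R q (W (ε⁻¹ • z))) (ε • y)
            (R q (V (ε⁻¹ • ε • y))) := by simp only [nrm, (hfbev q _ hx').fderiv_eq]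
      rw [e, (frame_piece hW _ hc0 hε.ne' (R q) (ε • y) _ (hWd _).1).2, hy', (hWin y hy.le).2]
      have hev : W =ᶠ[𝓝 y] P.F := ((continuous_norm.tendsto y).eventually (gt_mem_nhds hy)).mono
        fun z hz => (hWin z hz.le).1
      have : nrm W y (P.V y) = nrm P.F y (P.V y) := by simp only [nrm, hev.fderiv_eq]
      rw [this, nrm_self_of_orth _ _ fun v => by rw [real_inner_comm]; exact flat_orth P y v]
    rw [unitN, hn, (R q).norm_map, P.V_unit, inv_one, one_smul]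

end Vale.Agent.P205F.Start
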