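import Vale.Agent.P205F.Start.Interfaces
import Vale.Agent.P205F.GoodAlg.Im
import Vale.Agent.P205F.Chart.Frame
import Vale.Agent.P205F.Chart.Metric

/-!
# START: affine changes of the target and dilations of the parameters

Goodness, the normal projection and the second fundamental form under `f ↦ a + A ∘ f`.
-/

namespace Vale.Agent.P205F.Start

open scoped Manifold ContDiff RealInnerProductSpace Topology
open Set Function Filter

variable {X : Type*} [NormedAddCommGroup X] [NormedSpace ℝ X]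

lemma fderiv_affine {f : E2 → R4} (hf : ContDiff ℝ ∞ f) (a : R4) (A : R4 →L[ℝ] R4) (x : E2) :
    fderiv ℝ (fun z => a + A (f z)) x = A.comp (fderiv ℝ f x) := by
  rw [fderiv_const_add]
  exact (A.hasFDerivAt.comp x (hf.differentiable (by simp) x).hasFDerivAt).fderiv

lemma pd_affine {f : E2 → R4} (hf : ContDiff ℝ ∞ f) (a : R4) (A : R4 →L[ℝ] R4) (i : Fin 2)
    (x : E2) : pd i (fun z => a + A (f z)) x = A (pd i f x) := by
  simp [pd, fderiv_affine hf]

lemma contDiff_affine {f : E2 → R4} (hf : ContDiff ℝ ∞ f) (a : R4) (A : R4 →L[ℝ] R4) :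
    ContDiff ℝ ∞ fun z => a + A (f z) :=
  contDiff_const.add (A.contDiff.comp hf)

lemma Adj_affine {f : E2 → R4} {W : E2 → S3} (hf : ContDiff ℝ ∞ f) (hW : ContDiff ℝ ∞ W) (a : R4)
    (A : R4 →L[ℝ] R4) : Adj (fun z => a + A (f z)) W = fun x => A (Adj f W x) := by
  funext x
  have w : ∀ j, ContDiff ℝ ∞ fun z => W z j := contDiff_pi.1 hW
  have p := fun i => P205F.contDiff_pd hf i
  have v : ∀ i j, ContDiff ℝ ∞ fun z => W z i • pd 0 f z + W z j • pd 1 f z := fun i j =>
    ((w i).smul (p 0)).add ((w j).smul (p 1))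
  unfold Adj
  simp only [pd_affine hf, ← map_smul, ← map_add]
  have h : ∀ (i : Fin 2) (u : E2 → R4), ContDiff ℝ ∞ u →
      pd i (fun z => A (u z)) x = A (pd i u x) := fun i u hu => by
    unfold pd
    rw [show (fun z => A (u z)) = A ∘ u from rfl,
      fderiv_comp x A.differentiableAt (hu.differentiable (by simp) x), A.fderiv]
    rfl
  rw [h 0 _ (v 0 1), h 1 _ (v 1 2), map_add]

/-- Goodness is invariant under affine isomorphisms of the target. -/
theorem exists_ident_affine (I : Ident) (a : R4) (A : R4 ≃L[ℝ] R4) :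
    ∃ J : Ident, ∀ f, ContDiff ℝ ∞ f → ∀ x,
      J.den (jet J.N (fun z => a + A (f z)) x) = I.den (jet I.N f x) := by
  let B : R4 →L[ℝ] R4 := (A.symm : R4 →L[ℝ] R4)
  let L : Jet I.N →L[ℝ] Jet I.N := ContinuousLinearMap.pi fun k =>
    (ContinuousLinearMap.compContinuousMultilinearMapL ℝ (fun _ : Fin (k : ℕ) => E2) R4 R4 B).comp
      (ContinuousLinearMap.proj (R := ℝ)
        (φ := fun k : Fin (I.N + 1) => ContinuousMultilinearMap ℝ (fun _ : Fin (k : ℕ) => E2) R4) k)
  let T : Jet I.N → Jet I.N := fun z => L z - L (jet I.N (fun _ => a) 0)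
  have hT : Function.HasTemperateGrowth T := L.hasTemperateGrowth.sub (.const _)
  have key : ∀ f, ContDiff ℝ ∞ f → ∀ x, T (jet I.N f x) = jet I.N (fun z => B (f z - a)) x := by
    intro f hf x
    funext k
    have h1 : ContDiff ℝ (k : ℕ) fun z => f z - a := (hf.sub contDiff_const).of_le (by exact_mod_cast le_top)
    have e := B.iteratedFDeriv_comp_left h1.contDiffAt (i := (k : ℕ)) (x := x) le_rfl
    simp only [Function.comp_def] at e
    show B.compContinuousMultilinearMap (jet I.N f x k) -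
      B.compContinuousMultilinearMap (jet I.N (fun _ => a) 0 k) =
      iteratedFDeriv ℝ (k : ℕ) (fun z => B (f z - a)) x
    rw [e, fun_iteratedFDeriv_sub_apply (hf.of_le (by exact_mod_cast le_top)).contDiffAt contDiffAt_const]
    have ec : iteratedFDeriv ℝ (k : ℕ) (fun _ : E2 => a) x =
        iteratedFDeriv ℝ (k : ℕ) (fun _ : E2 => a) 0 := by
      cases (k : ℕ) with
      | zero => rfl
      | succ n => simp [iteratedFDeriv_succ_const]
    simp only [jet, ec]
    ext m
    simp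
  refine ⟨⟨I.N, I.L, fun z => I.den (T z),
    fun k z => (I.coef k (T z)).comp
      (ContinuousLinearMap.compContinuousMultilinearMapL ℝ (fun _ : Fin (k : ℕ) => E2) R4 R4 B),
    fun z => I.den_nonneg _, I.den_temperate.comp hT,
    fun k => tg_comp ((I.coef_temperate k).comp hT) (.const _),
    fun f W hf hW x => ?_⟩, fun f hf x => ?_⟩
  · have hg : ContDiff ℝ ∞ fun z => B (f z - a) := B.contDiff.comp (hf.sub contDiff_const)
    have hA := Adj_affine hg hW a (A : R4 →L[ℝ] R4)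
    simp only [B, ContinuousLinearEquiv.coe_coe, ContinuousLinearEquiv.apply_symm_apply,
      add_sub_cancel] at hA
    rw [key f hf x, I.recovers _ W hg hW x]
    refine Finset.sum_congr rfl fun k _ => ?_
    rw [ContinuousLinearMap.comp_apply, hA]
    congr 1
    have e := B.iteratedFDeriv_comp_left
      ((A : R4 →L[ℝ] R4).contDiff.comp (contDiff_Adj hg hW)).contDiffAt
      (i := (k : ℕ)) (x := x) (by exact_mod_cast le_top)
    simp only [Function.comp_def, B, ContinuousLinearEquiv.coe_coe,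
      ContinuousLinearEquiv.symm_apply_apply] at e
    exact e
  · show I.den (T (jet I.N (fun z => a + A (f z)) x)) = _
    rw [key (fun z => a + A (f z)) (contDiff_affine hf a (A : R4 →L[ℝ] R4))]
    simp [B]

/-- Scaling followed by an isometry. -/
noncomputable def simi (c : ℝ) (hc : c ≠ 0) (R : R4 ≃ₗᵢ[ℝ] R4) : R4 ≃L[ℝ] R4 :=
  R.toContinuousLinearEquiv.trans (ContinuousLinearEquiv.smulLeft (Units.mk0 c hc))

@[simp] lemma simi_apply (c : ℝ) (hc : c ≠ 0) (R : R4 ≃ₗᵢ[ℝ] R4) (v : R4) :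
    simi c hc R v = c • R v := rfl

/-- Goodness of `a + c R f`. -/
theorem gdAt_similar {f : E2 → R4} (hf : ContDiff ℝ ∞ f) (a : R4) {c : ℝ} (hc : c ≠ 0)
    (R : R4 ≃ₗᵢ[ℝ] R4) {x : E2} (h : GdAt f x) : GdAt (fun z => a + c • R (f z)) x := by
  obtain ⟨I, ψ, y, rfl, hy⟩ := h
  obtain ⟨J, hJ⟩ := exists_ident_affine I a (simi c hc R)
  refine ⟨J, ψ, y, rfl, ?_⟩
  have := hJ (fun z => f (ψ z)) (ψ.contDiff_comp hf.contMDiff) y
  simp only [simi_apply] at this
  rwa [this]

variable {f : E2 → R4}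

lemma fderiv_similar (hf : ContDiff ℝ ∞ f) (a : R4) (c : ℝ) (R : R4 ≃ₗᵢ[ℝ] R4) (x v : E2) :
    fderiv ℝ (fun z => a + c • R (f z)) x v = c • R (fderiv ℝ f x v) := by
  have := fderiv_affine hf a (c • (R.toContinuousLinearEquiv : R4 →L[ℝ] R4)) x
  exact DFunLike.congr_fun this v

lemma met_similar (hf : ContDiff ℝ ∞ f) (a : R4) (c : ℝ) (R : R4 ≃ₗᵢ[ℝ] R4) (x : E2) :
    met (fun z => a + c • R (f z)) x = c ^ 2 • met f x := by
  refine bil_inj fun v w => ?_
  rw [bil_smul, bil_met, bil_met, fderiv_similar hf, fderiv_similar hf, real_inner_smul_left,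
    real_inner_smul_right, R.inner_map_map]
  ring

lemma nrm_similar (hf : ContDiff ℝ ∞ f) (a : R4) {c : ℝ} (hc : c ≠ 0) (R : R4 ≃ₗᵢ[ℝ] R4)
    (x : E2) (u : R4) : nrm (fun z => a + c • R (f z)) x (R u) = R (nrm f x u) := by
  refine Submodule.eq_starProjection_of_mem_orthogonal'
    (z := R (u - nrm f x u)) ?_ ?_ ?_
  · rintro _ ⟨v, rfl⟩
    show ⟪fderiv ℝ (fun z => a + c • R (f z)) x v, _⟫ = 0
    rw [fderiv_similar hf, real_inner_smul_left, R.inner_map_map, nrm_mem, mul_zero]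
  · refine Submodule.le_orthogonal_orthogonal _ ?_
    have hm : u - nrm f x u ∈ LinearMap.range (fderiv ℝ f x).toLinearMap := by
      have h := Submodule.sub_starProjection_mem_orthogonal
        (K := (LinearMap.range (fderiv ℝ f x).toLinearMap)ᗮ) u
      rwa [Submodule.orthogonal_orthogonal] at h
    obtain ⟨v, hv⟩ := hm
    refine ⟨c⁻¹ • v, ?_⟩
    have hv' : fderiv ℝ f x v = u - nrm f x u := hv
    show fderiv ℝ (fun z => a + c • R (f z)) x (c⁻¹ • v) = _
    rw [map_smul, fderiv_similar hf, inv_smul_smul₀ hc, hv']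
  · rw [map_sub]; abel

lemma II_similar (hf : ContDiff ℝ ∞ f) (a : R4) {c : ℝ} (hc : c ≠ 0) (R : R4 ≃ₗᵢ[ℝ] R4)
    (x v : E2) : II (fun z => a + c • R (f z)) x v = c • R (II f x v) := by
  have h1 : (fun z => fderiv ℝ (fun z => a + c • R (f z)) z v) =
      fun z => c • R (fderiv ℝ f z v) := funext fun z => fderiv_similar hf a c R z v
  have h2 : ContDiff ℝ ∞ fun z => fderiv ℝ f z v :=
    (hf.fderiv_right (by exact_mod_cast le_top)).clm_apply contDiff_const
  have h3 := fderiv_similar h2 0 c R x v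
  simp only [zero_add] at h3
  rw [II, h1, h3, ← map_smul, nrm_similar hf a hc]
  simp [II, nrm]

lemma similar_injective (hf : ContDiff ℝ ∞ f) (a : R4) {c : ℝ} (hc : c ≠ 0) (R : R4 ≃ₗᵢ[ℝ] R4)
    {x : E2} (h : Injective (fderiv ℝ f x)) :
    Injective (fderiv ℝ (fun z => a + c • R (f z)) x) := fun v w hvw => by
  rw [fderiv_similar hf, fderiv_similar hf] at hvw
  exact h (R.injective (smul_right_injective R4 hc hvw))

/-- Dilation of the plane. -/
noncomputable def dilC (ε : ℝ) (hε : ε ≠ 0) : Chart E2 where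
  toFun y := ε • y
  inv y := ε⁻¹ • y
  open_emb := (Homeomorph.smulOfNeZero ε hε).isOpenEmbedding
  smooth := (contDiff_const_smul ε).contMDiff
  left_inv y := inv_smul_smul₀ hε y
  smooth_inv := (contDiff_const_smul ε⁻¹).contMDiff.contMDiffOn

variable {M : Type*} [TopologicalSpace M] [ChartedSpace E2 M]

/-- A chart read at scale `ε`. -/
noncomputable def dil (ψ : Chart M) (ε : ℝ) (hε : ε ≠ 0) : Chart M := ψ.comp (dilC ε hε)

@[simp] lemma dil_apply (ψ : Chart M) (ε : ℝ) (hε : ε ≠ 0) (y : E2) :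
    (dil ψ ε hε).toFun y = ψ.toFun (ε • y) := rfl

lemma range_dil (ψ : Chart M) (ε : ℝ) (hε : ε ≠ 0) :
    range (dil ψ ε hε).toFun = range ψ.toFun := by
  refine (ψ.range_comp_subset _).antisymm ?_
  rintro _ ⟨y, rfl⟩
  exact ⟨ε⁻¹ • y, congrArg ψ.toFun (smul_inv_smul₀ hε y)⟩

lemma trans_dil (ψ : Chart M) (ε : ℝ) (hε : ε ≠ 0) (y : E2) :
    ψ.trans (dil ψ ε hε) y = ε • y := by
  simp [Chart.trans, ψ.left_inv]

lemma gc_dil [IsManifold (𝓡 2) ∞ M] (g : Metric M) (ψ : Chart M) (ε : ℝ) (hε : ε ≠ 0) (y : E2) :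
    gc g (dil ψ ε hε) y = ε ^ 2 • gc g ψ (ε • y) := by
  refine bil_inj fun v w => ?_
  have h : (dil ψ ε hε).toFun y ∈ range ψ.toFun := ⟨ε • y, rfl⟩
  have hd : fderiv ℝ (ψ.trans (dil ψ ε hε)) y = ε • ContinuousLinearMap.id ℝ E2 := by
    rw [show ψ.trans (dil ψ ε hε) = fun z => ε • z from funext (trans_dil ψ ε hε)]
    exact ((hasFDerivAt_id y).const_smul ε).fderiv
  rw [bil_gc_change g ψ _ h, trans_dil, hd, bil_smul]
  simp [bil]
  ring

end Vale.Agent.P205F.Start
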