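import Vale.Agent.P205F.Start.FlatCurve
import Vale.Agent.P205F.Start.Affine
import Vale.Agent.P205F.GoodAlg.G1

/-!
# START: `FlatStmt`

A piece of a flat Hopf tube around a point where its goodness determinant is not zero, blown up.
-/

namespace Vale.Agent.P205F.Start

open scoped Manifold ContDiff RealInnerProductSpace Topology
open Set Function Filter

namespace Tube

/-- Polar components. -/
noncomputable def polar (cr sr a b : ℝ) : R4 :=
  !₂[cr * Real.cos a, cr * Real.sin a, sr * Real.cos b, sr * Real.sin b]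

/-- The tube. -/
noncomputable def tube (z : E2) : R4 :=
  polar (Real.cos (rad (z 0))) (Real.sin (rad (z 0))) (alp (z 0) + z 1) (bet (z 0) + z 1)

/-- Its derivative in `y`. -/
noncomputable def tU (z : E2) : R4 :=
  !₂[-(Real.cos (rad (z 0)) * Real.sin (alp (z 0) + z 1)),
    Real.cos (rad (z 0)) * Real.cos (alp (z 0) + z 1),
    -(Real.sin (rad (z 0)) * Real.sin (bet (z 0) + z 1)),
    Real.sin (rad (z 0)) * Real.cos (bet (z 0) + z 1)]

/-- Its derivative in `x`. -/
noncomputable def tT (z : E2) : R4 :=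
  !₂[Real.sin (rad (z 0)) * (-(r1 (z 0) * Real.cos (alp (z 0) + z 1))
      - spd (z 0) * Real.sin (alp (z 0) + z 1)),
    Real.sin (rad (z 0)) * (-(r1 (z 0) * Real.sin (alp (z 0) + z 1))
      + spd (z 0) * Real.cos (alp (z 0) + z 1)),
    Real.cos (rad (z 0)) * (r1 (z 0) * Real.cos (bet (z 0) + z 1)
      + spd (z 0) * Real.sin (bet (z 0) + z 1)),
    Real.cos (rad (z 0)) * (r1 (z 0) * Real.sin (bet (z 0) + z 1)
      - spd (z 0) * Real.cos (bet (z 0) + z 1))]

/-- The other normal, `i` times `tT`. -/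
noncomputable def tN (z : E2) : R4 :=
  !₂[-tT z 1, tT z 0, -tT z 3, tT z 2]

variable (z : E2)

lemma contDiff_tube : ContDiff ℝ ∞ tube := by
  have p : ∀ i : Fin 2, ContDiff ℝ ∞ fun z : E2 => z i := fun i =>
    (EuclideanSpace.proj (𝕜 := ℝ) i).contDiff
  have c := (Real.contDiff_cos.comp contDiff_rad).comp (p 0)
  have s := (Real.contDiff_sin.comp contDiff_rad).comp (p 0)
  have a := ((contDiff_primitive hasDerivAt_alp contDiff_angA).comp (p 0)).add (p 1)
  have b := ((contDiff_primitive hasDerivAt_bet contDiff_angB).comp (p 0)).add (p 1)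
  rw [contDiff_piLp]
  intro j
  fin_cases j
  · exact c.mul (Real.contDiff_cos.comp a)
  · exact c.mul (Real.contDiff_sin.comp a)
  · exact s.mul (Real.contDiff_cos.comp b)
  · exact s.mul (Real.contDiff_sin.comp b)

/-- A partial derivative from the derivatives of the components along a line. -/
lemma pd_eq {f : E2 → R4} (hf : ContDiff ℝ ∞ f) (i : Fin 2) (x : E2) (v : R4)
    (h : ∀ j, HasDerivAt (fun s : ℝ => f (x + s • ev i) j) (v j) 0) : pd i f x = v := by
  have hl : HasDerivAt (fun s : ℝ => x + s • ev i) (ev i) 0 := by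
    simpa using ((hasDerivAt_id (0 : ℝ)).smul_const (ev i)).const_add x
  have hd : HasFDerivAt f (fderiv ℝ f x) (x + (0 : ℝ) • ev i) := by
    simpa using (hf.differentiable (by simp) x).hasFDerivAt
  have hF := hd.comp_hasDerivAt (0 : ℝ) hl
  ext j
  exact (((EuclideanSpace.proj (𝕜 := ℝ) j).hasFDerivAt).comp_hasDerivAt (0 : ℝ) hF).unique (h j)

lemma line0 (x : E2) (s : ℝ) : (x + s • ev 0) 0 = x 0 + s ∧ (x + s • ev 0) 1 = x 1 := by
  simp [ev]

lemma line1 (x : E2) (s : ℝ) : (x + s • ev 1) 0 = x 0 ∧ (x + s • ev 1) 1 = x 1 + s := by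
  simp [ev]

section Derivs

variable (s t : ℝ)

lemma d_cr : HasDerivAt (fun u => Real.cos (rad u)) (-(Real.sin (rad s) * r1 s)) s :=
  (hasDerivAt_rad s).cos.congr_deriv (by ring)

lemma d_sr : HasDerivAt (fun u => Real.sin (rad u)) (Real.cos (rad s) * r1 s) s :=
  (hasDerivAt_rad s).sin

lemma d_ca : HasDerivAt (fun u => Real.cos (alp u + t)) (-(Real.sin (alp s + t) * angA s)) s :=
  ((hasDerivAt_alp s).add_const t).cos.congr_deriv (by ring)

lemma d_sa : HasDerivAt (fun u => Real.sin (alp u + t)) (Real.cos (alp s + t) * angA s) s :=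
  ((hasDerivAt_alp s).add_const t).sin

lemma d_cb : HasDerivAt (fun u => Real.cos (bet u + t)) (-(Real.sin (bet s + t) * angB s)) s :=
  ((hasDerivAt_bet s).add_const t).cos.congr_deriv (by ring)

lemma d_sb : HasDerivAt (fun u => Real.sin (bet u + t)) (Real.cos (bet s + t) * angB s) s :=
  ((hasDerivAt_bet s).add_const t).sin

lemma e_c (c : ℝ) : HasDerivAt (fun u => Real.cos (c + u)) (-Real.sin (c + t)) t :=
  ((hasDerivAt_id t).const_add c).cos.congr_deriv (by simp)

lemma e_s (c : ℝ) : HasDerivAt (fun u => Real.sin (c + u)) (Real.cos (c + t)) t :=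
  ((hasDerivAt_id t).const_add c).sin.congr_deriv (by simp)

end Derivs

lemma pd0_tube : pd 0 tube z = tT z := by
  refine pd_eq contDiff_tube 0 z _ fun j => ?_
  have h1 := cos_angA (z 0)
  have h2 := sin_angB (z 0)
  simp only [tube, line0 z]
  fin_cases j
  · exact (HasDerivAt.comp_const_add (z 0) 0
      (f := fun u => Real.cos (rad u) * Real.cos (alp u + z 1))
      (by rw [add_zero]; exact (d_cr _).mul (d_ca _ _))).congr_deriv (by
        simp [tT]; linear_combination (-Real.sin (alp (z 0) + z 1)) * h1)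
  · exact (HasDerivAt.comp_const_add (z 0) 0
      (f := fun u => Real.cos (rad u) * Real.sin (alp u + z 1))
      (by rw [add_zero]; exact (d_cr _).mul (d_sa _ _))).congr_deriv (by
        simp [tT]; linear_combination Real.cos (alp (z 0) + z 1) * h1)
  · exact (HasDerivAt.comp_const_add (z 0) 0
      (f := fun u => Real.sin (rad u) * Real.cos (bet u + z 1))
      (by rw [add_zero]; exact (d_sr _).mul (d_cb _ _))).congr_deriv (by
        simp [tT]; linear_combination (-Real.sin (bet (z 0) + z 1)) * h2)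
  · exact (HasDerivAt.comp_const_add (z 0) 0
      (f := fun u => Real.sin (rad u) * Real.sin (bet u + z 1))
      (by rw [add_zero]; exact (d_sr _).mul (d_sb _ _))).congr_deriv (by
        simp [tT]; linear_combination Real.cos (bet (z 0) + z 1) * h2)

lemma pd1_tube : pd 1 tube z = tU z := by
  refine pd_eq contDiff_tube 1 z _ fun j => ?_
  simp only [tube, line1 z, ← add_assoc]
  fin_cases j
  · exact (HasDerivAt.comp_const_add (z 1) 0 (f := fun u => Real.cos (alp (z 0) + u))
      (by rw [add_zero]; exact e_c _ _)).const_mul (Real.cos (rad (z 0)))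
        |>.congr_deriv (by simp [tU]) |>.congr_of_eventuallyEq
          (Eventually.of_forall fun u => by simp [polar, add_assoc])
  · exact (HasDerivAt.comp_const_add (z 1) 0 (f := fun u => Real.sin (alp (z 0) + u))
      (by rw [add_zero]; exact e_s _ _)).const_mul (Real.cos (rad (z 0)))
        |>.congr_deriv (by simp [tU]) |>.congr_of_eventuallyEq
          (Eventually.of_forall fun u => by simp [polar, add_assoc])
  · exact (HasDerivAt.comp_const_add (z 1) 0 (f := fun u => Real.cos (bet (z 0) + u))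
      (by rw [add_zero]; exact e_c _ _)).const_mul (Real.sin (rad (z 0)))
        |>.congr_deriv (by simp [tU]) |>.congr_of_eventuallyEq
          (Eventually.of_forall fun u => by simp [polar, add_assoc])
  · exact (HasDerivAt.comp_const_add (z 1) 0 (f := fun u => Real.sin (bet (z 0) + u))
      (by rw [add_zero]; exact e_s _ _)).const_mul (Real.sin (rad (z 0)))
        |>.congr_deriv (by simp [tU]) |>.congr_of_eventuallyEq
          (Eventually.of_forall fun u => by simp [polar, add_assoc])

lemma contDiff_tT : ContDiff ℝ ∞ tT := by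
  rw [show tT = pd 0 tube from funext fun z => (pd0_tube z).symm]
  exact P205F.contDiff_pd contDiff_tube 0

lemma contDiff_tU : ContDiff ℝ ∞ tU := by
  rw [show tU = pd 1 tube from funext fun z => (pd1_tube z).symm]
  exact P205F.contDiff_pd contDiff_tube 1

lemma fyy_tube : fyy tube z = -tube z := by
  rw [fyy, show pd 1 tube = tU from funext pd1_tube]
  refine pd_eq contDiff_tU 1 z _ fun j => ?_
  simp only [tU, line1 z, ← add_assoc]
  fin_cases j
  · exact (HasDerivAt.comp_const_add (z 1) 0 (f := fun u => Real.sin (alp (z 0) + u))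
      (by rw [add_zero]; exact e_s _ _)).const_mul (-Real.cos (rad (z 0)))
        |>.congr_deriv (by simp [tube, polar]) |>.congr_of_eventuallyEq
          (Eventually.of_forall fun u => by simp [add_assoc])
  · exact (HasDerivAt.comp_const_add (z 1) 0 (f := fun u => Real.cos (alp (z 0) + u))
      (by rw [add_zero]; exact e_c _ _)).const_mul (Real.cos (rad (z 0)))
        |>.congr_deriv (by simp [tube, polar]) |>.congr_of_eventuallyEq
          (Eventually.of_forall fun u => by simp [add_assoc])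
  · exact (HasDerivAt.comp_const_add (z 1) 0 (f := fun u => Real.sin (bet (z 0) + u))
      (by rw [add_zero]; exact e_s _ _)).const_mul (-Real.sin (rad (z 0)))
        |>.congr_deriv (by simp [tube, polar]) |>.congr_of_eventuallyEq
          (Eventually.of_forall fun u => by simp [add_assoc])
  · exact (HasDerivAt.comp_const_add (z 1) 0 (f := fun u => Real.cos (bet (z 0) + u))
      (by rw [add_zero]; exact e_c _ _)).const_mul (Real.sin (rad (z 0)))
        |>.congr_deriv (by simp [tube, polar]) |>.congr_of_eventuallyEq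
          (Eventually.of_forall fun u => by simp [add_assoc])

lemma fxy_tube : fxy tube z = tN z := by
  rw [fxy, pd_comm contDiff_tube 0 1, show pd 0 tube = tT from funext pd0_tube]
  refine pd_eq contDiff_tT 1 z _ fun j => ?_
  simp only [tT, line1 z, ← add_assoc]
  have hc : ∀ c : ℝ, HasDerivAt (fun u => Real.cos (c + z 1 + u)) (-Real.sin (c + z 1)) 0 :=
    fun c => by simpa using e_c 0 (c + z 1)
  have hs : ∀ c : ℝ, HasDerivAt (fun u => Real.sin (c + z 1 + u)) (Real.cos (c + z 1)) 0 :=
    fun c => by simpa using e_s 0 (c + z 1)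
  fin_cases j
  · exact ((((hc (alp (z 0))).const_mul (r1 (z 0))).neg).sub
      ((hs (alp (z 0))).const_mul (spd (z 0)))).const_mul (Real.sin (rad (z 0)))
      |>.congr_deriv (by simp [tN, tT] <;> first | ring1 | exact Or.inl (by ring1))
  · exact ((((hs (alp (z 0))).const_mul (r1 (z 0))).neg).add
      ((hc (alp (z 0))).const_mul (spd (z 0)))).const_mul (Real.sin (rad (z 0)))
      |>.congr_deriv (by simp [tN, tT] <;> first | ring1 | exact Or.inl (by ring1))
  · exact (((hc (bet (z 0))).const_mul (r1 (z 0))).add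
      ((hs (bet (z 0))).const_mul (spd (z 0)))).const_mul (Real.cos (rad (z 0)))
      |>.congr_deriv (by simp [tN, tT] <;> first | ring1 | exact Or.inl (by ring1))
  · exact (((hs (bet (z 0))).const_mul (r1 (z 0))).sub
      ((hc (bet (z 0))).const_mul (spd (z 0)))).const_mul (Real.cos (rad (z 0)))
      |>.congr_deriv (by simp [tN, tT] <;> first | ring1 | exact Or.inl (by ring1))

lemma kap_sin :
    (angA (z 0) * Real.sin (rad (z 0)) ^ 2 + angB (z 0) * Real.cos (rad (z 0)) ^ 2) *
        Real.sin (rad (z 0)) =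
      angA (z 0) * Real.sin (rad (z 0)) - spd (z 0) * Real.cos (rad (z 0)) ∧
    (angA (z 0) * Real.sin (rad (z 0)) ^ 2 + angB (z 0) * Real.cos (rad (z 0)) ^ 2) *
        Real.cos (rad (z 0)) =
      angB (z 0) * Real.cos (rad (z 0)) + spd (z 0) * Real.sin (rad (z 0)) := by
  have h1 := cos_angA (z 0)
  have h2 := sin_angB (z 0)
  have h3 := Real.sin_sq_add_cos_sq (rad (z 0))
  constructor
  · linear_combination Real.cos (rad (z 0)) ^ 2 * h2
      + (-Real.cos (rad (z 0)) * Real.sin (rad (z 0))) * h1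
      + (angA (z 0) * Real.sin (rad (z 0)) - spd (z 0) * Real.cos (rad (z 0))) * h3
  · linear_combination Real.sin (rad (z 0)) ^ 2 * h1
      + (-Real.cos (rad (z 0)) * Real.sin (rad (z 0))) * h2
      + (angB (z 0) * Real.cos (rad (z 0)) + spd (z 0) * Real.sin (rad (z 0))) * h3

lemma fxx_tube : fxx tube z = -tube z + kap (z 0) • tN z := by
  rw [fxx, show pd 0 tube = tT from funext pd0_tube]
  refine pd_eq contDiff_tT 0 z _ fun j => ?_
  obtain ⟨k1, k2⟩ := kap_sin z
  have h1 := cos_angA (z 0)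
  have h2 := sin_angB (z 0)
  have h4 := spd_sq (z 0)
  have hq : r2 (z 0) = spd (z 0) * (r2 (z 0) / spd (z 0)) := by
    field_simp [(spd_pos (z 0)).ne']
  have dr := hasDerivAt_r1 (z 0)
  have dw := hasDerivAt_spd (z 0)
  simp only [tT, line0 z]
  fin_cases j
  · exact (HasDerivAt.comp_const_add (z 0) 0
      (f := fun u => Real.sin (rad u) *
        (-(r1 u * Real.cos (alp u + z 1)) - spd u * Real.sin (alp u + z 1)))
      (by rw [add_zero]
          exact (d_sr _).mul ((dr.mul (d_ca _ _)).neg.sub (dw.mul (d_sa _ _))))).congr_deriv (by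
        simp [tube, polar, tN, tT, kap]
        linear_combination (-(r1 (z 0) * Real.sin (alp (z 0) + z 1))
            + spd (z 0) * Real.cos (alp (z 0) + z 1)) * k1
          - Real.sin (rad (z 0)) * Real.cos (alp (z 0) + z 1) * hq
          - Real.cos (rad (z 0)) * Real.cos (alp (z 0) + z 1) * h4)
  · exact (HasDerivAt.comp_const_add (z 0) 0
      (f := fun u => Real.sin (rad u) *
        (-(r1 u * Real.sin (alp u + z 1)) + spd u * Real.cos (alp u + z 1)))
      (by rw [add_zero]
          exact (d_sr _).mul ((dr.mul (d_sa _ _)).neg.add (dw.mul (d_ca _ _))))).congr_deriv (by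
        simp [tube, polar, tN, tT, kap]
        linear_combination (r1 (z 0) * Real.cos (alp (z 0) + z 1)
            + spd (z 0) * Real.sin (alp (z 0) + z 1)) * k1
          - Real.sin (rad (z 0)) * Real.sin (alp (z 0) + z 1) * hq
          - Real.cos (rad (z 0)) * Real.sin (alp (z 0) + z 1) * h4)
  · exact (HasDerivAt.comp_const_add (z 0) 0
      (f := fun u => Real.cos (rad u) *
        (r1 u * Real.cos (bet u + z 1) + spd u * Real.sin (bet u + z 1)))
      (by rw [add_zero]
          exact (d_cr _).mul ((dr.mul (d_cb _ _)).add (dw.mul (d_sb _ _))))).congr_deriv (by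
        simp [tube, polar, tN, tT, kap]
        linear_combination (r1 (z 0) * Real.sin (bet (z 0) + z 1)
            - spd (z 0) * Real.cos (bet (z 0) + z 1)) * k2
          + Real.cos (rad (z 0)) * Real.cos (bet (z 0) + z 1) * hq
          - Real.sin (rad (z 0)) * Real.cos (bet (z 0) + z 1) * h4)
  · exact (HasDerivAt.comp_const_add (z 0) 0
      (f := fun u => Real.cos (rad u) *
        (r1 u * Real.sin (bet u + z 1) - spd u * Real.cos (bet u + z 1)))
      (by rw [add_zero]
          exact (d_cr _).mul ((dr.mul (d_sb _ _)).sub (dw.mul (d_cb _ _))))).congr_deriv (by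
        simp [tube, polar, tN, tT, kap]
        linear_combination (-(r1 (z 0) * Real.cos (bet (z 0) + z 1))
            - spd (z 0) * Real.sin (bet (z 0) + z 1)) * k2
          + Real.cos (rad (z 0)) * Real.sin (bet (z 0) + z 1) * hq
          - Real.sin (rad (z 0)) * Real.sin (bet (z 0) + z 1) * h4)

/-- The frame is orthonormal. -/
theorem frame : ⟪tube z, tube z⟫ = 1 ∧ ⟪tT z, tT z⟫ = 1 ∧ ⟪tU z, tU z⟫ = 1 ∧ ⟪tN z, tN z⟫ = 1 ∧
    ⟪tube z, tT z⟫ = 0 ∧ ⟪tube z, tU z⟫ = 0 ∧ ⟪tube z, tN z⟫ = 0 ∧ ⟪tT z, tU z⟫ = 0 ∧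
    ⟪tT z, tN z⟫ = 0 ∧ ⟪tU z, tN z⟫ = 0 := by
  have a := Real.sin_sq_add_cos_sq (alp (z 0) + z 1)
  have b := Real.sin_sq_add_cos_sq (bet (z 0) + z 1)
  have r := Real.sin_sq_add_cos_sq (rad (z 0))
  have w := spd_sq (z 0)
  simp only [inner_R4, tube, tT, tU, tN, polar, PiLp.toLp_apply, Matrix.cons_val_zero,
    Matrix.cons_val_one, Matrix.cons_val_two, Matrix.cons_val_three, Matrix.head_cons,
    Matrix.tail_cons, Matrix.cons_val]
  set cr := Real.cos (rad (z 0))
  set sr := Real.sin (rad (z 0))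
  set ca := Real.cos (alp (z 0) + z 1)
  set sa := Real.sin (alp (z 0) + z 1)
  set cb := Real.cos (bet (z 0) + z 1)
  set sb := Real.sin (bet (z 0) + z 1)
  set p := r1 (z 0)
  set q := spd (z 0)
  refine ⟨?_, ?_, ?_, ?_, ?_, ?_, ?_, ?_, ?_, ?_⟩
  · linear_combination cr ^ 2 * a + sr ^ 2 * b + r
  · linear_combination sr ^ 2 * (p ^ 2 + q ^ 2) * a + cr ^ 2 * (p ^ 2 + q ^ 2) * b
      + (p ^ 2 + q ^ 2) * r + w
  · linear_combination cr ^ 2 * a + sr ^ 2 * b + r
  · linear_combination sr ^ 2 * (p ^ 2 + q ^ 2) * a + cr ^ 2 * (p ^ 2 + q ^ 2) * b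
      + (p ^ 2 + q ^ 2) * r + w
  · linear_combination (-(cr * sr * p)) * a + cr * sr * p * b
  · ring
  · linear_combination (-(cr * sr * q)) * a + cr * sr * q * b
  · linear_combination cr * sr * q * a - cr * sr * q * b
  · ring
  · linear_combination (-(cr * sr * p)) * a + cr * sr * p * b

/-- The normal used by the adjoint equations. -/
theorem nu1_tube : nu1 tube z = -tN z := by
  have a := Real.sin_sq_add_cos_sq (alp (z 0) + z 1)
  have b := Real.sin_sq_add_cos_sq (bet (z 0) + z 1)
  have r := Real.sin_sq_add_cos_sq (rad (z 0))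
  rw [nu1, pd0_tube, pd1_tube, fyy_tube]
  set cr := Real.cos (rad (z 0)) with hcr
  set sr := Real.sin (rad (z 0)) with hsr
  set ca := Real.cos (alp (z 0) + z 1) with hca
  set sa := Real.sin (alp (z 0) + z 1) with hsa
  set cb := Real.cos (bet (z 0) + z 1) with hcb
  set sb := Real.sin (bet (z 0) + z 1) with hsb
  set p := r1 (z 0) with hp
  set q := spd (z 0) with hq
  ext j
  fin_cases j <;>
    simp [cross, tube, tT, tU, tN, polar, ← hcr, ← hsr, ← hca, ← hsa, ← hcb, ← hsb, ← hp, ← hq]
  · linear_combination (sr * (q * ca - p * sa)) * ((sb ^ 2 + cb ^ 2) * r + b)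
  · linear_combination (sr * (q * sa + p * ca)) * ((sb ^ 2 + cb ^ 2) * r + b)
  · linear_combination (-(cr * (q * cb - p * sb))) * ((sa ^ 2 + ca ^ 2) * r + a)
  · linear_combination (-(cr * (q * sb + p * cb))) * ((sa ^ 2 + ca ^ 2) * r + a)

lemma norms : ‖tN z‖ = 1 ∧ ‖tT z‖ = 1 ∧ ‖tU z‖ = 1 := by
  obtain ⟨-, hT, hU, hN, -⟩ := frame z
  simp only [norm_eq_sqrt_real_inner, hT, hU, hN, Real.sqrt_one, and_self]

lemma kk_tube : kk tube z = -kap (z 0) := by
  obtain ⟨-, -, -, hN, -, -, hFN, -, -, -⟩ := frame z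
  simp [kk, fxx_tube, nu1_tube, inner_add_left, inner_smul_left, (norms z).1, hFN]

lemma DD_tube : DD tube z = -2 := by
  obtain ⟨-, -, -, hN, -, -, hFN, -, -, -⟩ := frame z
  simp [DD, fxy_tube, nu1_tube, (norms z).1]

lemma bb_tube : bb tube z = -1 := by
  obtain ⟨-, -, -, hN, -, -, -, -, -, -⟩ := frame z
  have h : bb tube z = -⟪nu1 tube z, nu1 tube z⟫ := by
    rw [bb, nu2, real_inner_comm, cross_swap, neg_inj, real_inner_comm]
    rfl
  simp [h, nu1_tube, (norms z).1]

lemma cross_TUN : ⟪cross (tT z) (tU z) (tN z), tN z⟫ = 0 := cross_orth_right _ _ _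

lemma cc_tube : cc tube z = 0 := by
  rw [cc, nu2, real_inner_comm, cross_swap, fxy_tube, nu1_tube, pd0_tube, pd1_tube,
    inner_neg_right, cross_TUN]
  simp

lemma dd_tube : dd tube z = -1 := by
  obtain ⟨-, -, -, hN, -, -, -, -, -, -⟩ := frame z
  have h : dd tube z = ⟪fyy tube z, nu2 tube z⟫ + kap (z 0) * ⟪fxy tube z, nu2 tube z⟫ := by
    rw [dd, fxx_tube, fyy_tube, fxy_tube, inner_add_left, inner_smul_left]
    simp
  rw [h, show ⟪fyy tube z, nu2 tube z⟫ = bb tube z from rfl,
    show ⟪fxy tube z, nu2 tube z⟫ = cc tube z from rfl, bb_tube, cc_tube]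
  ring

lemma gdet_tube : gdet tube z = 1 := by
  obtain ⟨-, hT, hU, -, -, -, -, hTU, -, -⟩ := frame z
  simp [gdet, pd0_tube, pd1_tube, (norms z).2.1, (norms z).2.2, hTU]

lemma gam_tube (i : Fin 2) (j : Fin 3) : gam tube z i j = 0 := by
  obtain ⟨-, hT, hU, -, hFT, hFU, -, hTU, hTN, hUN⟩ := frame z
  have hFT' : ⟪tT z, tube z⟫ = 0 := by rw [real_inner_comm]; exact hFT
  have hFU' : ⟪tU z, tube z⟫ = 0 := by rw [real_inner_comm]; exact hFU
  fin_cases i <;> fin_cases j <;>
    simp [gam, tanv, pd0_tube, pd1_tube, fxx_tube, fxy_tube, fyy_tube, hTU, hTN, hUN,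
      hFT', hFU', inner_add_right, inner_smul_right, inner_smul_left]

lemma Del_tube : Del tube z = 1 := by simp [Del, gdet_tube, bb_tube]
lemma A10_tube : A10 tube z = 1 := by simp [A10, gdet_tube, bb_tube, dd_tube]
lemma A11_tube : A11 tube z = 0 := by simp [A11, cc_tube]
lemma B00_tube : B00 tube z = 0 := by simp [B00, gam_tube]
lemma B01_tube : B01 tube z = 0 := by simp [B01, gam_tube]

lemma pd_const' (c : ℝ) (i : Fin 2) : pd i (fun _ : E2 => c) z = 0 := by simp [pd]

lemma pd_coord {h : ℝ → ℝ} (hh : Differentiable ℝ h) :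
    pd 0 (fun y : E2 => h (y 0)) z = deriv h (z 0) ∧ pd 1 (fun y : E2 => h (y 0)) z = 0 := by
  have := ((hh (z 0)).hasDerivAt.comp_hasFDerivAt z
    (EuclideanSpace.proj (𝕜 := ℝ) (0 : Fin 2)).hasFDerivAt).fderiv
  simp only [pd, show (fun y : E2 => h (y 0)) = h ∘ ⇑(EuclideanSpace.proj (𝕜 := ℝ) (0 : Fin 2))
    from rfl, this]
  simp [ev]

lemma B10_tube : B10 tube z = 0 := by
  simp [B10, gam_tube, funext dd_tube, funext bb_tube, pd_const']

lemma B11_tube : B11 tube z = 0 := by
  simp [B11, gam_tube, funext cc_tube, funext bb_tube, pd_const']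

lemma alD_tube : alD tube z = 0 := by
  have hk : pd 1 (kk tube) z = 0 := by
    rw [show kk tube = fun y => (fun u => -kap u) (y 0) from funext kk_tube]
    exact (pd_coord z (contDiff_kap.differentiable (by simp)).neg).2
  simp [alD, B00_tube, B01_tube, hk, funext DD_tube, pd_const']

lemma pD_tube : pD tube z = 4 := by norm_num [pD, Del_tube, DD_tube]
lemma qD_tube : qD tube z = -2 * kap (z 0) := by simp [qD, Del_tube, DD_tube, kk_tube]

lemma piD_tube : piD tube z = 2 * kap (z 0) ^ 2 + 8 := by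
  simp [piD, Del_tube, DD_tube, kk_tube, A10_tube, A11_tube]
  ring

lemma beD_tube : beD tube z = 4 * deriv kap (z 0) := by
  have hk : pd 0 (kk tube) z = -deriv kap (z 0) := by
    rw [show kk tube = fun y => (fun u => -kap u) (y 0) from funext kk_tube,
      (pd_coord z (h := fun u => -kap u) (contDiff_kap.differentiable (by simp)).neg).1]
    simp
  simp [beD, Del_tube, DD_tube, B10_tube, B11_tube, alD_tube, A11_tube, hk, funext DD_tube,
    pd_const']
  ring

lemma step_tube (π : SF) {h : ℝ → ℝ} (hh : Differentiable ℝ h)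
    (hπ : ∀ y, π tube y = h (y 0)) :
    stepPi pD qD alD π tube z = 16 * deriv h (z 0) := by
  obtain ⟨d0, d1⟩ := pd_coord z hh
  have hq : pd 1 (qD tube) z = 0 := by
    rw [show qD tube = fun y => (fun u => -2 * kap u) (y 0) from funext qD_tube]
    exact (pd_coord z ((contDiff_kap.differentiable (by simp)).const_mul _)).2
  simp only [stepPi, show π tube = fun y => h (y 0) from funext hπ, d0, d1, funext pD_tube,
    alD_tube, hq, pd_const']
  ring

lemma stepB_tube (π β : SF) {h : ℝ → ℝ} (hh : Differentiable ℝ h)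
    (hβ : ∀ y, β tube y = h (y 0)) :
    stepBeta pD qD alD π β tube z = 16 * deriv h (z 0) := by
  obtain ⟨d0, d1⟩ := pd_coord z hh
  simp only [stepBeta, show β tube = fun y => h (y 0) from funext hβ, d0, d1, funext pD_tube,
    funext alD_tube, pd_const']
  ring

/-- The tube is good somewhere. -/
theorem exists_good : ∃ z : E2, GdAt tube z := by
  obtain ⟨s, hs⟩ := exists_point
  refine ⟨!₂[s, 0], ?_⟩
  set z : E2 := !₂[s, 0] with hz
  have hz0 : z 0 = s := by simp [z]
  have hk1 : Differentiable ℝ kap := contDiff_kap.differentiable (by simp)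
  have hk2 : Differentiable ℝ (deriv kap) :=
    (contDiff_infty_iff_deriv.1 contDiff_kap).2.differentiable (by simp)
  have e1 : (rowsD 1).1 tube z = 16 * (4 * kap s * deriv kap s) := by
    refine (step_tube z piD (h := fun u => 2 * kap u ^ 2 + 8) (by fun_prop) piD_tube).trans ?_
    rw [hz0, ((((hk1 s).hasDerivAt.fun_pow 2).const_mul 2).add_const 8).deriv]
    push_cast
    ring
  have e2 : (rowsD 1).2 tube z = 16 * (4 * deriv (deriv kap) s) := by
    refine (stepB_tube z piD beD (h := fun u => 4 * deriv kap u) (hk2.const_mul 4) beD_tube).trans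
      ?_
    rw [hz0, deriv_const_mul _ (hk2 s)]
  have hD : InIdl fun f x =>
      DD f x * ((rowsD 0).1 f x * (rowsD 1).2 f x - (rowsD 1).1 f x * (rowsD 0).2 f x) :=
    inIdl_D 0 1
  obtain ⟨I, hI⟩ := hD.exists_ident (JetFn.DD.mul
    (((rowsD_jetFn 0).1.mul (rowsD_jetFn 1).2).sub ((rowsD_jetFn 1).1.mul (rowsD_jetFn 0).2)))
  have hne : bb tube z * (DD tube z *
      ((rowsD 0).1 tube z * (rowsD 1).2 tube z - (rowsD 1).1 tube z * (rowsD 0).2 tube z)) ≠ 0 := by
    rw [bb_tube, DD_tube, e1, e2, show (rowsD 0).1 tube z = piD tube z from rfl,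
      show (rowsD 0).2 tube z = beD tube z from rfl, piD_tube, beD_tube, hz0]
    intro h
    exact hs (by linear_combination h / 256)
  refine ⟨I, dilC 1 one_ne_zero, z, one_smul ℝ z, ?_⟩
  show 0 < I.den (jet I.N (fun y => tube ((1 : ℝ) • y)) z)
  simp only [one_smul]
  rw [hI tube z contDiff_tube]
  exact lt_of_le_of_ne (sq_nonneg _) (Ne.symm (pow_ne_zero 2 hne))

/-- The second derivative along `tube`. -/
lemma second (v : E2) : fderiv ℝ (fun y => fderiv ℝ tube y v) z v =
    (v 0 ^ 2) • fxx tube z + (2 * v 0 * v 1) • fxy tube z + (v 1 ^ 2) • fyy tube z := by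
  have p := P205F.contDiff_pd contDiff_tube
  have e : (fun y => fderiv ℝ tube y v) = fun y => v 0 • pd 0 tube y + v 1 • pd 1 tube y :=
    funext fun y => apply_eq_pd tube y v
  have hs : ∀ (c : ℝ) (i j : Fin 2), pd j (fun y => c • pd i tube y) z =
      c • pd j (pd i tube) z := fun c i j => by
    have := pd_smul (a := fun _ : E2 => c) contDiff_const (p i) j z
    simpa [pd_const'] using this
  have s0 : ContDiff ℝ ∞ fun y => v 0 • pd 0 tube y := (p 0).const_smul _
  have s1 : ContDiff ℝ ∞ fun y => v 1 • pd 1 tube y := (p 1).const_smul _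
  rw [e, apply_eq_pd _ z v, pd_add s0 s1, pd_add s0 s1, hs, hs, hs, hs,
    pd_comm contDiff_tube 1 0 z]
  simp only [fxx, fxy, fyy]
  module

end Tube

/-- Translation and dilation of the plane. -/
noncomputable def scaleC (a : E2) (ε : ℝ) (hε : ε ≠ 0) : Chart E2 where
  toFun y := a + ε • y
  inv y := ε⁻¹ • (y - a)
  open_emb := ((Homeomorph.smulOfNeZero ε hε).trans (Homeomorph.addLeft a)).isOpenEmbedding
  smooth := (contDiff_const.add (contDiff_const_smul ε)).contMDiff
  left_inv y := by simp [inv_smul_smul₀ hε]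
  smooth_inv := ((contDiff_id.sub contDiff_const).const_smul ε⁻¹).contMDiff.contMDiffOn

open Tube in
/-- Flat pieces, as close to affine as desired, good on the ball of radius two. -/
theorem flatStmt : FlatStmt := by
  intro r hr
  obtain ⟨a, ha⟩ := exists_good
  have hG : ∀ᶠ y in 𝓝 a, GdAt tube y := GdAt.eventually contDiff_tube.contMDiff ha
  have hdT : Continuous (fderiv ℝ tube) := contDiff_tube.continuous_fderiv (by simp)
  have h1 : ∀ᶠ y in 𝓝 a, ‖fderiv ℝ tube y - fderiv ℝ tube a‖ < 1 / r := by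
    have := (hdT.continuousAt (x := a)).eventually (Metric.ball_mem_nhds _ (one_div_pos.2 hr))
    simpa [dist_eq_norm] using this
  have h2 : ∀ᶠ y in 𝓝 a, ‖tube y - tube a‖ < 1 / r := by
    have := (contDiff_tube.continuous.continuousAt (x := a)).eventually
      (Metric.ball_mem_nhds _ (one_div_pos.2 hr))
    simpa [dist_eq_norm] using this
  obtain ⟨δ, hδ, hb⟩ := Metric.eventually_nhds_iff.1 (hG.and (h1.and h2))
  set ρ : ℝ := δ / (r + 3) with hρdef
  have hρ : 0 < ρ := div_pos hδ (by linarith)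
  have hball : ∀ y : E2, ‖y‖ ≤ r + 2 → dist (a + ρ • y) a < δ := fun y hy => by
    rw [dist_eq_norm, add_sub_cancel_left, norm_smul, Real.norm_eq_abs, abs_of_pos hρ, hρdef,
      div_mul_eq_mul_div, div_lt_iff₀ (by linarith)]
    exact mul_lt_mul_of_pos_left (by linarith) hδ
  set F : E2 → R4 := fun y => ρ⁻¹ • (tube (a + ρ • y) - tube a) with hF
  have hF' : ∀ y, HasFDerivAt F (fderiv ℝ tube (a + ρ • y)) y := fun y => by
    have e : HasFDerivAt (fun y : E2 => a + ρ • y) (ρ • ContinuousLinearMap.id ℝ E2) y :=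
      ((hasFDerivAt_id y).const_smul ρ).const_add a
    refine ((((contDiff_tube.differentiable (by simp) _).hasFDerivAt.comp y e).sub_const
      (tube a)).const_smul ρ⁻¹).congr_fderiv ?_
    ext v
    simp [inv_smul_smul₀ hρ.ne']
  have hFd : ∀ y, fderiv ℝ F y = fderiv ℝ tube (a + ρ • y) := fun y => (hF' y).fderiv
  have hFs : ContDiff ℝ ∞ F :=
    ((contDiff_tube.comp (contDiff_const.add (contDiff_const_smul ρ))).sub
      contDiff_const).const_smul ρ⁻¹
  have hpd : ∀ i y, pd i F y = pd i tube (a + ρ • y) := fun i y => by simp [pd, hFd]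
  refine ⟨⟨F, fun y => -tube (a + ρ • y), ρ, hFs,
    (contDiff_tube.comp (contDiff_const.add (contDiff_const_smul ρ))).neg, by simp [hF], ?_, ?_, ?_,
    hρ, ?_⟩, ?_, ?_⟩
  · intro y
    obtain ⟨-, hT, hU⟩ := norms (a + ρ • y)
    obtain ⟨-, -, -, -, -, -, -, hTU, -, -⟩ := frame (a + ρ • y)
    simp [met, euc, hpd, pd0_tube, pd1_tube, hT, hU, hTU]
  · intro y
    obtain ⟨hFF, -⟩ := frame (a + ρ • y)
    rw [norm_neg, norm_eq_sqrt_real_inner, hFF, Real.sqrt_one]
  · intro y i
    obtain ⟨-, -, -, -, hFT, hFU, -, -, -, -⟩ := frame (a + ρ • y)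
    fin_cases i <;> simp [hpd, pd0_tube, pd1_tube, hFT, hFU]
  · intro y v
    have hd : (fun z => fderiv ℝ F z v) = fun z => fderiv ℝ tube (a + ρ • z) v :=
      funext fun z => by rw [hFd]
    have hs : fderiv ℝ (fun z => fderiv ℝ tube (a + ρ • z) v) y v =
        ρ • fderiv ℝ (fun z => fderiv ℝ tube z v) (a + ρ • y) v := by
      have hg : DifferentiableAt ℝ (fun z => fderiv ℝ tube z v) (a + ρ • y) :=
        (((contDiff_tube.fderiv_right (m := ∞) (by exact_mod_cast le_top)).clm_apply
          contDiff_const).differentiable (by simp)) _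
      have e : HasFDerivAt (fun z : E2 => a + ρ • z) (ρ • ContinuousLinearMap.id ℝ E2) y :=
        ((hasFDerivAt_id y).const_smul ρ).const_add a
      have := (hg.hasFDerivAt.comp y e).fderiv
      simp only [Function.comp_def] at this
      simp [this]
    obtain ⟨hFF, -, -, -, -, -, hFN, -, -, -⟩ := frame (a + ρ • y)
    rw [hd, hs, inner_smul_right, second, fxx_tube, fxy_tube, fyy_tube]
    simp only [inner_add_right, inner_smul_right, inner_neg_left, inner_neg_right, hFF, hFN]
    have hv : ‖v‖ ^ 2 = v 0 ^ 2 + v 1 ^ 2 := by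
      rw [EuclideanSpace.norm_sq_eq, Fin.sum_univ_two]
      simp
    rw [hv]
    exact le_of_eq (by ring)
  · intro y hy
    obtain ⟨-, hb1, hb2⟩ := hb (hball y (by linarith))
    obtain ⟨-, -, -⟩ := hb (hball 0 (by simp; linarith))
    refine ⟨?_, ?_⟩
    · show ‖fderiv ℝ F y - fderiv ℝ F 0‖ ≤ 1 / r
      simp only [hFd, smul_zero, add_zero]
      exact hb1.le
    · show ‖-tube (a + ρ • y) - -tube (a + ρ • (0 : E2))‖ ≤ 1 / r
      rw [smul_zero, add_zero, show -tube (a + ρ • y) - -tube a = -(tube (a + ρ • y) - tube a) by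
        abel, norm_neg]
      exact hb2.le
  · intro y hy
    show GdAt F y
    have hg : GdAt tube ((scaleC a ρ hρ.ne').toFun y) := (hb (hball y (by linarith))).1
    have h' := (gdAt_chart_iff (scaleC a ρ hρ.ne') tube y).2 hg
    have h3 := gdAt_similar (contDiff_tube.comp (contDiff_const.add (contDiff_const_smul ρ)))
      (-(ρ⁻¹ • tube a)) (inv_ne_zero hρ.ne') (LinearIsometryEquiv.refl ℝ R4) h'
    refine (congrArg (fun f => GdAt f y) ?_).mp h3
    funext z
    simp [hF, smul_sub, scaleC]
    abel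

end Vale.Agent.P205F.Start
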