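import Vale.Agent.P205F.Start.Common

/-!
# START: small scales and linear families of perturbations

The conditions used by the glue (immersion with a nonzero projected normal, goodness, positive
slack) are open in the parameters and the point.
-/

namespace Vale.Agent.P205F.Start

open scoped Manifold ContDiff RealInnerProductSpace Topology
open Set Function Filter

lemma contDiff_iterated {X : Type*} [NormedAddCommGroup X] [NormedSpace ℝ X] {f : E2 → X}
    (hf : ContDiff ℝ ∞ f) (i : ℕ) : Continuous (iteratedFDeriv ℝ i f) :=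
  hf.continuous_iteratedFDeriv (by exact_mod_cast le_top)

/-- At small scales a map is constant in `C^k`. -/
lemma small_scale {X : Type*} [NormedAddCommGroup X] [NormedSpace ℝ X] {G : E2 → X}
    (hG : ContDiff ℝ ∞ G) (h0 : G 0 = 0) (k : ℕ) {e : ℝ} (he : 0 < e) :
    ∀ᶠ ε in 𝓝[>] (0 : ℝ), BdOn (fun y => G (ε • y)) (Metric.ball 0 3) k e := by
  have hb : ∀ i : Fin (k + 1), ∃ C, ∀ z ∈ Metric.closedBall (0 : E2) 3,
      ‖iteratedFDeriv ℝ (i : ℕ) G z‖ ≤ C := fun i =>
    (isCompact_closedBall 0 3).exists_bound_of_continuousOn (contDiff_iterated hG i).continuousOn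
  choose C hC using hb
  obtain ⟨δ, hδ, hδe⟩ := Metric.continuousAt_iff.1 hG.continuous.continuousAt e he
  have ev1 : ∀ᶠ ε in 𝓝[>] (0 : ℝ), ε < 1 ∧ 3 * ε < δ ∧ ∀ i, ε * (|C i| + 1) < e := by
    have t : ∀ c : ℝ, ∀ b > 0, ∀ᶠ ε in 𝓝[>] (0 : ℝ), c * ε < b := fun c b hb =>
      nhdsWithin_le_nhds (((continuous_const.mul continuous_id).tendsto' 0 0 (mul_zero c)).eventually
        (gt_mem_nhds hb))
    filter_upwards [t 1 1 one_pos, t 3 δ hδ, eventually_all.2 fun i => t (|C i| + 1) e he]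
      with ε a b c
    exact ⟨by simpa using a, b, fun i => by rw [mul_comm]; exact c i⟩
  filter_upwards [ev1, self_mem_nhdsWithin] with ε ⟨h1, h3, hi⟩ (hpos : 0 < ε) y hy i hik
  have hy' : ‖y‖ < 3 := by simpa using hy
  have hεy : ‖ε • y‖ ≤ ε * 3 := by
    rw [norm_smul, Real.norm_eq_abs, abs_of_pos hpos]; gcongr
  rcases Nat.eq_zero_or_pos i with rfl | hpos_i
  · have := hδe (x := ε • y) (by rw [dist_zero_right]; linarith)
    rw [h0, dist_zero_right] at this
    rw [norm_iteratedFDeriv_zero]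
    exact this.le
  · let L : E2 →L[ℝ] E2 := ε • ContinuousLinearMap.id ℝ E2
    have hL : ‖L‖ ≤ ε := by
      refine L.opNorm_le_bound hpos.le fun v => ?_
      simp [L, norm_smul, abs_of_pos hpos]
    rw [show (fun y => G (ε • y)) = G ∘ L from rfl,
      L.iteratedFDeriv_comp_right hG y (by exact_mod_cast le_top)]
    refine (ContinuousMultilinearMap.norm_compContinuousLinearMap_le _ _).trans ?_
    have hz : L y ∈ Metric.closedBall (0 : E2) 3 := by
      rw [mem_closedBall_zero_iff]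
      exact hεy.trans (by nlinarith)
    calc ‖iteratedFDeriv ℝ i G (L y)‖ * ∏ _j : Fin i, ‖L‖
        ≤ (|C ⟨i, by omega⟩| + 1) * ε := by
          refine mul_le_mul ((hC ⟨i, by omega⟩ _ hz).trans
            ((le_abs_self _).trans (le_add_of_nonneg_right zero_le_one))) ?_
            (Finset.prod_nonneg fun _ _ => norm_nonneg _) (by positivity)
          rw [Finset.prod_const, Finset.card_univ, Fintype.card_fin]
          exact (pow_le_pow_left₀ (norm_nonneg _) hL i).trans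
            (pow_le_of_le_one hpos.le h1.le (by omega))
      _ ≤ e := by rw [mul_comm]; exact (hi _).le

/-- A small multiple of a smooth map is small in `C^k` on bounded sets. -/
lemma small_smul {X : Type*} [NormedAddCommGroup X] [NormedSpace ℝ X] {T : E2 → X}
    (hT : ContDiff ℝ ∞ T) (k : ℕ) {e : ℝ} (he : 0 < e) :
    ∀ᶠ η in 𝓝 (0 : ℝ), BdOn (fun y => η • T y) (Metric.ball 0 3) k e := by
  have hb : ∀ i : Fin (k + 1), ∃ C, ∀ z ∈ Metric.closedBall (0 : E2) 3,
      ‖iteratedFDeriv ℝ (i : ℕ) T z‖ ≤ C := fun i =>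
    (isCompact_closedBall 0 3).exists_bound_of_continuousOn (contDiff_iterated hT i).continuousOn
  choose C hC using hb
  have t : ∀ i : Fin (k + 1), ∀ᶠ η in 𝓝 (0 : ℝ), |η| * (|C i| + 1) < e := fun i =>
    ((continuous_abs.mul continuous_const).tendsto' 0 0 (by simp)).eventually (gt_mem_nhds he)
  filter_upwards [eventually_all.2 t] with η hη y hy i hik
  rw [iteratedFDeriv_const_smul_apply' (hT.of_le (by exact_mod_cast le_top)).contDiffAt, norm_smul,
    Real.norm_eq_abs]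
  exact (mul_le_mul_of_nonneg_left ((hC ⟨i, by omega⟩ y (Metric.ball_subset_closedBall hy)).trans
    ((le_abs_self _).trans (le_add_of_nonneg_right zero_le_one))) (abs_nonneg η)).trans (hη _).le

variable {M : Type*} [TopologicalSpace M] [ChartedSpace E2 M] [IsManifold (𝓡 2) ∞ M]

/-! ### Positivity -/

/-- Positivity at a point. -/
def PosAt (A : Ten M) (p : M) : Prop := ∀ (ψ : Chart M) x, ψ.toFun x = p → PD (A.val ψ x)

omit [IsManifold (𝓡 2) ∞ M] in
lemma posAt_iff (A : Ten M) (ψ : Chart M) (x : E2) : PosAt A (ψ.toFun x) ↔ PD (A.val ψ x) :=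
  ⟨fun h => h ψ x rfl, fun h φ _ hy => Tn.pd_change A ψ φ hy.symm h⟩

lemma isOpen_posAt {Z : Type*} [TopologicalSpace Z] (A : Z → Ten M)
    (h : ∀ ψ : Chart M, Continuous fun q : Z × E2 => (A q.1).val ψ q.2) :
    IsOpen {q : Z × M | PosAt (A q.1) q.2} :=
  isOpen_of_charts fun ψ => by
    simp only [mem_setOf_eq, posAt_iff]
    exact isOpen_pd.preimage (h ψ)

/-! ### Linear families -/

variable {d : ℕ} (f : M → R4) (Φ : Fin d → M → R4)

/-- The family. -/
def fam (l : Fin d → ℝ) (p : M) : R4 := f p + ∑ k, l k • Φ k p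

variable {f Φ}

omit [IsManifold (𝓡 2) ∞ M] in
lemma fam_smooth (hf : ContMDiff (𝓡 2) (𝓡 4) ∞ f) (hΦ : ∀ k, ContMDiff (𝓡 2) (𝓡 4) ∞ (Φ k))
    (l : Fin d → ℝ) : ContMDiff (𝓡 2) (𝓡 4) ∞ (fam f Φ l) :=
  hf.add (ContMDiff.sum fun k _ => by
    have hc : ContMDiff (𝓡 2) 𝓘(ℝ, ℝ) ∞ fun _ : M => l k := contMDiff_const
    exact hc.smul (hΦ k))

omit [IsManifold (𝓡 2) ∞ M] in
lemma continuous_iterated_fam (hf : ContMDiff (𝓡 2) (𝓡 4) ∞ f)
    (hΦ : ∀ k, ContMDiff (𝓡 2) (𝓡 4) ∞ (Φ k)) (ψ : Chart M) (i : ℕ) :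
    Continuous fun q : (Fin d → ℝ) × E2 =>
      iteratedFDeriv ℝ i (fun z => fam f Φ q.1 (ψ.toFun z)) q.2 := by
  have e : (fun q : (Fin d → ℝ) × E2 =>
      iteratedFDeriv ℝ i (fun z => fam f Φ q.1 (ψ.toFun z)) q.2) = fun q =>
      iteratedFDeriv ℝ i (fun z => f (ψ.toFun z)) q.2 +
        ∑ k, q.1 k • iteratedFDeriv ℝ i (fun z => Φ k (ψ.toFun z)) q.2 := by
    funext q
    have hs : ∀ {u : E2 → R4}, ContDiff ℝ ∞ u → ContDiffAt ℝ (i : ℕ) u q.2 := fun h =>
      (h.of_le (by exact_mod_cast le_top)).contDiffAt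
    have hΦ' : ∀ k, ContDiff ℝ ∞ fun z => q.1 k • Φ k (ψ.toFun z) := fun k =>
      (ψ.contDiff_comp (hΦ k)).const_smul _
    simp only [fam]
    rw [fun_iteratedFDeriv_add_apply (hs (ψ.contDiff_comp hf))
      (hs (ContDiff.sum fun k _ => hΦ' k)), iteratedFDeriv_fun_sum_apply fun k _ => hs (hΦ' k)]
    congr 1
    exact Finset.sum_congr rfl fun k _ =>
      iteratedFDeriv_const_smul_apply' (hs (ψ.contDiff_comp (hΦ k)))
  rw [e]
  exact ((contDiff_iterated (ψ.contDiff_comp hf) i).comp continuous_snd).add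
    (continuous_finsetSum _ fun k _ => ((continuous_apply k).comp continuous_fst).smul
      ((contDiff_iterated (ψ.contDiff_comp (hΦ k)) i).comp continuous_snd))

omit [IsManifold (𝓡 2) ∞ M] in
lemma continuous_fderiv_fam (hf : ContMDiff (𝓡 2) (𝓡 4) ∞ f)
    (hΦ : ∀ k, ContMDiff (𝓡 2) (𝓡 4) ∞ (Φ k)) (ψ : Chart M) :
    Continuous fun q : (Fin d → ℝ) × E2 => fderiv ℝ (fun z => fam f Φ q.1 (ψ.toFun z)) q.2 := by
  have h := (continuousMultilinearCurryFin1 ℝ E2 R4).continuous.comp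
    (continuous_iterated_fam hf hΦ ψ 1)
  refine h.congr fun q => ?_
  ext v
  simp [iteratedFDeriv_one_apply]

/-- Goodness is open along a family. -/
lemma isOpen_gdAt_fam (hf : ContMDiff (𝓡 2) (𝓡 4) ∞ f)
    (hΦ : ∀ k, ContMDiff (𝓡 2) (𝓡 4) ∞ (Φ k)) :
    IsOpen {q : (Fin d → ℝ) × M | GdAt (fam f Φ q.1) q.2} := by
  refine isOpen_iff_mem_nhds.2 ?_
  rintro ⟨l, p⟩ ⟨I, ψ, x, rfl, hx⟩
  have hc : Continuous fun q : (Fin d → ℝ) × E2 =>
      I.den (jet I.N (fun z => fam f Φ q.1 (ψ.toFun z)) q.2) :=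
    I.den_temperate.1.continuous.comp
      (continuous_pi fun k => continuous_iterated_fam hf hΦ ψ (k : ℕ))
  have he : Topology.IsOpenEmbedding (Prod.map (id : (Fin d → ℝ) → Fin d → ℝ) ψ.toFun) :=
    Topology.IsOpenEmbedding.id.prodMap ψ.open_emb
  refine mem_of_superset ((he.isOpenMap _ (isOpen_lt continuous_const hc)).mem_nhds
    ⟨(l, x), hx, rfl⟩) ?_
  rintro _ ⟨⟨l', x'⟩, hq, rfl⟩
  exact ⟨I, ψ, x', rfl, hq⟩

/-- `(w, t) ↦ Df w + t v`: injective iff immersed with `v` not tangent. -/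
noncomputable def frameMap (u : E2 → R4) (x : E2) (v : R4) : E2 × ℝ →L[ℝ] R4 :=
  (fderiv ℝ u x).coprod (ContinuousLinearMap.toSpanSingleton ℝ v)

lemma frameMap_iff (u : E2 → R4) (x : E2) (v : R4) :
    Injective (frameMap u x v) ↔ Injective (fderiv ℝ u x) ∧ nrm u x v ≠ 0 := by
  constructor
  · intro h
    refine ⟨fun a b e => (Prod.ext_iff.1 (@h (a, 0) (b, 0) (by simp [frameMap, e]))).1, fun h0 => ?_⟩
    have hm : v ∈ LinearMap.range (fderiv ℝ u x).toLinearMap := by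
      have := (Submodule.starProjection_apply_eq_zero_iff _).1 h0
      rwa [Submodule.orthogonal_orthogonal] at this
    obtain ⟨w, hw⟩ := hm
    have hw' : fderiv ℝ u x w = v := hw
    have := (Prod.ext_iff.1 (@h (w, -1) 0 (by simp [frameMap, hw']))).2
    simp at this
  · rintro ⟨hi, hn⟩
    rw [injective_iff_map_eq_zero]
    rintro ⟨w, t⟩ e
    simp [frameMap] at e
    have h1 := congrArg (nrmL u x) e
    rw [map_add, map_smul, map_zero, nrmL_apply, nrmL_apply, nrm_apply_range, zero_add,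
      smul_eq_zero] at h1
    have ht : t = 0 := h1.resolve_right hn
    rw [ht, zero_smul, add_zero] at e
    exact Prod.ext (hi (e.trans (map_zero _).symm)) ht

/-- Immersed with nonzero projection of `v`. -/
def Transv (f v : M → R4) (p : M) : Prop :=
  ∀ (ψ : Chart M) x, ψ.toFun x = p →
    Injective (frameMap (fun z => f (ψ.toFun z)) x (v (ψ.toFun x)))

omit [IsManifold (𝓡 2) ∞ M] in
lemma transv_iff {f : M → R4} (hf : ContMDiff (𝓡 2) (𝓡 4) ∞ f) (v : M → R4) (ψ : Chart M)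
    (x : E2) :
    Transv f v (ψ.toFun x) ↔ Injective (frameMap (fun z => f (ψ.toFun z)) x (v (ψ.toFun x))) := by
  refine ⟨fun h => h ψ x rfl, fun h φ y hy => ?_⟩
  rw [frameMap_iff] at h ⊢
  have hr : φ.toFun y ∈ range ψ.toFun := ⟨x, hy.symm⟩
  rw [nrm_change ψ φ hf hr, fderiv_change ψ φ hf hr, Chart.trans_eq hy, hy]
  exact ⟨h.1.comp (ψ.trans_fderiv_injective φ hr), h.2⟩

lemma isOpen_transv (hf : ContMDiff (𝓡 2) (𝓡 4) ∞ f)
    (hΦ : ∀ k, ContMDiff (𝓡 2) (𝓡 4) ∞ (Φ k)) {v : M → R4}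
    (hv : ContMDiff (𝓡 2) (𝓡 4) ∞ v) :
    IsOpen {q : (Fin d → ℝ) × M | Transv (fam f Φ q.1) v q.2} :=
  isOpen_of_charts fun ψ => by
    simp only [mem_setOf_eq, transv_iff (fam_smooth hf hΦ _)]
    refine ContinuousLinearMap.isOpen_injective.preimage ?_
    refine (continuous_clm_apply (𝕜 := ℝ) (E := E2 × ℝ) (F := R4)).2 fun w => ?_
    exact ((continuous_fderiv_fam hf hΦ ψ).clm_apply continuous_const).add
      (continuous_const.smul ((ψ.contDiff_comp hv).continuous.comp continuous_snd))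

end Vale.Agent.P205F.Start
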