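import Vale.Agent.P205F.Start.Family
import Vale.Agent.P205F.GoodAlg.Cov
import Vale.Agent.P205F.GoodAlg.RightInv
import Vale.Agent.P205F.Twist.Assembly
import Vale.Agent.P205F.NashMoser.Main

/-!
# START: the germ at unit scale

Nash-Moser near `√(1 - λ s²) F`: the error is `O(λ + e)`, the bounds are those of the flat piece.
-/

set_option maxSynthPendingDepth 3

namespace Vale.Agent.P205F.Start

open scoped Manifold ContDiff RealInnerProductSpace Topology
open Set Function Filter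

/-- Continuity of the derivatives of a family in both variables. -/
lemma continuous_iterated_param {X : Type*} [NormedAddCommGroup X] [NormedSpace ℝ X]
    {F : ℝ × E2 → X} (hF : ContDiff ℝ ∞ F) (i : ℕ) :
    Continuous fun q : ℝ × E2 => iteratedFDeriv ℝ i (fun y => F (q.1, y)) q.2 := by
  let L : E2 →L[ℝ] ℝ × E2 := ContinuousLinearMap.inr ℝ ℝ E2
  have e : (fun q : ℝ × E2 => iteratedFDeriv ℝ i (fun y => F (q.1, y)) q.2) = fun q =>
      (iteratedFDeriv ℝ i F q).compContinuousLinearMap fun _ : Fin i => L := by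
    funext q
    have h1 : (fun y => F (q.1, y)) = (fun z => F ((q.1, (0 : E2)) + z)) ∘ L := by
      funext y; simp [L]
    rw [h1, L.iteratedFDeriv_comp_right (f := fun z => F ((q.1, (0 : E2)) + z))
      (hF.comp (contDiff_const.add contDiff_id)) q.2 (i := i) (by exact_mod_cast le_top),
      iteratedFDeriv_comp_add_left]
    simp [L]
  rw [e]
  exact (ContinuousMultilinearMap.compContinuousLinearMapL (𝕜 := ℝ) (F := X)
    fun _ : Fin i => L).continuous.comp (hF.continuous_iteratedFDeriv (by exact_mod_cast le_top))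

/-- A family that vanishes at `t = 0` is small in `C^k` for small `t`. -/
lemma small_param {X : Type*} [NormedAddCommGroup X] [NormedSpace ℝ X] {F : ℝ × E2 → X}
    (hF : ContDiff ℝ ∞ F) (h0 : ∀ y, F (0, y) = 0) (r : ℝ) (k : ℕ) {e : ℝ} (he : 0 < e) :
    ∀ᶠ t in 𝓝 (0 : ℝ), BdOn (fun y => F (t, y)) (Metric.closedBall 0 r) k e := by
  have h : ∀ i : Fin (k + 1), ∀ᶠ t in 𝓝 (0 : ℝ), ∀ y ∈ Metric.closedBall (0 : E2) r,
      ‖iteratedFDeriv ℝ (i : ℕ) (fun y => F (t, y)) y‖ < e := fun i =>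
    (isCompact_closedBall 0 r).eventually_forall_of_forall_eventually fun y _ =>
      ((continuous_iterated_param hF i).norm.continuousAt (x := (0, y))).eventually
        (gt_mem_nhds (by simp [h0, he]))
  filter_upwards [eventually_all.2 h] with t ht y hy i hi
  exact (ht ⟨i, by omega⟩ y hy).le

/-- The normal projection as a function of the differential. -/
noncomputable def projN (p : (E2 →L[ℝ] R4) × R4) : R4 :=
  let a := p.1 (ev 0)
  let b := p.1 (ev 1)
  let Δ := ⟪a, a⟫ * ⟪b, b⟫ - ⟪a, b⟫ ^ 2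
  p.2 - ((⟪b, b⟫ * ⟪a, p.2⟫ - ⟪a, b⟫ * ⟪b, p.2⟫) / Δ) • a
    - ((⟪a, a⟫ * ⟪b, p.2⟫ - ⟪a, b⟫ * ⟪a, p.2⟫) / Δ) • b

lemma nrm_eq_projN {f : E2 → R4} {y : E2} (h : Injective (fderiv ℝ f y)) (v : R4) :
    nrm f y v = projN (fderiv ℝ f y, v) := by
  generalize hA : fderiv ℝ f y = A at h
  have hi : IsImm (⇑A) := fun x => by rw [A.fderiv]; exact h
  have e := nrm_formula hi 0 v
  simp only [nrm, pd, met, A.fderiv, Matrix.cons_val_zero, Matrix.cons_val_one,
    Matrix.cons_val_two, Matrix.head_cons, Matrix.tail_cons] at e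
  simp only [nrm, hA, projN]
  exact e

/-- The normalised projection as a function of the differential. -/
noncomputable def unitP (p : (E2 →L[ℝ] R4) × R4) : R4 := ‖projN p‖⁻¹ • projN p

/-- Where `unitP` is smooth. -/
def Ob : Set ((E2 →L[ℝ] R4) × R4) :=
  {p | Injective (p.1.coprod (ContinuousLinearMap.toSpanSingleton ℝ p.2))}

lemma mem_Ob_iff (f : E2 → R4) (y : E2) (v : R4) :
    (fderiv ℝ f y, v) ∈ Ob ↔ Injective (fderiv ℝ f y) ∧ nrm f y v ≠ 0 :=
  frameMap_iff f y v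

lemma isOpen_Ob : IsOpen Ob := by
  refine ContinuousLinearMap.isOpen_injective.preimage
    ((continuous_clm_apply (𝕜 := ℝ) (E := E2 × ℝ) (F := R4)).2 fun w => ?_)
  exact ((continuous_fst.clm_apply continuous_const).add (continuous_const.smul continuous_snd))

lemma unitP_smooth : ContDiffOn ℝ ∞ unitP Ob := by
  intro p hp
  have hA : ∀ i, ContDiffAt ℝ ∞ (fun q : (E2 →L[ℝ] R4) × R4 => q.1 (ev i)) p := fun i =>
    (contDiff_fst.clm_apply contDiff_const).contDiffAt
  have hi : Injective p.1 := fun a b e =>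
    (Prod.ext_iff.1 (@hp (a, 0) (b, 0) (by simp [e]))).1
  have hI : IsImm (⇑p.1) := fun x => by rw [p.1.fderiv]; exact hi
  have hΔ := (gram_pos hI 0).1.ne'
  simp only [met, pd, p.1.fderiv, Matrix.cons_val_zero, Matrix.cons_val_one, Matrix.cons_val_two,
    Matrix.head_cons, Matrix.tail_cons] at hΔ
  have hN : ContDiffAt ℝ ∞ projN p := by
    have hv : ContDiffAt ℝ ∞ (fun q : (E2 →L[ℝ] R4) × R4 => q.2) p := contDiff_snd.contDiffAt
    have d := (((hA 0).inner ℝ (hA 0)).mul ((hA 1).inner ℝ (hA 1))).sub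
      (((hA 0).inner ℝ (hA 1)).pow 2)
    exact (hv.sub ((((((hA 1).inner ℝ (hA 1)).mul ((hA 0).inner ℝ hv)).sub
      (((hA 0).inner ℝ (hA 1)).mul ((hA 1).inner ℝ hv))).div d hΔ).smul (hA 0))).sub
      ((((((hA 0).inner ℝ (hA 0)).mul ((hA 1).inner ℝ hv)).sub
      (((hA 0).inner ℝ (hA 1)).mul ((hA 0).inner ℝ hv))).div d hΔ).smul (hA 1))
  have hne : projN p ≠ 0 := by
    have h : (fderiv ℝ (⇑p.1) (0 : E2), p.2) ∈ Ob := by rw [p.1.fderiv]; exact hp
    have := ((mem_Ob_iff _ _ _).1 h).2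
    rwa [nrm_eq_projN (hI 0), p.1.fderiv] at this
  exact (((hN.norm ℝ hne).inv (norm_ne_zero_iff.2 hne)).smul hN).contDiffWithinAt

lemma norm_bil (q : S3) (v : E2) : |bil q v v| ≤ 2 * ‖q‖ * ‖v‖ ^ 2 := by
  have h : ∀ i, |q i| ≤ ‖q‖ := fun i => norm_le_pi_norm q i
  rw [EuclideanSpace.norm_sq_eq, Fin.sum_univ_two, Real.norm_eq_abs, Real.norm_eq_abs, sq_abs,
    sq_abs]
  have := abs_le.1 (h 0); have := abs_le.1 (h 1); have := abs_le.1 (h 2)
  simp only [bil, abs_le]
  constructor <;> nlinarith [sq_nonneg (v 0 + v 1), sq_nonneg (v 0 - v 1), norm_nonneg q]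

lemma bil_euc (v : E2) : bil euc v v = ‖v‖ ^ 2 := by
  rw [EuclideanSpace.norm_sq_eq, Fin.sum_univ_two]
  simp [bil, euc, pow_two]

lemma bil_near {q : S3} {e : ℝ} (h : ‖q - euc‖ ≤ e) (v : E2) :
    |bil q v v - ‖v‖ ^ 2| ≤ 2 * e * ‖v‖ ^ 2 := by
  have e1 : bil q v v - ‖v‖ ^ 2 = bil (q - euc) v v := by rw [Tn.bil_sub, bil_euc]
  rw [e1]
  exact (norm_bil _ v).trans (by gcongr)

lemma bdOn_zero {X : Type*} [NormedAddCommGroup X] [NormedSpace ℝ X] {f : E2 → X} {U : Set E2}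
    {k : ℕ} {B : ℝ} (h : BdOn f U k B) {y : E2} (hy : y ∈ U) : ‖f y‖ ≤ B := by
  simpa using h y hy 0 (Nat.zero_le _)

lemma norm_d2_eq {u : E2 → R4} (y : E2) :
    ‖fderiv ℝ (fderiv ℝ u) y‖ = ‖iteratedFDeriv ℝ 2 u y‖ := by
  rw [← norm_iteratedFDeriv_one, norm_iteratedFDeriv_fderiv]

lemma bdOn_smul {X : Type*} [NormedAddCommGroup X] [NormedSpace ℝ X] {a : E2 → ℝ} {u : E2 → X}
    (ha : ContDiff ℝ ∞ a) (hu : ContDiff ℝ ∞ u) {U : Set E2} {k : ℕ} {A e : ℝ} (hA0 : 0 ≤ A)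
    (hA : BdOn a U k A) (he : BdOn u U k e) :
    BdOn (fun y => a y • u y) U k (2 ^ k * A * e) := by
  intro y hy i hi
  have he0 : 0 ≤ e := (norm_nonneg _).trans (bdOn_zero he hy)
  refine (norm_iteratedFDeriv_smul_le (ha.of_le (by exact_mod_cast le_top : (i : WithTop ℕ∞) ≤ ∞))
    (hu.of_le (by exact_mod_cast le_top : (i : WithTop ℕ∞) ≤ ∞)) y le_rfl).trans ?_
  calc ∑ j ∈ Finset.range (i + 1), (i.choose j : ℝ) * ‖iteratedFDeriv ℝ j a y‖ *
        ‖iteratedFDeriv ℝ (i - j) u y‖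
      ≤ ∑ j ∈ Finset.range (i + 1), (i.choose j : ℝ) * (A * e) := by
        refine Finset.sum_le_sum fun j hj => ?_
        rw [mul_assoc]
        have hj' := Finset.mem_range.1 hj
        exact mul_le_mul_of_nonneg_left (mul_le_mul (hA y hy j (by omega)) (he y hy _ (by omega))
          (norm_nonneg _) hA0) (Nat.cast_nonneg _)
    _ = 2 ^ i * (A * e) := by
        rw [← Finset.sum_mul, ← Nat.cast_sum, Nat.sum_range_choose]; push_cast; rfl
    _ ≤ 2 ^ k * A * e := by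
        rw [mul_assoc]
        exact mul_le_mul_of_nonneg_right (pow_le_pow_right₀ one_le_two hi) (by positivity)

lemma bdOn_add {X : Type*} [NormedAddCommGroup X] [NormedSpace ℝ X] {u v : E2 → X}
    (hu : ContDiff ℝ ∞ u) (hv : ContDiff ℝ ∞ v) {U : Set E2} {k : ℕ} {a b : ℝ}
    (ha : BdOn u U k a) (hb : BdOn v U k b) : BdOn (fun y => u y + v y) U k (a + b) := by
  intro y hy i hi
  rw [fun_iteratedFDeriv_add_apply (hu.of_le (by exact_mod_cast le_top)).contDiffAt
    (hv.of_le (by exact_mod_cast le_top)).contDiffAt]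
  exact (norm_add_le _ _).trans (add_le_add (ha y hy i hi) (hb y hy i hi))

lemma slack_inner {lam e n G T : ℝ} (hl : 0 < lam) (hle : e ≤ lam / 32) (he : e ≤ 1 / 16)
    (hn : 0 < n) (h1 : |G - n| ≤ 2 * e * n) (h2 : |T| ≤ 2 * e * n) : 0 < lam * G - T := by
  have e1 := (abs_le.1 h1).1
  have e2 := (abs_le.1 h2).2
  have h3 : lam * (n * (1 - 2 * e)) ≤ lam * G := mul_le_mul_of_nonneg_left (by linarith) hl.le
  have h4 : lam * n * (2 * e) ≤ lam * n * (1 / 8) :=
    mul_le_mul_of_nonneg_left (by linarith) (by positivity)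
  have h5 : 2 * e * n ≤ lam / 16 * n := mul_le_mul_of_nonneg_right (by linarith) hn.le
  have h6 : 0 < lam * n := mul_pos hl hn
  linarith

lemma slack_outer {lam e n G T c : ℝ} (hl : 0 < lam) (hl1 : lam ≤ 1) (hle : e ≤ lam / 32)
    (hc0 : 0 ≤ c) (hc1 : c ≤ 1) (hn : 0 < n) (h1 : |G - n| ≤ 2 * e * n) (h2 : |T| ≤ 2 * e * n) :
    0 < (1 - c + c * lam) * G - (1 - c) * (1 - lam) * n - T := by
  have e1 := (abs_le.1 h1).1
  have e2 := (abs_le.1 h2).2
  have he0 : 0 ≤ e := by nlinarith [abs_nonneg T]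
  have ha0 : 0 ≤ 1 - c + c * lam := by nlinarith
  have ha1 : 1 - c + c * lam ≤ 1 := by nlinarith
  have h3 : (1 - c + c * lam) * (n - 2 * e * n) ≤ (1 - c + c * lam) * G :=
    mul_le_mul_of_nonneg_left (by linarith) ha0
  have h4 : (1 - c + c * lam) * (2 * e * n) ≤ 1 * (2 * e * n) :=
    mul_le_mul_of_nonneg_right ha1 (by positivity)
  have h5 : 4 * e * n ≤ lam / 8 * n := mul_le_mul_of_nonneg_right (by linarith) hn.le
  have h6 : 0 < lam * n := mul_pos hl hn
  linarith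

lemma cap_bounds {c e B1 B2 n G : ℝ} (hc : 0 < c) (he : e ≤ 1 / 16) (hB1 : 0 ≤ B1) (hB2 : 0 ≤ B2)
    (hn : 0 ≤ n) (h1 : |G - n| ≤ 2 * e * n) :
    (B2 + 1) * n ≤ 2 * (B1 + B2 + 2) * G ∧ (B1 + 1) ^ 2 * n ≤ (2 * (B1 + B2 + 2)) ^ 2 * G ∧
      c / 4 * G ≤ c / 2 * n := by
  obtain ⟨e1, e2⟩ := abs_le.1 h1
  have h5 : 2 * e * n ≤ 1 / 8 * n := mul_le_mul_of_nonneg_right (by linarith) hn
  have hG : 3 / 4 * n ≤ G := by linarith
  have hG0 : 0 ≤ G := by linarith
  refine ⟨?_, ?_, ?_⟩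
  · calc (B2 + 1) * n ≤ (2 * (B1 + B2 + 2) * (3 / 4)) * n :=
          mul_le_mul_of_nonneg_right (by linarith) hn
      _ = 2 * (B1 + B2 + 2) * (3 / 4 * n) := by ring
      _ ≤ _ := mul_le_mul_of_nonneg_left hG (by positivity)
  · calc (B1 + 1) ^ 2 * n ≤ ((2 * (B1 + B2 + 2)) ^ 2 * (3 / 4)) * n :=
          mul_le_mul_of_nonneg_right (by nlinarith) hn
      _ = (2 * (B1 + B2 + 2)) ^ 2 * (3 / 4 * n) := by ring
      _ ≤ _ := mul_le_mul_of_nonneg_left hG (by positivity)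
  · have : c / 4 * G ≤ c / 4 * (2 * n) := mul_le_mul_of_nonneg_left (by linarith) (by linarith)
    linarith

lemma fderiv_unitP {f V : E2 → R4} (hf : ContDiff ℝ ∞ f) (hV : ContDiff ℝ ∞ V) {y : E2}
    (h : (fderiv ℝ f y, V y) ∈ Ob) :
    fderiv ℝ (fun z => unitP (fderiv ℝ f z, V z)) y =
      (fderiv ℝ unitP (fderiv ℝ f y, V y)).comp ((fderiv ℝ (fderiv ℝ f) y).prod (fderiv ℝ V y)) := by
  have hne : (∞ : WithTop ℕ∞) ≠ 0 := by simp
  have h1 : DifferentiableAt ℝ (fderiv ℝ f) y :=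
    (hf.fderiv_right (m := ∞) (by simp)).differentiable hne y
  have h2 : DifferentiableAt ℝ V y := hV.differentiable hne y
  have h3 : DifferentiableAt ℝ unitP (fderiv ℝ f y, V y) :=
    (unitP_smooth.contDiffAt (isOpen_Ob.mem_nhds h)).differentiableAt hne
  have hp : HasFDerivAt (fun z => (fderiv ℝ f z, V z))
      ((fderiv ℝ (fderiv ℝ f) y).prod (fderiv ℝ V y)) y := h1.hasFDerivAt.prodMk h2.hasFDerivAt
  exact (h3.hasFDerivAt.comp y hp).fderiv

/-- Second order neighbours of the flat piece keep the cap. -/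
lemma cap_near (P : FlatPiece) : ∃ θ B1 B2 : ℝ, 0 < θ ∧ 0 ≤ B1 ∧ 0 ≤ B2 ∧
    ∀ f : E2 → R4, ContDiff ℝ ∞ f → ∀ y ∈ Metric.closedBall (0 : E2) 2,
      ‖fderiv ℝ f y - fderiv ℝ P.F y‖ < θ →
      ‖fderiv ℝ (fderiv ℝ f) y - fderiv ℝ (fderiv ℝ P.F) y‖ < θ →
      Injective (fderiv ℝ f y) ∧ nrm f y (P.V y) ≠ 0 ∧ ∀ v,
        ‖II f y v‖ ≤ (B2 + 1) * ‖v‖ ^ 2 ∧
        ‖fderiv ℝ (fun z => unitP (fderiv ℝ f z, P.V z)) y v‖ ^ 2 ≤ (B1 + 1) ^ 2 * ‖v‖ ^ 2 ∧
        P.c / 2 * ‖v‖ ^ 2 ≤ ⟪unitP (fderiv ℝ f y, P.V y), II f y v⟫ := by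
  -- second order tolerance
  let Q : (E2 →L[ℝ] R4) × (E2 →L[ℝ] E2 →L[ℝ] R4) → E2 → E2 →L[ℝ] R4 := fun u y =>
    (fderiv ℝ unitP (fderiv ℝ P.F y + u.1, P.V y)).comp
      ((fderiv ℝ (fderiv ℝ P.F) y + u.2).prod (fderiv ℝ P.V y))
  have hcF : Continuous (fderiv ℝ P.F) := P.smooth.continuous_fderiv (by simp)
  have hcH : Continuous (fderiv ℝ (fderiv ℝ P.F)) :=
    (P.smooth.fderiv_right (m := ∞) (by simp)).continuous_fderiv (by simp)
  have hcV : Continuous (fderiv ℝ P.V) := P.V_smooth.continuous_fderiv (by simp)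
  have hmem0 : ∀ y, (fderiv ℝ P.F y, P.V y) ∈ Ob ∧ unitP (fderiv ℝ P.F y, P.V y) = P.V y := by
    intro y
    have hn : nrm P.F y (P.V y) = P.V y := nrm_self_of_orth _ _ fun v => by
      rw [apply_eq_pd, inner_add_left, real_inner_smul_left, real_inner_smul_left,
        real_inner_comm, P.V_orth y 0, real_inner_comm, P.V_orth y 1]
      simp
    have hi : Injective (fderiv ℝ P.F y) := by
      rw [injective_iff_map_eq_zero]
      intro v hv
      have h := bil_met P.F y v v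
      rw [P.flat, bil_euc, hv, inner_zero_left] at h
      exact norm_eq_zero.1 (pow_eq_zero_iff two_ne_zero |>.1 h)
    have hne : nrm P.F y (P.V y) ≠ 0 := by
      rw [hn]; intro h; simpa [h] using P.V_unit y
    refine ⟨(mem_Ob_iff _ _ _).2 ⟨hi, hne⟩, ?_⟩
    rw [unitP, ← nrm_eq_projN hi, hn, P.V_unit, inv_one, one_smul]
  have hQc : ∀ y, ContinuousAt (fun q : ((E2 →L[ℝ] R4) × (E2 →L[ℝ] E2 →L[ℝ] R4)) × E2 =>
      Q q.1 q.2) (0, y) := by
    intro y
    have hd : ContinuousAt (fderiv ℝ unitP) (fderiv ℝ P.F y, P.V y) :=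
      (unitP_smooth.continuousOn_fderiv_of_isOpen isOpen_Ob (by simp)).continuousAt
        (isOpen_Ob.mem_nhds (hmem0 y).1)
    refine ContinuousAt.clm_comp ?_ ?_
    · exact ContinuousAt.comp (g := fderiv ℝ unitP) (by simpa using hd) (((hcF.comp continuous_snd).add
        (continuous_fst.comp continuous_fst)).prodMk
        (P.V_smooth.continuous.comp continuous_snd)).continuousAt
    · refine Continuous.continuousAt ?_
      refine (continuous_clm_apply (𝕜 := ℝ) (E := E2) (F := (E2 →L[ℝ] R4) × R4)).2 fun w => ?_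
      exact (((hcH.comp continuous_snd).add (continuous_snd.comp continuous_fst)).clm_apply
        continuous_const).prodMk ((hcV.comp continuous_snd).clm_apply continuous_const)
  obtain ⟨B1, hB1⟩ := (isCompact_closedBall (0 : E2) 2).exists_bound_of_continuousOn
    (f := fun y => Q 0 y) fun y _ => (ContinuousAt.comp (f := fun z => ((0 : _ × _), z)) (hQc y)
      (continuous_const.prodMk continuous_id).continuousAt).continuousWithinAt
  obtain ⟨B2, hB2⟩ := (isCompact_closedBall (0 : E2) 2).exists_bound_of_continuousOn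
    hcH.continuousOn
  have hgoodu : ∀ᶠ u in 𝓝 (0 : (E2 →L[ℝ] R4) × (E2 →L[ℝ] E2 →L[ℝ] R4)),
      ∀ y ∈ Metric.closedBall (0 : E2) 2, (fderiv ℝ P.F y + u.1, P.V y) ∈ Ob ∧ ‖Q u y‖ < B1 + 1 ∧
        ‖fderiv ℝ (fderiv ℝ P.F) y + u.2‖ < B2 + 1 ∧
        ‖unitP (fderiv ℝ P.F y + u.1, P.V y) - P.V y‖ * (B2 + 1) + ‖u.2‖ < P.c / 2 := by
    refine (isCompact_closedBall 0 2).eventually_forall_of_forall_eventually fun y hy => ?_
    have hp : Continuous fun q : ((E2 →L[ℝ] R4) × (E2 →L[ℝ] E2 →L[ℝ] R4)) × E2 =>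
        (fderiv ℝ P.F q.2 + q.1.1, P.V q.2) :=
      ((hcF.comp continuous_snd).add (continuous_fst.comp continuous_fst)).prodMk
        (P.V_smooth.continuous.comp continuous_snd)
    have hu : ContinuousAt unitP (fderiv ℝ P.F y, P.V y) :=
      unitP_smooth.continuousOn.continuousAt (isOpen_Ob.mem_nhds (hmem0 y).1)
    refine (hp.continuousAt.eventually (isOpen_Ob.mem_nhds (by simpa using (hmem0 y).1))).and
      (((hQc y).norm.eventually (gt_mem_nhds (lt_of_le_of_lt (hB1 y hy) (by linarith)))).and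
      ((((hcH.comp continuous_snd).add (continuous_snd.comp continuous_fst)).norm.continuousAt
        (x := (0, y))).eventually (gt_mem_nhds (by
          simpa using lt_of_le_of_lt (hB2 y hy) (by linarith))) |>.and ?_))
    refine (ContinuousAt.add (((ContinuousAt.comp (g := unitP) (by simpa using hu)
      hp.continuousAt).sub (P.V_smooth.continuous.comp continuous_snd).continuousAt).norm.mul
      continuousAt_const) (continuous_snd.comp continuous_fst).norm.continuousAt).eventually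
      (gt_mem_nhds ?_)
    simp [(hmem0 y).2, P.c_pos]
  obtain ⟨θ, hθ, hgoodu⟩ := Metric.eventually_nhds_iff_ball.1 hgoodu
  refine ⟨θ, B1, B2, hθ, (norm_nonneg _).trans (hB1 0 (by simp)),
    (norm_nonneg _).trans (hB2 0 (by simp)), fun f hf y hy h1 h2 => ?_⟩
  have h := hgoodu (fderiv ℝ f y - fderiv ℝ P.F y,
    fderiv ℝ (fderiv ℝ f) y - fderiv ℝ (fderiv ℝ P.F) y)
    (by rw [mem_ball_zero_iff, Prod.norm_def]; exact max_lt h1 h2) y hy
  simp only [Q, add_sub_cancel] at h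
  obtain ⟨hmem, hdn, hH, hsum⟩ := h
  refine ⟨((mem_Ob_iff _ _ _).1 hmem).1, ((mem_Ob_iff _ _ _).1 hmem).2, fun v => ?_⟩
  have hHv : fderiv ℝ (fun z => fderiv ℝ f z v) y v = fderiv ℝ (fderiv ℝ f) y v v := by
    rw [fderiv_clm_apply ((hf.fderiv_right (m := ∞) (by simp)).differentiable (by simp) y)
      (differentiableAt_const v)]
    simp
  have hII : ‖II f y v‖ ≤ (B2 + 1) * ‖v‖ ^ 2 := by
    rw [II, hHv]
    refine (Twist.norm_nrm_le _ _ _).trans ?_
    calc ‖fderiv ℝ (fderiv ℝ f) y v v‖ ≤ ‖fderiv ℝ (fderiv ℝ f) y‖ * ‖v‖ * ‖v‖ :=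
          (fderiv ℝ (fderiv ℝ f) y).le_opNorm₂ v v
      _ ≤ _ := by rw [mul_assoc, ← pow_two]; exact mul_le_mul_of_nonneg_right hH.le (by positivity)
  have hdn' : fderiv ℝ (fun z => unitP (fderiv ℝ f z, P.V z)) y =
      (fderiv ℝ unitP (fderiv ℝ f y, P.V y)).comp
        ((fderiv ℝ (fderiv ℝ f) y).prod (fderiv ℝ P.V y)) :=
    fderiv_unitP hf P.V_smooth hmem
  refine ⟨hII, ?_, ?_⟩
  · rw [hdn']
    refine (pow_le_pow_left₀ (norm_nonneg _) ((ContinuousLinearMap.le_opNorm _ v).trans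
      (mul_le_mul_of_nonneg_right hdn.le (norm_nonneg v))) 2).trans ?_
    rw [mul_pow]
  · obtain ⟨hi, hn⟩ := (mem_Ob_iff _ _ _).1 hmem
    have hperp : nrm f y (unitP (fderiv ℝ f y, P.V y)) = unitP (fderiv ℝ f y, P.V y) := by
      rw [unitP, ← nrm_eq_projN hi]
      show nrmL f y (‖nrm f y (P.V y)‖⁻¹ • nrm f y (P.V y)) = _
      rw [map_smul, nrmL_apply, nrm_idem]
    rw [II, inner_nrm, hperp, hHv]
    have hc := P.convex y v
    have hHv0 : fderiv ℝ (fun z => fderiv ℝ P.F z v) y v = fderiv ℝ (fderiv ℝ P.F) y v v := by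
      rw [fderiv_clm_apply ((P.smooth.fderiv_right (m := ∞) (by simp)).differentiable (by simp) y)
        (differentiableAt_const v)]
      simp
    rw [hHv0] at hc
    set n := unitP (fderiv ℝ f y, P.V y)
    set H := fderiv ℝ (fderiv ℝ f) y
    set H0 := fderiv ℝ (fderiv ℝ P.F) y
    have key : ⟪P.V y, H0 v v⟫ - (‖n - P.V y‖ * (B2 + 1) + ‖H - H0‖) * ‖v‖ ^ 2 ≤ ⟪n, H v v⟫ := by
      have e : ⟪n, H v v⟫ = ⟪P.V y, H0 v v⟫ + ⟪n - P.V y, H v v⟫ + ⟪P.V y, (H - H0) v v⟫ := by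
        simp [inner_sub_left, inner_sub_right]
        ring
      have b1 : ‖H v v‖ ≤ (B2 + 1) * ‖v‖ ^ 2 := by
        refine (H.le_opNorm₂ v v).trans ?_
        rw [mul_assoc, ← pow_two]
        exact mul_le_mul_of_nonneg_right hH.le (by positivity)
      have b2 : ‖(H - H0) v v‖ ≤ ‖H - H0‖ * ‖v‖ ^ 2 := by
        refine ((H - H0).le_opNorm₂ v v).trans (le_of_eq ?_)
        ring
      have a1 := (abs_le.1 ((abs_real_inner_le_norm (n - P.V y) (H v v)).trans
        (mul_le_mul_of_nonneg_left b1 (norm_nonneg _)))).1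
      have a2 := (abs_le.1 ((abs_real_inner_le_norm (P.V y) ((H - H0) v v)).trans
        (mul_le_mul_of_nonneg_left b2 (norm_nonneg _)))).1
      rw [P.V_unit, one_mul] at a2
      rw [e]; linarith
    have h5 : (‖n - P.V y‖ * (B2 + 1) + ‖H - H0‖) * ‖v‖ ^ 2 ≤ P.c / 2 * ‖v‖ ^ 2 :=
      mul_le_mul_of_nonneg_right hsum.le (sq_nonneg _)
    linarith

theorem germ : GermStmt := by
  intro P hPg
  have hC : GdChartStmt.{0} := gdChartStmt
  obtain ⟨I, hI⟩ := Twist.exists_ident_cover hC P.smooth (isCompact_closedBall (0 : E2) 2)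
    fun y hy => hPg y (by simpa using hy)
  obtain ⟨D, hD⟩ := transposeStmt I
  obtain ⟨k, s, hNM⟩ := NM.nmStmt D 3
  obtain ⟨C, hNM⟩ := hNM (Metric.ball (0 : E2) (7 / 4)) (Metric.closedBall 0 (3 / 2))
    Metric.isOpen_ball Metric.isBounded_ball (isCompact_closedBall _ _)
    (Metric.closedBall_subset_ball (by norm_num))
  have hs : ContDiff ℝ ∞ scut := by rw [scut_eq]; exact rcut_smooth _ _
  have hs01 : ∀ y, scut y ^ 2 ∈ Icc (0 : ℝ) 1 := fun y => by
    have := (scut_eq ▸ rcut_mem _ _ y : scut y ∈ Icc (0 : ℝ) 1)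
    exact ⟨sq_nonneg _, pow_le_one₀ this.1 this.2⟩
  let χ : E2 → ℝ := fun y => 1 - rcut 1 (9 / 4) y
  have hχ : ContDiff ℝ ∞ χ := contDiff_const.sub (rcut_smooth _ _)
  have hχ1 : ∀ y : E2, ‖y‖ ≤ 1 → χ y = 1 := fun y hy => by
    simp [χ, rcut_zero (a := 1) (b := 9 / 4) (r := 1) (by norm_num) (by norm_num) hy]
  have hχ0 : ∀ y : E2, 3 / 2 ≤ ‖y‖ → χ y = 0 := fun y hy => by
    simp [χ, rcut_one (a := 1) (b := 9 / 4) (r := 3 / 2) (by norm_num) (by norm_num) (by norm_num) hy]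
  have hχ01 : ∀ y, χ y ∈ Icc (0 : ℝ) 1 := fun y => by
    have := rcut_mem 1 (9 / 4) y
    exact ⟨by linarith [this.2], by linarith [this.1]⟩
  -- the family of bases; `1 - λ s²` stays positive for all `λ` after a cutoff
  let cl : ℝ → ℝ := fun t => t * (1 - Real.smoothTransition (4 * t - 2))
  have hcl : ∀ t ≤ (1 / 2 : ℝ), cl t = t := fun t ht => by
    simp [cl, Real.smoothTransition.zero_of_nonpos (show 4 * t - 2 ≤ 0 by linarith)]
  have hcl1 : ∀ t, cl t ≤ 3 / 4 := fun t => by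
    rcases le_or_gt t 0 with h | h
    · exact le_trans (mul_nonpos_of_nonpos_of_nonneg h
        (sub_nonneg.2 (Real.smoothTransition.le_one _))) (by norm_num)
    · rcases le_or_gt (3 / 4) t with h' | h'
      · simp [cl, Real.smoothTransition.one_of_one_le (show 1 ≤ 4 * t - 2 by linarith)]
        norm_num
      · have := Real.smoothTransition.nonneg (4 * t - 2)
        simp only [cl]; nlinarith
  have hcls : ContDiff ℝ ∞ cl := contDiff_id.mul (contDiff_const.sub
    (Real.smoothTransition.contDiff.comp ((contDiff_const.mul contDiff_id).sub contDiff_const)))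
  let b : ℝ × E2 → R4 := fun q => Real.sqrt (1 - cl q.1 * scut q.2 ^ 2) • P.F q.2
  have hb : ContDiff ℝ ∞ b := by
    have h : ContDiff ℝ ∞ fun q : ℝ × E2 => Real.sqrt (1 - cl q.1 * scut q.2 ^ 2) := ?_
    · exact h.smul (P.smooth.comp contDiff_snd)
    refine (contDiff_const.sub ((hcls.comp contDiff_fst).mul
      ((hs.comp contDiff_snd).pow 2))).sqrt fun q => ?_
    have h1 := hcl1 q.1
    have h2 := hs01 q.2
    intro h
    simp only [Function.comp_apply] at h
    nlinarith [h2.1, h2.2, mul_le_mul_of_nonneg_right h1 h2.1]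
  have hb' : ∀ t, ContDiff ℝ ∞ fun y => b (t, y) := fun t =>
    hb.comp (contDiff_const.prodMk contDiff_id)
  have hb0 : ∀ y, b (0, y) = P.F y := fun y => by simp [b, cl]
  -- bounds on the bases
  have hden : ∀ᶠ t in 𝓝 (0 : ℝ), ∀ y ∈ Metric.closedBall (0 : E2) 2,
      0 < I.den (jet I.N (fun z => b (t, z)) y) :=
    (isCompact_closedBall 0 2).eventually_forall_of_forall_eventually fun y hy => by
      refine ((I.den_temperate.1.continuous.comp
        (continuous_pi fun j => continuous_iterated_param hb (j : ℕ))).continuousAt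
        (x := (0, y))).eventually (lt_mem_nhds ?_)
      show 0 < I.den fun j : Fin (I.N + 1) => iteratedFDeriv ℝ (j : ℕ) (fun z => b (0, z)) y
      simp only [hb0]
      exact hI y hy
  obtain ⟨t0, ht0, hden⟩ := Metric.eventually_nhds_iff_ball.1 hden
  have hT1 : IsCompact (Icc 0 (t0 / 2) ×ˢ Metric.closedBall (0 : E2) 2) :=
    isCompact_Icc.prod (isCompact_closedBall _ _)
  obtain ⟨c0, hc0, hc0le⟩ := hT1.exists_forall_le' (a := 0)
    (I.den_temperate.1.continuous.comp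
      (continuous_pi fun j => continuous_iterated_param hb (j : ℕ))).continuousOn fun q hq =>
    hden q.1 (by
      rw [mem_ball_zero_iff, Real.norm_eq_abs, abs_of_nonneg hq.1.1]
      linarith [hq.1.2]) q.2 hq.2
  have hbd : ∀ i : Fin (k + 1), ∃ c, ∀ q ∈ Icc 0 (t0 / 2) ×ˢ Metric.closedBall (0 : E2) 2,
      ‖iteratedFDeriv ℝ (i : ℕ) (fun y => b (q.1, y)) q.2‖ ≤ c := fun i =>
    hT1.exists_bound_of_continuousOn (continuous_iterated_param hb i).continuousOn
  choose cb hcb using hbd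
  obtain ⟨Λ, hΛ1, hΛb, hΛd⟩ : ∃ Λ : ℝ, 1 ≤ Λ ∧ (∀ i, cb i ≤ Λ) ∧ Λ⁻¹ ≤ c0 := by
    refine ⟨1 + (∑ i, |cb i|) + c0⁻¹, ?_, fun i => ?_, ?_⟩
    · have : 0 ≤ ∑ i, |cb i| := Finset.sum_nonneg fun i _ => abs_nonneg _
      have : 0 < c0⁻¹ := inv_pos.2 hc0
      linarith
    · have : cb i ≤ ∑ i, |cb i| := (le_abs_self _).trans
        (Finset.single_le_sum (fun j _ => abs_nonneg (cb j)) (Finset.mem_univ i))
      have : 0 < c0⁻¹ := inv_pos.2 hc0
      linarith
    · refine inv_le_of_inv_le₀ hc0 ?_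
      have : 0 ≤ ∑ i, |cb i| := Finset.sum_nonneg fun i _ => abs_nonneg _
      linarith
  obtain ⟨θ, B1, B2, hθ, hB10, hB20, hcap⟩ := cap_near P
  -- choose `λ`
  let E0 : ℝ × E2 → S3 := fun q => χ q.2 • ((1 - cl q.1 * scut q.2 ^ 2) • euc -
    met (fun z => b (q.1, z)) q.2)
  have hE0 : ContDiff ℝ ∞ E0 := by
    refine (hχ.comp contDiff_snd).smul (((contDiff_const.sub ((hcls.comp contDiff_fst).mul
      ((hs.comp contDiff_snd).pow 2))).smul contDiff_const).sub ?_)
    have hp : ∀ i, ContDiff ℝ ∞ fun q : ℝ × E2 => pd i (fun z => b (q.1, z)) q.2 := by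
      intro i
      have e : (fun q : ℝ × E2 => pd i (fun z => b (q.1, z)) q.2) =
          fun q => fderiv ℝ b q ((0 : ℝ), ev i) := by
        funext q
        have hd : HasFDerivAt (fun z : E2 => ((q.1, z) : ℝ × E2))
            ((0 : E2 →L[ℝ] ℝ).prod (ContinuousLinearMap.id ℝ E2)) q.2 :=
          (hasFDerivAt_const q.1 q.2).prodMk (hasFDerivAt_id q.2)
        exact DFunLike.congr_fun
          (((hb.differentiable (by simp) (q.1, q.2)).hasFDerivAt.comp q.2 hd).fderiv) (ev i)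
      rw [e]
      exact (hb.fderiv_right (m := ∞) (by simp)).clm_apply contDiff_const
    exact contDiff_pi.2 fun j => by
      fin_cases j
      · exact (hp 0).inner ℝ (hp 0)
      · exact (hp 0).inner ℝ (hp 1)
      · exact (hp 1).inner ℝ (hp 1)
  have hE00 : ∀ y, E0 (0, y) = 0 := fun y => by
    simp only [E0, hb0]
    simp [cl, P.flat]
  obtain ⟨δ, hδ, hδ1, hδθ⟩ : ∃ δ : ℝ, 0 < δ ∧ C * Λ ^ s * δ ≤ 1 ∧ C * Λ ^ s * δ ≤ θ / 4 := by
    refine ⟨min 1 (θ / 4) / (|C * Λ ^ s| + 1), by positivity, ?_, ?_⟩ <;>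
    refine (mul_le_mul_of_nonneg_right ((le_abs_self _).trans (le_add_of_nonneg_right zero_le_one))
      (by positivity)).trans ?_ <;> rw [mul_div_cancel₀ _ (by positivity)]
    · exact min_le_left _ _
    · exact min_le_right _ _
  have hev : ∀ᶠ t in 𝓝 (0 : ℝ), BdOn (fun y => E0 (t, y)) (Metric.closedBall 0 2) k (δ / 4) ∧
      BdOn (fun y => b (t, y) - P.F y) (Metric.closedBall 0 2) 2 (θ / 4) ∧ t < t0 / 2 ∧
        t < 1 / 2 :=
    (small_param hE0 hE00 2 k (by positivity)).and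
      ((small_param (F := fun q : ℝ × E2 => b q - P.F q.2) (hb.sub (P.smooth.comp contDiff_snd))
        (fun y => by simp [hb0]) 2 2 (by positivity)).and
        ((gt_mem_nhds (by linarith)).and (gt_mem_nhds (by norm_num))))
  obtain ⟨lam, ⟨hlE, hlb, hlt0, hl12⟩, hlam⟩ :=
    ((hev.filter_mono nhdsWithin_le_nhds).and (self_mem_nhdsWithin (s := Ioi (0 : ℝ)))).exists
  have hlam : 0 < lam := hlam
  have hclam : cl lam = lam := hcl _ hl12.le
  -- bounds of the coefficients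
  have hab : ∃ A : ℝ, 1 ≤ A ∧
      BdOn (fun y => χ y * (1 - lam * scut y ^ 2)) (Metric.closedBall 0 2) k A ∧
      BdOn (fun y => χ y * (scut y ^ 2 - 1)) (Metric.closedBall 0 2) k A := by
    have h1 : ∀ u : E2 → ℝ, ContDiff ℝ ∞ u → ∃ A : ℝ, 0 ≤ A ∧
        BdOn u (Metric.closedBall 0 2) k A := by
      intro u hu
      have hh : ∀ i : Fin (k + 1), ∃ c, ∀ z ∈ Metric.closedBall (0 : E2) 2,
          ‖iteratedFDeriv ℝ (i : ℕ) u z‖ ≤ c := fun i =>
        (isCompact_closedBall 0 2).exists_bound_of_continuousOn (contDiff_iterated hu i).continuousOn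
      choose c hc using hh
      refine ⟨∑ i, |c i|, Finset.sum_nonneg fun i _ => abs_nonneg _, fun y hy i hi => ?_⟩
      exact (hc ⟨i, by omega⟩ y hy).trans ((le_abs_self _).trans
        (Finset.single_le_sum (fun j _ => abs_nonneg (c j)) (Finset.mem_univ (⟨i, by omega⟩ :
          Fin (k + 1)))))
    obtain ⟨A1, hA1, h1'⟩ := h1 _ (hχ.mul (contDiff_const.sub (contDiff_const.mul (hs.pow 2))))
    obtain ⟨A2, hA2, h2'⟩ := h1 _ (hχ.mul ((hs.pow 2).sub contDiff_const))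
    exact ⟨1 + A1 + A2, by linarith, fun y hy i hi => (h1' y hy i hi).trans (by linarith),
      fun y hy i hi => (h2' y hy i hi).trans (by linarith)⟩
  obtain ⟨A, hA1, hAa, hAc⟩ := hab
  refine ⟨lam, min (δ / 4 / (2 ^ k * A)) (min (lam / 32) (1 / 16)), k, P.c / 4,
    2 * (B1 + B2 + 2), hlam, hl12.le, by positivity, by linarith [P.c_pos],
    fun G T hG hT hGe hTe => ?_⟩
  generalize he : min (δ / 4 / (2 ^ k * A)) (min (lam / 32) (1 / 16)) = e at hGe hTe
  have heA : 2 ^ k * A * e ≤ δ / 4 := by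
    have : e ≤ δ / 4 / (2 ^ k * A) := he ▸ min_le_left _ _
    rwa [le_div_iff₀ (by positivity), mul_comm] at this
  have hel : e ≤ lam / 32 := he ▸ (min_le_right _ _).trans (min_le_left _ _)
  have he8 : e ≤ 1 / 16 := he ▸ (min_le_right _ _).trans (min_le_right _ _)
  let bl : E2 → R4 := fun y => b (lam, y)
  let des : E2 → S3 := fun y => G y - (1 - scut y ^ 2) • T y - (lam * scut y ^ 2) • G y
  have hdes : ContDiff ℝ ∞ des := (hG.sub ((contDiff_const.sub (hs.pow 2)).smul hT)).sub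
    ((contDiff_const.mul (hs.pow 2)).smul hG)
  have hmb : ContDiff ℝ ∞ (met bl) := contDiff_pi.2 fun j => P205F.contDiff_met (hb' lam) j
  let tgt : E2 → S3 := fun y => met bl y + χ y • (des y - met bl y)
  have htgt : ContDiff ℝ ∞ tgt := hmb.add (hχ.smul (hdes.sub hmb))
  have herr : (fun y => tgt y - met bl y) = fun y =>
      (χ y * (1 - lam * scut y ^ 2)) • (G y - euc) + (χ y * (scut y ^ 2 - 1)) • T y +
        E0 (lam, y) := by
    funext y
    simp only [tgt, des, E0, bl, hclam]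
    module
  have hsub : Metric.ball (0 : E2) (7 / 4) ⊆ Metric.closedBall 0 2 :=
    fun y hy => Metric.closedBall_subset_closedBall (by norm_num)
      (Metric.ball_subset_closedBall hy)
  have hsub3 : Metric.ball (0 : E2) (7 / 4) ⊆ Metric.ball 0 3 :=
    Metric.ball_subset_ball (by norm_num)
  have hs1 : ContDiff ℝ ∞ fun y => χ y * (1 - lam * scut y ^ 2) :=
    hχ.mul (contDiff_const.sub (contDiff_const.mul (hs.pow 2)))
  have hs2 : ContDiff ℝ ∞ fun y => χ y * (scut y ^ 2 - 1) := hχ.mul ((hs.pow 2).sub contDiff_const)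
  have hG' : ContDiff ℝ ∞ fun y => G y - euc := hG.sub contDiff_const
  have hbdU : BdOn (fun y => tgt y - met bl y) (Metric.ball 0 (7 / 4)) k δ := by
    rw [herr]
    have := bdOn_add ((hs1.smul hG').add (hs2.smul hT)) (hE0.comp (contDiff_const.prodMk contDiff_id))
      (bdOn_add (hs1.smul hG') (hs2.smul hT)
        (bdOn_smul hs1 hG' (by linarith) (fun y hy => hAa y (hsub hy)) fun y hy => hGe y (hsub3 hy))
        (bdOn_smul hs2 hT (by linarith) (fun y hy => hAc y (hsub hy)) fun y hy => hTe y (hsub3 hy)))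
      (fun y hy => hlE y (hsub hy))
    exact fun y hy i hi => (this y hy i hi).trans (by linarith)
  have hlt : lam ∈ Icc 0 (t0 / 2) := ⟨hlam.le, hlt0.le⟩
  have hsupp : tsupport (fun y => tgt y - met bl y) ⊆ Metric.closedBall 0 (3 / 2) := by
    refine closure_minimal (fun y hy => ?_) Metric.isClosed_closedBall
    by_contra hn
    exact hy (by simp [tgt, hχ0 y (le_of_lt (by simpa using hn))])
  obtain ⟨f, hf, ⟨K', hK', hK'U, hoff⟩, hmet, hclose, hfd⟩ := hNM bl tgt Λ δ (hb' lam) htgt hΛ1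
    hδ.le (fun y hy i hi => (hcb ⟨i, by omega⟩ (lam, y) ⟨hlt, hsub hy⟩).trans (hΛb _))
    (fun y hy => by
      rw [hD _ (hb' lam)]
      exact hΛd.trans (hc0le (lam, y) ⟨hlt, hsub hy⟩))
    hsupp hbdU hδ1
  have hoffev : ∀ {y}, y ∉ K' → f =ᶠ[𝓝 y] bl := fun {y} hy =>
    mem_of_superset (hK'.isClosed.isOpen_compl.mem_nhds hy) fun z hz => hoff z hz
  -- second order closeness to the flat piece
  have hclose2 : BdOn (fun y => f y - P.F y) (Metric.closedBall 0 2) 2 (θ / 2) := by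
    intro y hy i hi
    have e : (fun z => f z - P.F z) = fun z => (f z - bl z) + (bl z - P.F z) := by
      funext z; abel
    rw [e, fun_iteratedFDeriv_add_apply ((hf.sub (hb' lam)).of_le (by exact_mod_cast le_top)).contDiffAt
      (((hb' lam).sub P.smooth).of_le (by exact_mod_cast le_top)).contDiffAt]
    refine (norm_add_le _ _).trans ?_
    have h2 := hlb y hy i hi
    suffices h1 : ‖iteratedFDeriv ℝ i (fun z => f z - bl z) y‖ ≤ θ / 4 by linarith
    by_cases hK : y ∈ K'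
    · exact (hclose y (hK'U hK) i (by omega)).trans hδθ
    · have h0 : (fun z => f z - bl z) =ᶠ[𝓝 y] fun _ => (0 : R4) :=
        (hoffev hK).mono fun z hz => by simp [hz]
      rw [(h0.iteratedFDeriv ℝ i).eq_of_nhds]
      simp
      positivity
  have hfacts : ∀ y ∈ Metric.closedBall (0 : E2) 2, _ := fun y hy => by
    have h1 := hclose2 y hy 1 (by norm_num)
    have h2 := hclose2 y hy 2 le_rfl
    rw [norm_iteratedFDeriv_one] at h1
    rw [← norm_d2_eq] at h2
    have hd1 : fderiv ℝ (fun z => f z - P.F z) = fun z => fderiv ℝ f z - fderiv ℝ P.F z :=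
      funext fun z => fderiv_fun_sub (hf.differentiable (by simp) z)
        (P.smooth.differentiable (by simp) z)
    rw [hd1] at h1 h2
    rw [fderiv_fun_sub ((hf.fderiv_right (m := ∞) (by simp)).differentiable (by simp) y)
      ((P.smooth.fderiv_right (m := ∞) (by simp)).differentiable (by simp) y)] at h2
    exact hcap f hf y hy (by linarith) (by linarith)
  have hGb : ∀ y : E2, ‖y‖ < 3 → ∀ v, |bil (G y) v v - ‖v‖ ^ 2| ≤ 2 * e * ‖v‖ ^ 2 ∧
      |bil (T y) v v| ≤ 2 * e * ‖v‖ ^ 2 := fun y hy v => by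
    have hy' : y ∈ Metric.ball (0 : E2) 3 := by simpa using hy
    exact ⟨bil_near (bdOn_zero (f := fun y => G y - euc) hGe hy') v,
      (norm_bil _ v).trans (by gcongr; exact bdOn_zero hTe hy')⟩
  have hnv : ∀ {v : E2}, v ≠ 0 → 0 < ‖v‖ ^ 2 := fun {v} hv => by positivity
  refine ⟨f, fun y => unitP (fderiv ℝ f y, P.V y), hf, fun y hy => ?_, fun y hy => ?_,
    fun y hy => ?_, fun y v hv hy => ?_, fun y v hy1 hy2 hv => ?_, fun y v hy => ?_⟩
  · have hy' : y ∉ K' := fun h => absurd (hK'U h) (by simpa using hy)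
    rw [hoff y hy']
    have hs1 : scut y = 1 := by
      rw [scut_eq]; exact rcut_one (r := 15 / 16) (by norm_num) (by norm_num) (by norm_num) (by linarith)
    simp [bl, b, hclam, hs1]
  · have hy' : y ∈ Metric.closedBall (0 : E2) 2 := by simpa using hy.le
    obtain ⟨hi, hn, -⟩ := hfacts y hy'
    refine ⟨hi, Twist.gdAt_of_den I ?_, hn, by rw [nrm_eq_projN hi]; rfl⟩
    by_cases hK : y ∈ K'
    · rw [← hD _ hf]
      exact lt_of_lt_of_le (by positivity) (hfd y (hK'U hK))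
    · rw [jet_congr (hoffev hK)]
      exact lt_of_lt_of_le hc0 (hc0le (lam, y) ⟨hlt, hy'⟩)
  · simp only [hmet, tgt, des, hχ1 y hy, one_smul]
    module
  · rw [Tn.bil_sub, bil_smul]
    obtain ⟨h1, h2⟩ := hGb y hy v
    exact slack_inner hlam hel he8 (hnv hv) h1 h2
  · have hmb1 : met bl y = (1 - lam) • euc := by
      have hev1 : bl =ᶠ[𝓝 y] fun z => Real.sqrt (1 - lam) • P.F z := by
        filter_upwards [(continuous_norm.tendsto y).eventually (lt_mem_nhds (by linarith :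
          (15 / 16 : ℝ) < ‖y‖))] with z hz
        have hs1 : scut z = 1 := by
          rw [scut_eq]; exact rcut_one (r := 15 / 16) (by norm_num) (by norm_num) (by norm_num) hz.le
        simp [bl, b, hclam, hs1]
      refine bil_inj fun a c => ?_
      rw [bil_met, hev1.fderiv_eq,
        fderiv_fun_const_smul (P.smooth.differentiable (by simp) y), bil_smul]
      simp only [smul_apply, real_inner_smul_left, real_inner_smul_right]
      rw [← bil_met, P.flat, ← mul_assoc, Real.mul_self_sqrt (by linarith)]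
    have hs1 : scut y = 1 := by
      rw [scut_eq]; exact rcut_one (r := 15 / 16) (by norm_num) (by norm_num) (by norm_num) (by linarith)
    rw [Tn.bil_sub, Tn.bil_sub, hmet]
    simp only [tgt, des, hs1, hmb1, bil_add, bil_smul, Tn.bil_sub, bil_euc]
    obtain ⟨h1, h2⟩ := hGb y (by linarith) v
    refine lt_of_lt_of_le (slack_outer hlam (by linarith) hel (hχ01 y).1 (hχ01 y).2 (hnv hv) h1 h2)
      (le_of_eq ?_)
    ring
  · have hy' : y ∈ Metric.closedBall (0 : E2) 2 := by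
      simpa using (show ‖y‖ ≤ 2 by linarith)
    obtain ⟨-, -, hv⟩ := hfacts y hy'
    obtain ⟨a1, a2, a3⟩ := hv v
    obtain ⟨c1, c2, c3⟩ :=
      cap_bounds P.c_pos he8 hB10 hB20 (sq_nonneg ‖v‖) (hGb y (by linarith) v).1
    exact ⟨a1.trans c1, a2.trans c2, c3.trans a3⟩

end Vale.Agent.P205F.Start
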