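import Vale.Agent.P205F.Start.Interfaces
import Vale.Agent.P205F.Chart.Twisted
import Vale.Agent.P205F.Chart.Frame
import Vale.Agent.P205F.Top.Null
import Vale.Agent.P205F.Top.Alg

/-!
# START: a twisted function with finitely many critical points

The sixteen Plücker coordinates of `df` divided by the square root of the Gram determinant are
twisted functions, and so are their products with the four coordinates of `f`; the differentials of
these eighty functions span every cotangent plane, so a generic combination has isolated critical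
points (Sard in equal dimensions).
-/

namespace Vale.Agent.P205F

open MeasureTheory Module Set Filter Function
open scoped Manifold ContDiff RealInnerProductSpace Topology
open Vale.Agent.P205F.Top (plk exists_not_mem_of_null)

universe u

namespace Morse

/-- For a family of surjective linear maps over a space of the dimension of the target, the
parameters with a non-isolated zero form a null set. -/
theorem null_nonisolated {Z E F : Type*} [NormedAddCommGroup Z] [NormedSpace ℝ Z]
    [FiniteDimensional ℝ Z] [NormedAddCommGroup E] [NormedSpace ℝ E] [FiniteDimensional ℝ E]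
    [NormedAddCommGroup F] [NormedSpace ℝ F] [FiniteDimensional ℝ F]
    [MeasurableSpace E] [BorelSpace E] (μ : Measure E) [μ.IsAddHaarMeasure]
    {L : Z → E →L[ℝ] F} (hL : ContDiff ℝ 1 L)
    (hs : ∀ z, Surjective (L z)) (hd : finrank ℝ Z = finrank ℝ F) :
    μ {p | ∃ z, L z p = 0 ∧ ∃ᶠ w in 𝓝[≠] z, L w p = 0} = 0 := by
  have loc : ∀ z0 : Z, ∃ V : Set Z, IsOpen V ∧ z0 ∈ V ∧
      μ {p | ∃ z ∈ V, L z p = 0 ∧ ∃ᶠ w in 𝓝[≠] z, L w p = 0} = 0 := by
    intro z0
    obtain ⟨R, hR⟩ := (L z0).exists_rightInverse_of_surjective (LinearMap.range_eq_top.2 (hs z0))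
    let A : Z → F →L[ℝ] F := fun z => (L z).comp R
    have hA : ContDiff ℝ 1 A := hL.clm_comp contDiff_const
    have hA0 : (A z0).IsInvertible := ⟨ContinuousLinearEquiv.refl ℝ F, by simp [A, hR]⟩
    obtain ⟨V, hV, hVo, hzV⟩ := eventually_nhds_iff.1
      (hA.continuous.continuousAt.eventually (ContinuousLinearEquiv.isOpen.eventually_mem hA0))
    refine ⟨V, hVo, hzV, ?_⟩
    have hVi : ∀ w ∈ V, (A w).IsInvertible := hV
    let K : Submodule ℝ E := LinearMap.ker (L z0).toLinearMap
    let Θ : Z × K → E := fun q => (q.2 : E) - R ((A q.1).inverse (L q.1 (q.2 : E)))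
    have hdim : finrank ℝ E = finrank ℝ (Z × K) := by
      have h := LinearMap.finrank_range_add_finrank_ker (L z0).toLinearMap
      rw [LinearMap.range_eq_top.2 (hs z0), finrank_top] at h
      rw [Module.finrank_prod]
      change finrank ℝ E = finrank ℝ Z + finrank ℝ K
      simp only [K]
      omega
    let e : E ≃L[ℝ] Z × K := ContinuousLinearEquiv.ofFinrankEq hdim
    have hΘ : ∀ q : Z × K, q.1 ∈ V → DifferentiableAt ℝ Θ q := by
      intro q hq
      have h1 : DifferentiableAt ℝ L q.1 := (hL.differentiable one_ne_zero) q.1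
      have hA1 : DifferentiableAt ℝ (fun y : Z × K => A y.1) q :=
        ((h1.comp q differentiableAt_fst).clm_comp (differentiableAt_const R))
      have hI : DifferentiableAt ℝ ContinuousLinearMap.inverse (A q.1) :=
        ((hVi _ hq).contDiffAt_map_inverse (n := 1)).differentiableAt one_ne_zero
      have h2 : DifferentiableAt ℝ (fun y : Z × K => (A y.1).inverse) q :=
        hI.comp (f := fun y : Z × K => A y.1) q hA1
      have h3 : DifferentiableAt ℝ (fun y : Z × K => (y.2 : E)) q :=
        K.subtypeL.differentiableAt.comp q differentiableAt_snd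
      exact h3.sub (R.differentiableAt.comp q
        (h2.clm_apply ((h1.comp q differentiableAt_fst).clm_apply h3)))
    let T : E → E →L[ℝ] E := fun x => fderiv ℝ (fun y => Θ (e y)) x
    have hT : ∀ x, (e x).1 ∈ V → HasFDerivAt (fun y => Θ (e y)) (T x) x := fun x hx =>
      ((hΘ (e x) hx).comp x e.differentiableAt).hasFDerivAt
    have hnull : μ ((fun y => Θ (e y)) '' {x | (e x).1 ∈ V ∧ (T x).det = 0}) = 0 :=
      addHaar_image_eq_zero_of_det_fderivWithin_eq_zero μ
        (fun x hx => (hT x hx.1).hasFDerivWithinAt) fun x hx => hx.2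
    refine measure_mono_null ?_ hnull
    rintro p ⟨z, hz, hp, hfr⟩
    have hRL : ∀ y, L z0 (R y) = y := fun y => congrArg (fun S : F →L[ℝ] F => S y) hR
    let k : K := ⟨p - R (L z0 p), by simp [K, hRL]⟩
    have back : ∀ w ∈ V, L w p = 0 → Θ (e (e.symm (w, k))) = p := by
      intro w hw hwp
      have hAw : (A w).inverse (A w (L z0 p)) = L z0 p := (hVi w hw).inverse_apply_self _
      rw [e.apply_symm_apply]
      change p - R (L z0 p) - R ((A w).inverse (L w (p - R (L z0 p)))) = p
      rw [map_sub, hwp, zero_sub, map_neg, map_neg]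
      change p - R (L z0 p) - -R ((A w).inverse (A w (L z0 p))) = p
      rw [hAw]
      abel
    refine ⟨e.symm (z, k), ⟨by simpa using hz, ?_⟩, back z hz hp⟩
    by_contra hdet
    have hinj : Injective (T (e.symm (z, k))) := by
      refine (LinearMap.ker_eq_bot (f := (T (e.symm (z, k))).toLinearMap)).1 ?_
      by_contra hker
      exact hdet (LinearMap.det_eq_zero_iff_ker_ne_bot.2 hker)
    have hne := (hT (e.symm (z, k)) (by simpa using hz)).eventually_ne (c := p)
      ⟨_, ((T (e.symm (z, k))).toLinearMap.exists_antilipschitzWith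
        (LinearMap.ker_eq_bot.2 hinj)).choose_spec.2⟩
    have hg : Tendsto (fun w : Z => e.symm (w, k)) (𝓝[≠] z) (𝓝[≠] e.symm (z, k)) := by
      refine tendsto_nhdsWithin_iff.2 ⟨((e.symm.continuous.comp
        (continuous_id.prodMk continuous_const)).tendsto z).mono_left nhdsWithin_le_nhds, ?_⟩
      filter_upwards [self_mem_nhdsWithin] with w hw
      simpa using hw
    obtain ⟨w, hw0, hwV, hwne⟩ := (hfr.and_eventually
      ((eventually_nhdsWithin_of_eventually_nhds (hVo.eventually_mem hz)).and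
        (hg.eventually hne))).exists
    exact hwne (back w hwV hw0)
  choose V hVo hzV hV0 using loc
  obtain ⟨T, hT, hTU⟩ := TopologicalSpace.isOpen_iUnion_countable V hVo
  refine measure_mono_null ?_ ((measure_biUnion_null_iff hT).2 fun i _ => hV0 i)
  rintro p ⟨z, hp⟩
  have hmem : z ∈ ⋃ i ∈ T, V i := hTU ▸ mem_iUnion.2 ⟨z, hzV z⟩
  obtain ⟨i, hi, hzi⟩ := mem_iUnion₂.1 hmem
  exact mem_iUnion₂.2 ⟨i, hi, z, hzi, hp⟩

/-- A Plücker coordinate of the differential, normalised. -/
noncomputable def tau (F : E2 → R4) (x : E2) (kl : Fin 4 × Fin 4) : ℝ :=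
  plk (pd 0 F x) (pd 1 F x) kl.1 kl.2 / Real.sqrt (met F x 0 * met F x 2 - met F x 1 ^ 2)

theorem contDiff_tau {F : E2 → R4} (hF : ContDiff ℝ ∞ F) (hI : IsImm F) (kl : Fin 4 × Fin 4) :
    ContDiff ℝ ∞ fun x => tau F x kl := by
  have hp : ∀ i j, ContDiff ℝ ∞ fun x => pd i F x j := fun i j =>
    (contDiff_euclidean.1 (contDiff_pd hF i)) j
  have hm := contDiff_met hF
  refine ((((hp 0 _).mul (hp 1 _)).sub ((hp 0 _).mul (hp 1 _)))).div
    ((((hm 0).mul (hm 2)).sub ((hm 1).pow 2)).sqrt fun x => (gram_pos hI x).1.ne') fun x =>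
      Real.sqrt_ne_zero'.2 (gram_pos hI x).1

theorem tau_comp {F : E2 → R4} {τ : E2 → E2} {x : E2} (hF : DifferentiableAt ℝ F (τ x))
    (hτ : DifferentiableAt ℝ τ x) (hne : (fderiv ℝ τ x).det ≠ 0) (kl : Fin 4 × Fin 4) :
    tau (fun z => F (τ z)) x kl =
      (SignType.sign (fderiv ℝ τ x).det : ℝ) * tau F (τ x) kl := by
  set T := fderiv ℝ τ x with hT
  have hp : ∀ i, pd i (fun z => F (τ z)) x = T (ev i) 0 • pd 0 F (τ x) + T (ev i) 1 • pd 1 F (τ x) :=
    fun i => by rw [pd, fderiv_comp_plane hF hτ, ← apply_eq_pd]; rfl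
  have hplk : plk (pd 0 (fun z => F (τ z)) x) (pd 1 (fun z => F (τ z)) x) kl.1 kl.2 =
      T.det * plk (pd 0 F (τ x)) (pd 1 F (τ x)) kl.1 kl.2 := by
    rw [hp, hp, det_eq]
    simp [Top.plk]
    ring
  have hΔ : met (fun z => F (τ z)) x 0 * met (fun z => F (τ z)) x 2 -
      met (fun z => F (τ z)) x 1 ^ 2 =
      T.det ^ 2 * (met F (τ x) 0 * met F (τ x) 2 - met F (τ x) 1 ^ 2) := by
    rw [← (bil_ev (met (fun z => F (τ z)) x)).1, ← (bil_ev (met (fun z => F (τ z)) x)).2.1,
      ← (bil_ev (met (fun z => F (τ z)) x)).2.2, bil_met_comp hF hτ, bil_met_comp hF hτ,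
      bil_met_comp hF hτ, ← hT, det_eq]
    simp only [bil]
    ring
  rw [tau, tau, hplk, hΔ, Real.sqrt_mul (sq_nonneg _), Real.sqrt_sq_eq_abs, mul_div_mul_comm,
    ← sign_mul_self_eq_abs]
  congr 1
  rcases lt_or_gt_of_ne hne with hlt | hgt
  · simp [sign_neg hlt, div_neg, div_self hne]
  · simp [sign_pos hgt, div_self hne]

theorem exists_tau_ne {F : E2 → R4} (hI : IsImm F) (x : E2) : ∃ kl, tau F x kl ≠ 0 := by
  by_contra! h
  have h0 : ∀ k l : Fin 4, plk (pd 0 F x) (pd 1 F x) k l = 0 := fun k l => by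
    have := h (k, l)
    rwa [tau, div_eq_zero_iff, or_iff_left (Real.sqrt_ne_zero'.2 (gram_pos hI x).1)] at this
  obtain ⟨k, hk⟩ : ∃ k, pd 0 F x k ≠ 0 := by
    by_contra! hz
    have h1 : fderiv ℝ F x (ev 0) = fderiv ℝ F x 0 := by
      rw [map_zero]; ext i; simpa [pd] using hz i
    simpa [ev] using congrArg (fun v : E2 => v 0) (hI x h1)
  have h1 : fderiv ℝ F x (pd 1 F x k • ev 0 - pd 0 F x k • ev 1) = fderiv ℝ F x 0 := by
    rw [map_zero, map_sub, map_smul, map_smul]
    ext l
    have := h0 l k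
    simp only [Top.plk, pd] at this
    simp [pd]
    linarith
  have h2 := congrArg (fun v : E2 => v 1) (hI x h1)
  simp [ev] at h2
  exact hk h2

/-- The weights: one and the coordinates. -/
noncomputable def wgt (F : E2 → R4) (x : E2) : Fin 5 → ℝ := Fin.cons 1 (fun i => F x i)

/-- The indices of the family. -/
abbrev Idx : Type := Fin 5 × (Fin 4 × Fin 4)

/-- The family of twisted functions, in a chart. -/
noncomputable def fam (F : E2 → R4) (i : Idx) (x : E2) : ℝ := wgt F x i.1 * tau F x i.2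

/-- A member of the family. -/
noncomputable def comb (F : E2 → R4) (c : Idx → ℝ) (x : E2) : ℝ := ∑ i, c i * fam F i x

theorem contDiff_fam {F : E2 → R4} (hF : ContDiff ℝ ∞ F) (hI : IsImm F) (i : Idx) :
    ContDiff ℝ ∞ (fam F i) := by
  refine ContDiff.mul ?_ (contDiff_tau hF hI i.2)
  obtain ⟨a, kl⟩ := i
  refine Fin.cases ?_ (fun j => ?_) a
  · simpa [wgt] using contDiff_const
  · simpa [wgt] using (contDiff_euclidean.1 hF) j

theorem contDiff_comb {F : E2 → R4} (hF : ContDiff ℝ ∞ F) (hI : IsImm F) (c : Idx → ℝ) :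
    ContDiff ℝ ∞ (comb F c) :=
  ContDiff.sum fun i _ => contDiff_const.mul (contDiff_fam hF hI i)

/-- The differential, as a function of the parameters. -/
noncomputable def dfam (F : E2 → R4) (x : E2) : (Idx → ℝ) →L[ℝ] (Fin 2 → ℝ) :=
  ∑ i, (ContinuousLinearMap.proj (φ := fun _ : Idx => ℝ) i).smulRight (fun j => pd j (fam F i) x)

theorem dfam_apply {F : E2 → R4} (hF : ContDiff ℝ ∞ F) (hI : IsImm F) (x : E2) (c : Idx → ℝ)
    (j : Fin 2) : dfam F x c j = pd j (comb F c) x := by
  have hd := fun i => (contDiff_fam hF hI i).differentiable infty_ne_zero x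
  rw [pd, show comb F c = fun y => ∑ i, c i * fam F i y from rfl,
    fderiv_fun_sum fun i _ => (hd i).const_mul (c i)]
  simp only [dfam, sum_apply, Finset.sum_apply]
  refine Finset.sum_congr rfl fun i _ => ?_
  rw [fderiv_const_mul (hd i)]
  simp [pd]

theorem dfam_surjective {F : E2 → R4} (hF : ContDiff ℝ ∞ F) (hI : IsImm F) (x : E2) :
    Surjective (dfam F x) := by
  intro w
  obtain ⟨kl, hkl⟩ := exists_tau_ne hI x
  set t := tau F x kl with ht
  set G := met F x with hG
  have hΔ := (gram_pos hI x).1.ne'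
  set Δ := G 0 * G 2 - G 1 ^ 2 with hΔdef
  set b : R4 := ((w 0 * G 2 - w 1 * G 1) / (Δ * t)) • pd 0 F x +
    ((w 1 * G 0 - w 0 * G 1) / (Δ * t)) • pd 1 F x with hb
  let c : Idx → ℝ := fun i =>
    if i.2 = kl then (Fin.cons (-∑ m, b m * F x m) (fun m => b m) : Fin 5 → ℝ) i.1 else 0
  refine ⟨c, funext fun j => ?_⟩
  have hcomb : comb F c = fun y => (∑ m, b m * F y m - ∑ m, b m * F x m) * tau F y kl := by
    funext y
    simp only [comb, Fintype.sum_prod_type, c, ite_mul, zero_mul, Finset.sum_ite_eq',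
      Finset.mem_univ, if_true, fam]
    rw [Fin.sum_univ_succ]
    simp only [wgt, Fin.cons_zero, Fin.cons_succ]
    rw [sub_mul, Finset.sum_mul, ← neg_add_eq_sub]
    congr 1
    · ring
    · exact Finset.sum_congr rfl fun m _ => by ring
  have hu : HasFDerivAt (fun y => ∑ m, b m * F y m - ∑ m, b m * F x m)
      ((innerSL ℝ b).comp (fderiv ℝ F x)) x := by
    have h := ((innerSL ℝ b).hasFDerivAt.comp x
      ((hF.differentiable infty_ne_zero) x).hasFDerivAt).sub_const (∑ m, b m * F x m)
    refine h.congr_of_eventuallyEq (Eventually.of_forall fun y => ?_)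
    simp [PiLp.inner_apply, mul_comm]
  have hm := hu.fun_mul (((contDiff_tau hF hI kl).differentiable infty_ne_zero) x).hasFDerivAt
  rw [dfam_apply hF hI, hcomb, pd, hm.fderiv]
  have e1 : ∀ j, ⟪b, pd j F x⟫ =
      (w 0 * G 2 - w 1 * G 1) / (Δ * t) * ⟪pd 0 F x, pd j F x⟫ +
      (w 1 * G 0 - w 0 * G 1) / (Δ * t) * ⟪pd 1 F x, pd j F x⟫ := fun j => by
    rw [hb, inner_add_left, real_inner_smul_left, real_inner_smul_left]
  simp only [sub_self, zero_smul, zero_add, smul_apply, ContinuousLinearMap.comp_apply,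
    innerSL_apply_apply, smul_eq_mul, ← ht]
  change t * ⟪b, pd j F x⟫ = w j
  rw [e1]
  have g0 : ⟪pd 0 F x, pd 0 F x⟫ = G 0 := rfl
  have g1 : ⟪pd 0 F x, pd 1 F x⟫ = G 1 := rfl
  have g1' : ⟪pd 1 F x, pd 0 F x⟫ = G 1 := (real_inner_comm _ _).trans g1
  have g2 : ⟪pd 1 F x, pd 1 F x⟫ = G 2 := rfl
  fin_cases j
  · simp only [Fin.zero_eta, Fin.isValue, g0, g1']
    field_simp
    rw [hΔdef]; ring
  · simp only [Fin.mk_one, Fin.isValue, g1, g2]
    field_simp
    rw [hΔdef]; ring

theorem contDiff_dfam {F : E2 → R4} (hF : ContDiff ℝ ∞ F) (hI : IsImm F) :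
    ContDiff ℝ 1 (dfam F) := by
  refine contDiff_clm_apply_iff.2 fun c => ?_
  have : (fun x => dfam F x c) = fun x j => pd j (comb F c) x :=
    funext fun x => funext fun j => dfam_apply hF hI x c j
  rw [this]
  exact (contDiff_pi.2 fun j => contDiff_pd (contDiff_comb hF hI c) j).of_le
    (by exact_mod_cast le_top)

theorem comb_congr {F G : E2 → R4} {x : E2} (h : F =ᶠ[𝓝 x] G) (c : Idx → ℝ) :
    comb F c x = comb G c x := by
  simp only [comb, fam, wgt, tau, met, pd, h.fderiv_eq, h.eq_of_nhds]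

end Morse

open Morse

/-- A twisted function with finitely many critical points. -/
theorem morseStmt : MorseStmt.{u} := by
  intro M _ _ _ _ _ f0 n0 hF0
  obtain ⟨hf, -, -, hch⟩ := hF0
  have hs : ∀ ψ : Chart M, ContDiff ℝ ∞ fun z => f0 (ψ.toFun z) := fun ψ => ψ.contDiff_comp hf
  have hI : ∀ ψ : Chart M, IsImm fun z => f0 (ψ.toFun z) := fun ψ => (hch ψ).1
  choose ch x0 hx0 _ using fun p : M => Chart.exists_mem (p := p) (Filter.univ_mem (f := 𝓝 p))
  obtain ⟨S, hS⟩ := isCompact_univ.elim_finite_subcover (fun p => range (ch p).toFun)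
    (fun p => (ch p).isOpen_range) (fun p _ => mem_iUnion.2 ⟨p, ⟨x0 p, hx0 p⟩⟩)
  let F : M → E2 → R4 := fun q z => f0 ((ch q).toFun z)
  obtain ⟨c, hc⟩ := exists_not_mem_of_null (Measure.addHaar : Measure (Idx → ℝ))
    (s := fun q : S => {c | ∃ z, dfam (F q) z c = 0 ∧ ∃ᶠ w in 𝓝[≠] z, dfam (F q) w c = 0})
    fun q => null_nonisolated _ (contDiff_dfam (hs _) (hI _)) (dfam_surjective (hs _) (hI _))
      (by simp)
  refine ⟨⟨fun φ x => comb (fun z => f0 (φ.toFun z)) c x,
    fun φ => contDiff_comb (hs φ) (hI φ) c, ?_⟩, ?_⟩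
  · intro ψ φ x y hxy
    have hx : ψ.toFun x ∈ range φ.toFun := ⟨y, hxy.symm⟩
    have hy : φ.trans ψ x = y := Chart.trans_eq hxy
    have hd := det_ne_zero_of_injective (φ.trans_fderiv_injective ψ hx)
    have hsd : DifferentiableAt ℝ (φ.trans ψ) x :=
      (φ.trans_contDiffAt ψ hx).differentiableAt infty_ne_zero
    rw [comb_congr (φ.comp_trans_eventuallyEq ψ f0 hx) c]
    simp only [comb, fam, Finset.mul_sum]
    refine Finset.sum_congr rfl fun i _ => ?_
    rw [tau_comp (F := fun z => f0 (φ.toFun z)) ((hs φ).differentiable infty_ne_zero _) hsd hd, hy,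
      show wgt (fun z => (fun z => f0 (φ.toFun z)) (φ.trans ψ z)) x =
        wgt (fun z => f0 (φ.toFun z)) y by simp only [wgt, hy]]
    change _ = (SignType.sign (fderiv ℝ (φ.trans ψ) x).det : ℝ) * _
    ring
  · set h : Twisted M := ⟨fun φ x => comb (fun z => f0 (φ.toFun z)) c x, _, _⟩ with hh
    have hcrit : ∀ (q : M) (x : E2), (ch q).toFun x ∈ h.crit ↔ dfam (F q) x c = 0 := by
      intro q x
      rw [h.mem_crit_iff]
      constructor
      · intro h0
        funext j
        rw [dfam_apply (hs _) (hI _)]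
        change fderiv ℝ (h.h (ch q)) x (ev j) = 0
        rw [h0]; rfl
      · intro h0
        ext v
        have hj : ∀ j, pd j (comb (F q) c) x = 0 := fun j => by
          rw [← dfam_apply (hs _) (hI _), h0]; rfl
        change fderiv ℝ (comb (F q) c) x v = 0
        rw [apply_eq_pd, hj, hj, smul_zero, smul_zero, add_zero]
    have hiso : ∀ p : M, ∃ U ∈ 𝓝 p, U ∩ h.crit ⊆ {p} := by
      intro p
      obtain ⟨q, hq, x, rfl⟩ := mem_iUnion₂.1 (hS (mem_univ p))
      have hev : ∀ᶠ w in 𝓝 x, dfam (F q) w c = 0 → w = x := by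
        by_cases h0 : dfam (F q) x c = 0
        · have := hc ⟨q, hq⟩
          simp only [mem_ofPred_eq, not_exists, not_and, not_frequently] at this
          have h1 := eventually_nhdsWithin_iff.1 (this x h0)
          filter_upwards [h1] with w hw h2
          by_contra hne
          exact hw hne h2
        · have hcont : ContinuousAt (fun w => dfam (F q) w c) x :=
            ((contDiff_dfam (F := F q) (hs (ch q)) (hI (ch q))).continuous.clm_apply
              continuous_const).continuousAt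
          filter_upwards [hcont.eventually (isOpen_ne.eventually_mem h0)] with w hw h2
          exact absurd h2 hw
      refine ⟨(ch q).toFun '' {w | dfam (F q) w c = 0 → w = x}, ?_, ?_⟩
      · rw [← (ch q).open_emb.map_nhds_eq x]
        exact image_mem_map hev
      · rintro _ ⟨⟨w, hw, rfl⟩, hwc⟩
        rw [mem_singleton_iff, hw ((hcrit q w).1 hwc)]
    choose U hU hU' using hiso
    obtain ⟨T, -, hT⟩ := isCompact_univ.elim_nhds_subcover U fun p _ => hU p
    refine T.finite_toSet.subset fun p hp => ?_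
    obtain ⟨t, ht, hpt⟩ := mem_iUnion₂.1 (hT (mem_univ p))
    exact (hU' t ⟨hpt, hp⟩) ▸ ht

end Vale.Agent.P205F
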