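import Vale.Agent.P205F.Start.Interfaces
import Vale.Agent.P205F.Chart.Cover
import Vale.Agent.P205F.Patch.Stmt

/-!
# A positive tensor as squares of first coordinates, transversally to `ν`
-/

namespace Vale.Agent.P205F

open Set Function Filter
open scoped Manifold ContDiff Topology

universe u

/-- The covector `p` applied to a vector. -/
def cov (p : Fin 2 → ℝ) (v : E2) : ℝ := p 0 * v 0 + p 1 * v 1

/-- Near a positive `q₀`, tensors are positive combinations of three squares of covectors not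
parallel to a given one. -/
lemma exists_three_squares (q₀ : S3) (hq : ∀ v : E2, v ≠ 0 → 0 < bil q₀ v v) (ν : Fin 2 → ℝ)
    (hν : ν 0 ≠ 0 ∨ ν 1 ≠ 0) :
    ∃ (l : Fin 3 → Fin 2 → ℝ) (c : Fin 3 → S3 → ℝ), (∀ k, ContDiff ℝ ∞ (c k)) ∧
      (∀ k, 0 < c k q₀) ∧ (∀ q, q = ∑ k, c k q • sq (l k)) ∧
      ∀ k, l k 0 * ν 1 - l k 1 * ν 0 ≠ 0 := by
  let v' : E2 := -(ν 1) • ev 0 + ν 0 • ev 1
  have hv' : v' ≠ 0 := by
    intro h
    have h0 := congrArg (fun y : E2 => y 0) h
    have h1 := congrArg (fun y : E2 => y 1) h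
    simp [v', ev] at h0 h1
    exact hν.elim (fun h => h h1) fun h => h h0
  let w : Fin 2 → ℝ := ![bil q₀ v' (ev 0), bil q₀ v' (ev 1)]
  set D : ℝ := bil q₀ v' v' with hDdef
  have hD : 0 < D := hq v' hv'
  have hwv : ν 0 * w 1 - ν 1 * w 0 = D := by
    simp [w, hDdef, v', bil, ev]
    ring
  let v : E2 := D⁻¹ • v'
  let z : E2 := D⁻¹ • (w 1 • ev 0 - w 0 • ev 1)
  have hv : v ≠ 0 := smul_ne_zero (inv_ne_zero hD.ne') hv'
  have hνz : cov ν z = 1 := by
    simp [cov, z, ev]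
    field_simp
    linarith [hwv]
  have hz : z ≠ 0 := by
    intro h
    simp [h, cov] at hνz
  have hvz : bil q₀ v z = 0 := by
    simp [v, z, w, bil, ev, v']
    ring
  have hid : ∀ q : S3, q = bil q v v • sq w + bil q z z • sq ν +
      bil q v z • (![2 * (w 0 * ν 0), w 0 * ν 1 + w 1 * ν 0, 2 * (w 1 * ν 1)] : S3) := by
    intro q
    have hD' : D ≠ 0 := hD.ne'
    funext i
    fin_cases i <;>
    · simp [v, z, v', bil, sq, ev]
      field_simp
      rw [← hwv]
      ring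
  set s : ℝ := Real.sqrt (2 * bil q₀ z z / bil q₀ v v) with hsdef
  have hs2 : s ^ 2 = 2 * bil q₀ z z / bil q₀ v v :=
    Real.sq_sqrt (div_nonneg (by linarith [hq z hz]) (hq v hv).le)
  have hs : s ≠ 0 := (Real.sqrt_pos.2 (div_pos (by linarith [hq z hz]) (hq v hv))).ne'
  let l : Fin 3 → Fin 2 → ℝ := ![w, fun i => w i + s * ν i, fun i => w i - s * ν i]
  let c : Fin 3 → S3 → ℝ := ![fun q => bil q v v - bil q z z / s ^ 2,
    fun q => (bil q z z / s ^ 2 + bil q v z / s) / 2,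
    fun q => (bil q z z / s ^ 2 - bil q v z / s) / 2]
  have hb : ∀ a b : E2, ContDiff ℝ ∞ fun q : S3 => bil q a b := fun a b => by
    unfold bil
    fun_prop
  refine ⟨l, c, fun k => ?_, fun k => ?_, fun q => ?_, fun k => ?_⟩
  · fin_cases k
    · exact (hb v v).sub ((hb z z).div_const _)
    · exact (((hb z z).div_const _).add ((hb v z).div_const _)).div_const _
    · exact (((hb z z).div_const _).sub ((hb v z).div_const _)).div_const _
  · have h1 : bil q₀ z z / s ^ 2 = bil q₀ v v / 2 := by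
      rw [hs2]
      field_simp [(hq v hv).ne', (hq z hz).ne']
    have := hq v hv
    fin_cases k <;> simp [c, h1, hvz] <;> linarith
  · conv_lhs => rw [hid q]
    rw [Fin.sum_univ_three]
    funext i
    fin_cases i <;>
    · simp [c, l, sq]
      field_simp
      ring
  · fin_cases k <;> simp [l] <;> intro h <;> linarith

/-- A chart of the plane into `O`, with first coordinate `p` near `x₀` and second coordinate lines
parallel to the kernel of `p`. -/
lemma exists_linear_chart (p : Fin 2 → ℝ) (hp : p 0 ≠ 0 ∨ p 1 ≠ 0) (x₀ : E2) {O : Set E2}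
    (hO : O ∈ 𝓝 x₀) :
    ∃ (τ : Chart E2) (O' : Set E2), O' ∈ 𝓝 x₀ ∧ range τ.toFun ⊆ O ∧
      (∀ z ∈ O', z ∈ range τ.toFun ∧ τ.inv z 0 = cov p z) ∧
      ∀ x, ∃ m : ℝ, m ≠ 0 ∧
        fderiv ℝ τ.toFun x (ev 1) = m • (-(p 1) • ev 0 + p 0 • ev 1) := by
  set n : ℝ := p 0 ^ 2 + p 1 ^ 2 with hn
  have hn0 : n ≠ 0 := by
    intro h
    rcases hp with h' | h' <;> exact h' (by nlinarith [sq_nonneg (p 0), sq_nonneg (p 1)])
  let a : E2 := n⁻¹ • (p 0 • ev 0 + p 1 • ev 1)
  let b : E2 := -(p 1) • ev 0 + p 0 • ev 1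
  let L : E2 →L[ℝ] E2 :=
    (EuclideanSpace.proj (0 : Fin 2) : E2 →L[ℝ] ℝ).smulRight a +
      (EuclideanSpace.proj (1 : Fin 2) : E2 →L[ℝ] ℝ).smulRight b
  let R : E2 → E2 := fun z => cov p z • ev 0 + ((-(p 1) * z 0 + p 0 * z 1) / n) • ev 1
  have hRL : ∀ x, R (L x) = x := by
    intro x
    ext i
    fin_cases i <;>
    · simp [R, L, a, b, cov, ev]
      field_simp
      rw [hn]
      ring
  have hLR : ∀ z, L (R z) = z := by
    intro z
    ext i
    fin_cases i <;>
    · simp [R, L, a, b, cov, ev]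
      field_simp
      rw [hn]
      ring
  have hLinj : Injective L := LeftInverse.injective hRL
  have hOL : L ⁻¹' O ∈ 𝓝 (R x₀) :=
    L.continuous.continuousAt.preimage_mem_nhds (by rwa [hLR])
  obtain ⟨σ, hσ, hσ0, hσv⟩ := exists_shrink_vertical hOL
  have hσd : ContDiff ℝ ∞ σ.toFun := σ.smooth.contDiff
  have hσinj : ∀ z, Injective (fderiv ℝ σ.toFun z) := fun z u v huv => by
    have := σ.mfderiv_injective z
    rw [mfderiv_eq_fderiv] at this
    exact this huv
  have hd : ∀ x, fderiv ℝ (fun y => L (σ.toFun y)) x = L.comp (fderiv ℝ σ.toFun x) := fun x =>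
    (L.hasFDerivAt.comp x (hσd.differentiable infty_ne_zero).differentiableAt.hasFDerivAt).fderiv
  obtain ⟨τ, hτ⟩ := exists_chart_of_injective (L.contDiff.comp hσd) (hLinj.comp σ.injective)
    fun x => by
      show Injective (fderiv ℝ (fun y => L (σ.toFun y)) x)
      rw [hd]
      exact hLinj.comp (hσinj x)
  refine ⟨τ, R ⁻¹' {y | σ.toFun y = y}, ?_, ?_, fun z hz => ?_, fun x => ?_⟩
  · have hR : Continuous R := by
      simp only [R, cov]
      fun_prop
    exact hR.continuousAt.preimage_mem_nhds (hσ0.mono fun y hy => hy)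
  · rw [hτ]
    rintro _ ⟨y, rfl⟩
    exact hσ ⟨y, rfl⟩
  · have h1 : τ.toFun (R z) = z := by
      rw [hτ]
      show L (σ.toFun (R z)) = z
      rw [show σ.toFun (R z) = R z from hz, hLR]
    refine ⟨⟨R z, h1⟩, ?_⟩
    conv_lhs => rw [← h1, τ.left_inv]
    simp [R, ev]
  · refine ⟨fderiv ℝ σ.toFun x (ev 1) 1, fun h0 => ?_, ?_⟩
    · have := hσv x
      rw [h0, zero_smul, ← map_zero (fderiv ℝ σ.toFun x)] at this
      simpa [ev] using congrArg (fun y : E2 => y 1) (hσinj x this)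
    · rw [hτ]
      show fderiv ℝ (fun y => L (σ.toFun y)) x (ev 1) = _
      rw [hd, ContinuousLinearMap.comp_apply]
      conv_lhs => rw [hσv x, map_smul]
      simp [L, b, ev]

variable {M : Type u} [TopologicalSpace M] [T2Space M] [ChartedSpace E2 M]
  [IsManifold (𝓡 2) ∞ M]

/-- Three primitive terms carry any multiple of `P` supported near a regular point of `W`. -/
lemma exists_prim_near (g : Metric M) (h : Twisted M) {W : Set M} (P : Ten M) (hW : IsOpen W)
    (hcrit : Disjoint W h.crit)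
    (hP : ∀ (φ : Chart M) x v, φ x ∈ W → v ≠ 0 → 0 < bil (P.val φ x) v v) {p : M} (hp : p ∈ W) :
    ∃ χ : Chart M, p ∈ range χ.toFun ∧ ∀ a : E2 → ℝ, ContDiff ℝ ∞ a → HasCompactSupport a →
      ∃ Q : Fin 3 → Prim M,
        (∀ φ x, ∑ k, (Q k).val φ x = χ.ext a (φ.toFun x) ^ 2 • P.val φ x) ∧
        ∀ k, range (Q k).ψ.toFun ⊆ W ∧ ∀ x, h.nu g (Q k).ψ x 1 ≠ 0 := by
  obtain ⟨χ, x₀, rfl, hχW⟩ := Chart.exists_mem (hW.mem_nhds hp)
  have hν0 : h.nu g χ x₀ 0 ≠ 0 ∨ h.nu g χ x₀ 1 ≠ 0 := by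
    by_contra hh
    rw [not_or, not_not, not_not] at hh
    exact Set.disjoint_left.1 hcrit hp ((h.mem_crit_iff χ x₀).2 (nu_ne_zero h g χ x₀ hh.1 hh.2))
  obtain ⟨l, c, hc, hc0, hsum, hl⟩ :=
    exists_three_squares (P.val χ x₀) (fun v hv => hP χ x₀ v hp hv) (h.nu g χ x₀) hν0
  have hlne : ∀ k, l k 0 ≠ 0 ∨ l k 1 ≠ 0 := fun k => by
    by_contra hh
    rw [not_or, not_not, not_not] at hh
    exact hl k (by simp [hh.1, hh.2])
  -- where the coefficients are positive and the covectors transversal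
  let O : Set E2 := {y | ∀ k, 0 < c k (P.val χ y) ∧
    l k 0 * h.nu g χ y 1 - l k 1 * h.nu g χ y 0 ≠ 0}
  have hO : O ∈ 𝓝 x₀ := by
    refine eventually_all.2 fun k => Filter.Eventually.and ?_ ?_
    · exact ((hc k).continuous.comp (P.smooth χ).continuous).continuousAt.eventually
        (lt_mem_nhds (hc0 k))
    · exact ((continuous_const.mul (contDiff_nu h g χ 1).continuous).sub
        (continuous_const.mul (contDiff_nu h g χ 0).continuous)).continuousAt.eventually_ne (hl k)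
  choose τ O' hO' hτO hτinv hτv using fun k => exists_linear_chart (l k) (hlne k) x₀ hO
  obtain ⟨χ', hχ', hχ'0⟩ := χ.exists_restrict x₀ (U := χ.toFun '' ⋂ k, interior (O' k))
    (by
      rw [← χ.open_emb.map_nhds_eq]
      exact image_mem_map (iInter_mem.2 fun k => interior_mem_nhds.2 (hO' k)))
  refine ⟨χ', ⟨x₀, hχ'0.eq_of_nhds⟩, fun a ha hac => ?_⟩
  have hnear : ∀ q ∈ range χ'.toFun, ∃ y, χ.toFun y = q ∧ ∀ k, y ∈ interior (O' k) := by
    intro q hq
    obtain ⟨y, hy, rfl⟩ := (hχ' hq).1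
    exact ⟨y, rfl, mem_iInter.1 hy⟩
  let ψ : Fin 3 → Chart M := fun k => χ.comp (τ k)
  have hext : ContMDiff (𝓡 2) 𝓘(ℝ, ℝ) ∞ (χ'.ext a) := χ'.ext_contMDiff ha hac
  let b : Fin 3 → E2 → ℝ := fun k x =>
    χ'.ext a ((ψ k).toFun x) * Real.sqrt (c k (P.val χ ((τ k).toFun x)))
  have hsub : ∀ k, range χ'.toFun ⊆ range (ψ k).toFun := by
    intro k q hq
    obtain ⟨y, rfl, hy⟩ := hnear q hq
    obtain ⟨x, hx⟩ := (hτinv k y (interior_subset (hy k))).1
    exact ⟨x, congrArg χ.toFun hx⟩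
  have hb : ∀ k, ContDiff ℝ ∞ (b k) := fun k =>
    ((ψ k).contDiff_comp hext).mul
      (((hc k).comp ((P.smooth χ).comp (τ k).smooth.contDiff)).sqrt
        fun x => ((hτO k ⟨x, rfl⟩) k).1.ne')
  have hbc : ∀ k, HasCompactSupport (b k) := by
    intro k
    refine (HasCompactSupport.intro
      (((hac.image χ'.continuous).image_of_continuousOn
        ((ψ k).smooth_inv.continuousOn.mono ((image_subset_range _ _).trans (hsub k))))) ?_)
    intro x hx
    simp only [b]
    rw [mul_eq_zero]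
    left
    refine image_eq_zero_of_notMem_tsupport (f := χ'.ext a) fun hm => hx ?_
    exact ⟨(ψ k).toFun x, χ'.tsupport_ext hac hm, (ψ k).left_inv x⟩
  refine ⟨fun k => ⟨ψ k, b k, hb k, hbc k⟩, fun φ x => ?_,
    fun k => ⟨(χ.range_comp_subset (τ k)).trans hχW, fun x => ?_⟩⟩
  · simp only [Prim.val_eq]
    by_cases hq : φ.toFun x ∈ range χ'.toFun
    · obtain ⟨y, hy, hyO⟩ := hnear _ hq
      have hφχ : φ.toFun x ∈ range χ.toFun := ⟨y, hy⟩
      have hTy : χ.trans φ x = y := Chart.trans_eq hy.symm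
      have hcoef : ∀ k, (ψ k).ext (b k) (φ.toFun x) ^ 2 =
          χ'.ext a (φ.toFun x) ^ 2 * c k (P.val χ y) := by
        intro k
        obtain ⟨z, hz⟩ := (hτinv k y (interior_subset (hyO k))).1
        have hpz : (ψ k).toFun z = φ.toFun x := (congrArg χ.toFun hz).trans hy
        rw [← hpz, Chart.ext_apply]
        simp only [b]
        rw [mul_pow, Real.sq_sqrt ((hτO k ⟨z, rfl⟩) k).1.le, hz]
      have hdc : ∀ k v, dcoord (ψ k) φ x 0 * v 0 + dcoord (ψ k) φ x 1 * v 1 =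
          cov (l k) (fderiv ℝ (χ.trans φ) x v) := by
        intro k v
        rw [dcoord_apply (ψ k) φ (hsub k hq) v]
        let A : E2 →L[ℝ] ℝ := l k 0 • (EuclideanSpace.proj (0 : Fin 2) : E2 →L[ℝ] ℝ) +
          l k 1 • (EuclideanSpace.proj (1 : Fin 2) : E2 →L[ℝ] ℝ)
        have he : (fun z => (ψ k).trans φ z 0) =ᶠ[𝓝 x] fun z => A (χ.trans φ z) := by
          have hy' : χ.trans φ x ∈ interior (O' k) := hTy ▸ hyO k
          filter_upwards [(χ.trans_contDiffAt φ hφχ).continuousAt.eventually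
            (isOpen_interior.mem_nhds hy')] with z hz
          show (τ k).inv (χ.trans φ z) 0 = _
          rw [(hτinv k _ (interior_subset hz)).2]
          simp [A, cov]
        have h1 := ((EuclideanSpace.proj (0 : Fin 2) : E2 →L[ℝ] ℝ).hasFDerivAt.comp x
          (((ψ k).trans_contDiffAt φ (hsub k hq)).differentiableAt infty_ne_zero).hasFDerivAt)
        have h2 := A.hasFDerivAt.comp x
          ((χ.trans_contDiffAt φ hφχ).differentiableAt infty_ne_zero).hasFDerivAt
        have h3 := (h2.congr_of_eventuallyEq he).unique h1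
        simpa [A, cov] using (DFunLike.congr_fun h3 v).symm
      refine bil_inj fun v w => ?_
      rw [bil_smul, P.change χ φ x hφχ v w, hTy]
      conv_rhs => rw [hsum (P.val χ y)]
      simp only [Fin.sum_univ_three, bil_add, bil_smul, bil_sq, hdc, hcoef, cov]
      ring
    · rw [χ'.ext_of_notMem a hq]
      simp only [ne_eq, OfNat.ofNat_ne_zero, not_false_eq_true, zero_pow, zero_smul]
      refine Finset.sum_eq_zero fun k _ => ?_
      by_cases hk : φ.toFun x ∈ range (ψ k).toFun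
      · obtain ⟨z, hz⟩ := hk
        rw [← hz, Chart.ext_apply]
        simp [b, hz, χ'.ext_of_notMem a hq]
      · simp [(ψ k).ext_of_notMem _ hk]
  · show h.nu g (ψ k) x 1 ≠ 0
    have hx : (ψ k).toFun x ∈ range χ.toFun := ⟨(τ k).toFun x, rfl⟩
    have htr : χ.trans (ψ k) = (τ k).toFun := funext fun z => χ.left_inv _
    have hnu := h.nu_change g χ (ψ k) hx (ev 1)
    rw [htr] at hnu
    obtain ⟨m, hm, hv⟩ := hτv k x
    rw [hv] at hnu
    simp [ev] at hnu
    rw [hnu]
    intro h0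
    refine ((hτO k ⟨x, rfl⟩) k).2 ((mul_eq_zero.1 (?_ : m * _ = 0)).resolve_left hm)
    linear_combination h0

/-- `PrimStmt`. -/
theorem primStmt : PrimStmt.{u} := by
  intro M _ _ _ _ _ g h W σ P hW hcrit hσ hσW hP
  obtain ⟨N, χ, a, hPχ, ha, hac, -, -, hone⟩ :=
    exists_cover_of (fun χ : Chart M => ∀ a : E2 → ℝ, ContDiff ℝ ∞ a → HasCompactSupport a →
      ∃ Q : Fin 3 → Prim M,
        (∀ φ x, ∑ k, (Q k).val φ x = χ.ext a (φ.toFun x) ^ 2 • P.val φ x) ∧
        ∀ k, range (Q k).ψ.toFun ⊆ W ∧ ∀ x, h.nu g (Q k).ψ x 1 ≠ 0)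
      (isClosed_tsupport σ).isCompact
      fun p hp => exists_prim_near g h P hW hcrit hP (hσW hp)
  choose Q hQ hQW using fun i => hPχ i (fun x => a i x * σ ((χ i).toFun x))
    ((ha i).mul ((χ i).contDiff_comp hσ)) ((hac i).mul_right)
  refine ⟨N * 3, fun j => Q (finProdFinEquiv.symm j).1 (finProdFinEquiv.symm j).2, fun φ x => ?_,
    fun j => hQW _ _⟩
  rw [← finProdFinEquiv.sum_comp, Fintype.sum_prod_type]
  simp only [Equiv.symm_apply_apply, hQ]
  rw [← Finset.sum_smul]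
  congr 1
  have hext : ∀ i, (χ i).ext (fun x => a i x * σ ((χ i).toFun x)) (φ.toFun x) =
      (χ i).ext (a i) (φ.toFun x) * σ (φ.toFun x) := by
    intro i
    by_cases hq : φ.toFun x ∈ range (χ i).toFun
    · obtain ⟨y, hy⟩ := hq
      simp [← hy]
    · simp [(χ i).ext_of_notMem _ hq]
  simp only [hext, mul_pow, ← Finset.sum_mul]
  by_cases h0 : φ.toFun x ∈ tsupport σ
  · rw [hone _ h0, one_mul]
  · simp [image_eq_zero_of_notMem_tsupport h0]

end Vale.Agent.P205F
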