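import Vale.Agent.P205F.Start.Glue
import Vale.Agent.P205F.Start.Germ
import Vale.Agent.P205F.Start.Base
import Vale.Agent.P205F.Start.Prim
import Vale.Agent.P205F.Start.Flat
import Vale.Agent.P205F.Start.Morse
import Vale.Agent.P205F.Start.Generic.Main

/-!
# START from its remaining input
-/

namespace Vale.Agent.P205F.Start

universe u

/-- START, from generic goodness. -/
theorem startStmt_of (hGe : GenericStmt.{u}) : StartStmt.{u} :=
  startGlue morseStmt flatStmt base germ hGe primStmt

/-- START, from the goodness lemma. -/
theorem startStmt_of_goodProb (hG : GoodProbStmt false) : StartStmt.{u} :=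
  startStmt_of (Generic.genericStmt_of_goodProb hG)

end Vale.Agent.P205F.Start
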