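import Vale.Agent.P205F.Start.Affine
import Vale.Agent.P205F.Chart.Twisted
import Vale.Agent.P205F.Patch.Stmt

/-!
# START: tensor fields, positivity, cutoffs around finitely many points, projected normals
-/

namespace Vale.Agent.P205F.Start

open scoped Manifold ContDiff RealInnerProductSpace Topology
open Set Function Filter

/-- Positivity of a symmetric two-tensor. -/
def PD (q : S3) : Prop := 0 < q 0 ∧ q 1 ^ 2 < q 0 * q 2

lemma pd_iff {q : S3} : PD q ↔ ∀ v : E2, v ≠ 0 → 0 < bil q v v := by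
  constructor
  · rintro ⟨h0, h1⟩ v hv
    have e : q 0 * bil q v v = (q 0 * v 0 + q 1 * v 1) ^ 2 + (q 0 * q 2 - q 1 ^ 2) * v 1 ^ 2 := by
      simp [bil]; ring
    by_cases hv1 : v 1 = 0
    · have hv0 : v 0 ≠ 0 := fun h => hv (by ext i; fin_cases i <;> assumption)
      have : bil q v v = q 0 * v 0 ^ 2 := by simp [bil, hv1, pow_two]
      rw [this]; positivity
    · have : 0 < q 0 * bil q v v := by
        rw [e]
        have : 0 < (q 0 * q 2 - q 1 ^ 2) * v 1 ^ 2 := mul_pos (by linarith) (by positivity)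
        positivity
      exact pos_of_mul_pos_right this h0.le
  · intro h
    have h0 : 0 < q 0 := by
      simpa [(bil_ev q).1] using h (ev 0) fun h => by simpa [ev] using congrArg (fun y : E2 => y 0) h
    have hne : q 1 • ev 0 - q 0 • ev 1 ≠ 0 := fun h => by
      have := congrArg (fun y : E2 => y 1) h
      simp [ev] at this
      linarith
    have h' := h _ hne
    simp [bil, ev] at h'
    exact ⟨h0, by nlinarith⟩

lemma isOpen_pd : IsOpen {q : S3 | PD q} :=
  (isOpen_lt continuous_const (continuous_apply 0)).inter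
    (isOpen_lt ((continuous_apply 1).pow 2) ((continuous_apply 0).mul (continuous_apply 2)))

variable {M : Type*} [TopologicalSpace M] [ChartedSpace E2 M]

/-- A property of parameters and points is open if it is open in every chart. -/
lemma isOpen_of_charts [IsManifold (𝓡 2) ∞ M] {Z : Type*} [TopologicalSpace Z] {s : Set (Z × M)}
    (h : ∀ ψ : Chart M, IsOpen {q : Z × E2 | (q.1, ψ.toFun q.2) ∈ s}) : IsOpen s := by
  refine isOpen_iff_mem_nhds.2 ?_
  rintro ⟨z, p⟩ hzp
  obtain ⟨ψ, x, rfl, -⟩ := Chart.exists_mem (Filter.univ_mem (f := 𝓝 p))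
  have he : Topology.IsOpenEmbedding (Prod.map (id : Z → Z) ψ.toFun) :=
    Topology.IsOpenEmbedding.id.prodMap ψ.open_emb
  refine mem_of_superset ((he.isOpenMap _ (h ψ)).mem_nhds ⟨(z, x), hzp, rfl⟩) ?_
  rintro _ ⟨⟨z', x'⟩, hq, rfl⟩
  exact hq

/-- Open conditions persist along compact sets. -/
lemma tube {Z : Type*} [TopologicalSpace Z] {s : Set (Z × M)} (hs : IsOpen s) {C : Set M}
    (hC : IsCompact C) {z0 : Z} (h : ∀ p ∈ C, (z0, p) ∈ s) :
    ∀ᶠ z in 𝓝 z0, ∀ p ∈ C, (z, p) ∈ s :=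
  hC.eventually_forall_of_forall_eventually fun p hp => hs.mem_nhds (h p hp)

/-! ### Tensor fields -/

namespace Tn

lemma bil_sub (q q' : S3) (v w : E2) : bil (q - q') v w = bil q v w - bil q' v w := by
  simp [bil]; ring

/-- Sum. -/
noncomputable def add (A B : Ten M) : Ten M where
  val φ x := A.val φ x + B.val φ x
  smooth φ := (A.smooth φ).add (B.smooth φ)
  change ψ φ x h v w := by simp only [bil_add, A.change ψ φ x h, B.change ψ φ x h]

/-- Difference. -/
noncomputable def sub (A B : Ten M) : Ten M where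
  val φ x := A.val φ x - B.val φ x
  smooth φ := (A.smooth φ).sub (B.smooth φ)
  change ψ φ x h v w := by simp only [bil_sub, A.change ψ φ x h, B.change ψ φ x h]

/-- Multiple by a smooth function. -/
noncomputable def fmul (u : M → ℝ) (hu : ContMDiff (𝓡 2) 𝓘(ℝ, ℝ) ∞ u) (A : Ten M) : Ten M where
  val φ x := u (φ.toFun x) • A.val φ x
  smooth φ := (φ.contDiff_comp hu).smul (A.smooth φ)
  change ψ φ x h v w := by simp only [bil_smul, A.change ψ φ x h, ψ.trans_right φ h]

/-- Constant multiple. -/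
noncomputable def cmul (c : ℝ) (A : Ten M) : Ten M where
  val φ x := c • A.val φ x
  smooth φ := (A.smooth φ).const_smul c
  change ψ φ x h v w := by simp only [bil_smul, A.change ψ φ x h]

variable [IsManifold (𝓡 2) ∞ M]

/-- A metric. -/
noncomputable def gcT (g : Metric M) : Ten M where
  val φ x := gc g φ x
  smooth φ := contDiff_gc' g φ
  change ψ φ _ h v w := bil_gc_change g ψ φ h v w

/-- An induced metric. -/
noncomputable def metT {f : M → R4} (hf : ContMDiff (𝓡 2) (𝓡 4) ∞ f) : Ten M where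
  val φ x := met (fun z => f (φ.toFun z)) x
  smooth φ := contDiff_pi.2 fun k => P205F.contDiff_met (φ.contDiff_comp hf) k
  change ψ φ _ h v w := bil_met_change ψ φ hf h v w

/-- The square of `ν`. -/
noncomputable def nuT (g : Metric M) (h : Twisted M) : Ten M where
  val φ x := sq (h.nu g φ x)
  smooth φ := by
    have a := contDiff_nu h g φ
    exact contDiff_pi.2 fun k => by
      fin_cases k
      · exact (a 0).pow 2
      · exact (a 0).mul (a 1)
      · exact (a 1).pow 2
  change ψ φ _ hx v w := h.bil_sq_nu_change g ψ φ hx v w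

omit [IsManifold (𝓡 2) ∞ M] in
/-- The square of `dh`. -/
noncomputable def dT (h : Twisted M) : Ten M where
  val φ x := sq (h.d φ x)
  smooth φ := by
    have a : ∀ i, ContDiff ℝ ∞ fun x => h.d φ x i := fun i => P205F.contDiff_pd (h.smooth φ) i
    exact contDiff_pi.2 fun k => by
      fin_cases k
      · exact (a 0).pow 2
      · exact (a 0).mul (a 1)
      · exact (a 1).pow 2
  change ψ φ _ hx v w := h.bil_sq_d_change ψ φ hx v w

omit [IsManifold (𝓡 2) ∞ M] in
lemma pd_change (A : Ten M) (ψ φ : Chart M) {x y : E2} (h : ψ.toFun y = φ.toFun x)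
    (hp : PD (A.val ψ y)) : PD (A.val φ x) := by
  rw [pd_iff] at hp ⊢
  intro v hv
  have hr : φ.toFun x ∈ range ψ.toFun := ⟨y, h⟩
  rw [A.change ψ φ x hr, Chart.trans_eq h.symm]
  exact hp _ fun e => hv (ψ.trans_fderiv_injective φ hr (e.trans (map_zero _).symm))

end Tn

/-! ### Cutoffs around finitely many points -/

/-- A radial cutoff: `0` for `‖y‖² ≤ a`, `1` for `b ≤ ‖y‖²`. -/
noncomputable def rcut (a b : ℝ) (y : E2) : ℝ := Real.smoothTransition ((‖y‖ ^ 2 - a) / (b - a))

lemma rcut_smooth (a b : ℝ) : ContDiff ℝ ∞ (rcut a b) :=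
  Real.smoothTransition.contDiff.comp (((contDiff_norm_sq ℝ).sub contDiff_const).div_const _)

lemma rcut_mem (a b : ℝ) (y : E2) : rcut a b y ∈ Icc (0 : ℝ) 1 :=
  ⟨Real.smoothTransition.nonneg _, Real.smoothTransition.le_one _⟩

lemma rcut_zero {a b r : ℝ} (hab : a < b) (hr : r ^ 2 ≤ a) {y : E2} (hy : ‖y‖ ≤ r) :
    rcut a b y = 0 := by
  refine Real.smoothTransition.zero_of_nonpos (div_nonpos_of_nonpos_of_nonneg ?_ (by linarith))
  nlinarith [norm_nonneg y]

lemma rcut_one {a b r : ℝ} (hab : a < b) (hr : b ≤ r ^ 2) (hr0 : 0 ≤ r) {y : E2} (hy : r ≤ ‖y‖) :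
    rcut a b y = 1 := by
  refine Real.smoothTransition.one_of_one_le ((one_le_div (by linarith)).2 ?_)
  nlinarith

lemma scut_eq : scut = rcut (49 / 64) (225 / 256) := by
  funext y; simp only [scut, rcut]; norm_num

section Off

variable {ι : Type*} [Fintype ι] (χ : ι → Chart M) (u : E2 → ℝ)

/-- The function that is `u` in each of the charts and `1` elsewhere. -/
noncomputable def offM (p : M) : ℝ := 1 - ∑ i, (χ i).ext (fun y => 1 - u y) p

variable {χ u}

lemma offM_apply (hd : Pairwise fun i j => Disjoint (range (χ i).toFun) (range (χ j).toFun))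
    (i : ι) (y : E2) : offM χ u ((χ i).toFun y) = u y := by
  classical
  rw [offM, Finset.sum_eq_single i]
  · simp
  · intro j _ hji
    exact Chart.ext_of_notMem _ _ fun h => disjoint_left.1 (hd hji) h ⟨y, rfl⟩
  · simp

lemma offM_smooth [T2Space M] (hu : ContDiff ℝ ∞ u) {R : ℝ} (h1 : ∀ y, R ≤ ‖y‖ → u y = 1) :
    ContMDiff (𝓡 2) 𝓘(ℝ, ℝ) ∞ (offM χ u) :=
  contMDiff_const.sub (ContMDiff.sum fun i _ => Chart.ext_contMDiff _ (contDiff_const.sub hu)
    (HasCompactSupport.intro (isCompact_closedBall (0 : E2) R) fun y hy => by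
      rw [h1 y (le_of_lt (by simpa using hy)), sub_self]))

lemma offM_eq_one {r : ℝ} (h1 : ∀ y, r ≤ ‖y‖ → u y = 1) {p : M}
    (hp : ∀ i, p ∉ (χ i).toFun '' Metric.ball 0 r) : offM χ u p = 1 := by
  rw [offM, Finset.sum_eq_zero fun i _ => ?_, sub_zero]
  by_cases h : p ∈ range (χ i).toFun
  · obtain ⟨y, rfl⟩ := h
    have hy : r ≤ ‖y‖ := not_lt.1 fun hy => hp i ⟨y, by simpa using hy, rfl⟩
    simp [h1 y hy]
  · exact Chart.ext_of_notMem _ _ h

lemma offM_cases {r : ℝ} (h1 : ∀ y, r ≤ ‖y‖ → u y = 1) (p : M) :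
    (∃ i y, ‖y‖ < r ∧ (χ i).toFun y = p) ∨ offM χ u p = 1 := by
  by_cases h : ∀ i, p ∉ (χ i).toFun '' Metric.ball 0 r
  · exact Or.inr (offM_eq_one h1 h)
  · push Not at h
    obtain ⟨i, y, hy, e⟩ := h
    exact Or.inl ⟨i, y, by simpa using hy, e⟩

lemma offM_mem [T2Space M] (hd : Pairwise fun i j => Disjoint (range (χ i).toFun) (range (χ j).toFun))
    {r : ℝ} (h1 : ∀ y, r ≤ ‖y‖ → u y = 1) (h01 : ∀ y, u y ∈ Icc (0 : ℝ) 1) (p : M) :
    offM χ u p ∈ Icc (0 : ℝ) 1 := by
  rcases offM_cases (χ := χ) h1 p with ⟨i, y, -, rfl⟩ | h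
  · rw [offM_apply hd]; exact h01 y
  · rw [h]; exact ⟨zero_le_one, le_rfl⟩

lemma offM_eventually_one [T2Space M] {r : ℝ} (h1 : ∀ y, r ≤ ‖y‖ → u y = 1) {p : M}
    (hp : ∀ i, p ∉ (χ i).toFun '' Metric.closedBall 0 r) : ∀ᶠ q in 𝓝 p, offM χ u q = 1 := by
  have hc : IsClosed (⋃ i, (χ i).toFun '' Metric.closedBall 0 r) :=
    isClosed_iUnion_of_finite fun i =>
      ((isCompact_closedBall 0 r).image (χ i).continuous).isClosed
  filter_upwards [hc.isOpen_compl.mem_nhds (by simpa using hp)] with q hq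
  exact offM_eq_one h1 fun i hi => hq (mem_iUnion.2 ⟨i, image_mono Metric.ball_subset_closedBall hi⟩)

lemma tsupport_offM (hd : Pairwise fun i j => Disjoint (range (χ i).toFun) (range (χ j).toFun))
    {r : ℝ} (h0 : ∀ y, ‖y‖ < r → u y = 0) {p : M} (hp : p ∈ tsupport (offM χ u)) (i : ι) :
    p ∉ (χ i).toFun '' Metric.ball 0 r := fun hi => by
  obtain ⟨q, hq, hne⟩ := mem_closure_iff_nhds.1 hp _
    (((χ i).open_emb.isOpenMap _ Metric.isOpen_ball).mem_nhds hi)
  obtain ⟨y, hy, rfl⟩ := hq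
  exact hne ((offM_apply (u := u) hd i y).trans (h0 y (by simpa using hy)))

end Off

/-! ### Projected normals -/

variable [IsManifold (𝓡 2) ∞ M]

lemma exists_chart_at (p : M) : ∃ q : Chart M × E2, q.1.toFun q.2 = p :=
  let ⟨ψ, x, h, _⟩ := Chart.exists_mem (Filter.univ_mem (f := 𝓝 p))
  ⟨(ψ, x), h⟩

/-- The normal projection of a vector field along a map. -/
noncomputable def nrmM (f v : M → R4) (p : M) : R4 :=
  nrm (fun z => f ((exists_chart_at p).choose.1.toFun z)) (exists_chart_at p).choose.2 (v p)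

lemma nrmM_chart {f : M → R4} (hf : ContMDiff (𝓡 2) (𝓡 4) ∞ f) (v : M → R4) (ψ : Chart M)
    (x : E2) : nrmM f v (ψ.toFun x) = nrm (fun z => f (ψ.toFun z)) x (v (ψ.toFun x)) := by
  have e := (exists_chart_at (ψ.toFun x)).choose_spec
  rw [nrmM, nrm_change ψ (exists_chart_at (ψ.toFun x)).choose.1 hf ⟨x, e.symm⟩, Chart.trans_eq e]

/-- The normalised projection. -/
noncomputable def unitN (f v : M → R4) (p : M) : R4 := ‖nrmM f v p‖⁻¹ • nrmM f v p

lemma framed_unitN {f v : M → R4} (hf : ContMDiff (𝓡 2) (𝓡 4) ∞ f)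
    (hv : ContMDiff (𝓡 2) (𝓡 4) ∞ v) (hi : ∀ ψ : Chart M, IsImm fun z => f (ψ.toFun z))
    (hne : ∀ p, nrmM f v p ≠ 0) : Framed f (unitN f v) := by
  have hN : ContMDiff (𝓡 2) (𝓡 4) ∞ (nrmM f v) := Chart.contMDiff_of_forall fun ψ => by
    simp only [nrmM_chart hf]
    exact (contDiff_nrmL (ψ.contDiff_comp hf) (hi ψ)).clm_apply (ψ.contDiff_comp hv)
  refine ⟨hf, Chart.contMDiff_of_forall fun ψ => ?_, fun p => norm_smul_inv_norm (hne p),
    fun ψ => ⟨hi ψ, fun x i => ?_⟩⟩
  · exact (((ψ.contDiff_comp hN).norm ℝ fun z => hne _).inv fun z => norm_ne_zero_iff.2 (hne _)).smul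
      (ψ.contDiff_comp hN)
  · simp only [unitN, nrmM_chart hf, real_inner_smul_left]
    rw [real_inner_comm, show pd i (fun z => f (ψ.toFun z)) x =
      fderiv ℝ (fun z => f (ψ.toFun z)) x (ev i) from rfl, nrm_mem, mul_zero]

end Vale.Agent.P205F.Start
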