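import Vale.Agent.P205F.Start.Interfaces
import Vale.Agent.P205F.Chart.Transfer

/-!
# START: a profile for flat Hopf tubes

`F (x, y) = e^{iy} γ x` for a horizontal curve `γ = (cos r e^{iα}, sin r e^{iβ})` of unit speed in
the three-sphere.  Its second derivatives are `-F + κ n`, `n`, `-F` with `n = i F_x`.
-/

namespace Vale.Agent.P205F.Start.Tube

open scoped Manifold ContDiff RealInnerProductSpace Topology
open Set Function Filter

/-- The radius. -/
noncomputable def rad (s : ℝ) : ℝ := Real.pi / 4 + Real.sin s / 8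
/-- Its derivative. -/
noncomputable def r1 (s : ℝ) : ℝ := Real.cos s / 8
/-- Its second derivative. -/
noncomputable def r2 (s : ℝ) : ℝ := -(Real.sin s / 8)
/-- The angular speed. -/
noncomputable def spd (s : ℝ) : ℝ := Real.sqrt (1 - r1 s ^ 2)
/-- Speed of the first angle. -/
noncomputable def angA (s : ℝ) : ℝ := spd s * Real.sin (rad s) / Real.cos (rad s)
/-- Speed of the second angle. -/
noncomputable def angB (s : ℝ) : ℝ := -(spd s * Real.cos (rad s) / Real.sin (rad s))
/-- The first angle. -/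
noncomputable def alp (s : ℝ) : ℝ := ∫ u in (0 : ℝ)..s, angA u
/-- The second angle. -/
noncomputable def bet (s : ℝ) : ℝ := ∫ u in (0 : ℝ)..s, angB u
/-- The curvature. -/
noncomputable def kap (s : ℝ) : ℝ :=
  r2 s / spd s + (angA s * Real.sin (rad s) ^ 2 + angB s * Real.cos (rad s) ^ 2)

lemma r1_sq_lt (s : ℝ) : r1 s ^ 2 < 1 := by
  unfold r1
  nlinarith [Real.neg_one_le_cos s, Real.cos_le_one s]

lemma spd_pos (s : ℝ) : 0 < spd s := Real.sqrt_pos.2 (by linarith [r1_sq_lt s])

lemma spd_sq (s : ℝ) : r1 s ^ 2 + spd s ^ 2 = 1 := by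
  rw [spd, Real.sq_sqrt (by linarith [r1_sq_lt s])]
  ring

lemma rad_mem (s : ℝ) : 0 < rad s ∧ rad s < Real.pi / 2 := by
  unfold rad
  constructor <;> nlinarith [Real.pi_gt_three, Real.neg_one_le_sin s, Real.sin_le_one s]

lemma sin_pos (s : ℝ) : 0 < Real.sin (rad s) :=
  Real.sin_pos_of_pos_of_lt_pi (rad_mem s).1 (by linarith [(rad_mem s).2, Real.pi_pos])

lemma cos_pos (s : ℝ) : 0 < Real.cos (rad s) :=
  Real.cos_pos_of_mem_Ioo ⟨by linarith [(rad_mem s).1, Real.pi_pos], (rad_mem s).2⟩

lemma contDiff_r1 : ContDiff ℝ ∞ r1 := Real.contDiff_cos.div_const _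
lemma contDiff_r2 : ContDiff ℝ ∞ r2 := (Real.contDiff_sin.div_const _).neg
lemma contDiff_rad : ContDiff ℝ ∞ rad := contDiff_const.add (Real.contDiff_sin.div_const _)

lemma contDiff_spd : ContDiff ℝ ∞ spd :=
  (contDiff_const.sub (contDiff_r1.pow 2)).sqrt fun s => by
    have := r1_sq_lt s
    intro h
    linarith

lemma contDiff_angA : ContDiff ℝ ∞ angA :=
  (contDiff_spd.mul (Real.contDiff_sin.comp contDiff_rad)).div
    (Real.contDiff_cos.comp contDiff_rad) fun s => (cos_pos s).ne'

lemma contDiff_angB : ContDiff ℝ ∞ angB :=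
  ((contDiff_spd.mul (Real.contDiff_cos.comp contDiff_rad)).div
    (Real.contDiff_sin.comp contDiff_rad) fun s => (sin_pos s).ne').neg

lemma contDiff_kap : ContDiff ℝ ∞ kap :=
  (contDiff_r2.div contDiff_spd fun s => (spd_pos s).ne').add
    ((contDiff_angA.mul ((Real.contDiff_sin.comp contDiff_rad).pow 2)).add
      (contDiff_angB.mul ((Real.contDiff_cos.comp contDiff_rad).pow 2)))

lemma hasDerivAt_rad (s : ℝ) : HasDerivAt rad (r1 s) s :=
  ((Real.hasDerivAt_sin s).div_const 8).const_add _

lemma hasDerivAt_r1 (s : ℝ) : HasDerivAt r1 (r2 s) s := by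
  have := (Real.hasDerivAt_cos s).div_const (8 : ℝ)
  rwa [neg_div] at this

lemma hasDerivAt_spd (s : ℝ) : HasDerivAt spd (-(r1 s * (r2 s / spd s))) s := by
  have h := (((hasDerivAt_r1 s).fun_pow 2).const_sub 1).sqrt (by linarith [r1_sq_lt s])
  have hne := (spd_pos s).ne'
  refine h.congr_deriv ?_
  show _ / (2 * spd s) = _
  push_cast
  field_simp

lemma hasDerivAt_alp (s : ℝ) : HasDerivAt alp (angA s) s :=
  contDiff_angA.continuous.integral_hasStrictDerivAt 0 s |>.hasDerivAt

lemma hasDerivAt_bet (s : ℝ) : HasDerivAt bet (angB s) s :=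
  contDiff_angB.continuous.integral_hasStrictDerivAt 0 s |>.hasDerivAt

lemma contDiff_primitive {f g : ℝ → ℝ} (h : ∀ s, HasDerivAt f (g s) s) (hg : ContDiff ℝ ∞ g) :
    ContDiff ℝ ∞ f := by
  refine contDiff_infty_iff_deriv.2 ⟨fun s => (h s).differentiableAt, ?_⟩
  rwa [show deriv f = g from funext fun s => (h s).deriv]

lemma cos_angA (s : ℝ) : Real.cos (rad s) * angA s = spd s * Real.sin (rad s) := by
  unfold angA
  field_simp [(cos_pos s).ne']

lemma sin_angB (s : ℝ) : Real.sin (rad s) * angB s = -(spd s * Real.cos (rad s)) := by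
  unfold angB
  field_simp [(sin_pos s).ne']

/-- The two values of the curvature used to see that it is not constant. -/
lemma kap_zero : kap 0 = 0 := by
  have hr : rad 0 = Real.pi / 4 := by simp [rad]
  have hA := cos_angA 0
  have hB := sin_angB 0
  simp only [hr, Real.sin_pi_div_four, Real.cos_pi_div_four] at hA hB
  have e : angA 0 * (Real.sqrt 2 / 2) ^ 2 + angB 0 * (Real.sqrt 2 / 2) ^ 2 = 0 := by
    linear_combination (Real.sqrt 2 / 2) * hA + (Real.sqrt 2 / 2) * hB
  simp only [kap, hr, Real.sin_pi_div_four, Real.cos_pi_div_four, e, add_zero]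
  simp [r2]

lemma kap_pi_div_two : 0 < kap (Real.pi / 2) := by
  have hs : spd (Real.pi / 2) = 1 := by simp [spd, r1]
  have h2 : r2 (Real.pi / 2) = -(1 / 8) := by simp [r2]
  have hr : rad (Real.pi / 2) = Real.pi / 4 + 1 / 8 := by simp [rad]
  have hA := cos_angA (Real.pi / 2)
  have hB := sin_angB (Real.pi / 2)
  have hc := cos_pos (Real.pi / 2)
  have hsn := sin_pos (Real.pi / 2)
  rw [hs, one_mul] at hA hB
  set a := Real.sin (rad (Real.pi / 2)) with ha
  set b := Real.cos (rad (Real.pi / 2)) with hb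
  have hab : a ^ 2 + b ^ 2 = 1 := Real.sin_sq_add_cos_sq _
  have e : (angA (Real.pi / 2) * a ^ 2 + angB (Real.pi / 2) * b ^ 2) * (a * b) =
      a ^ 2 - b ^ 2 := by
    linear_combination a ^ 3 * hA + b ^ 3 * hB + (a ^ 2 - b ^ 2) * hab
  have hd : 1 / 8 < (a ^ 2 - b ^ 2) := by
    have h1 : a ^ 2 - b ^ 2 = Real.sin (1 / 4) := by
      have : a ^ 2 - b ^ 2 = -Real.cos (2 * (Real.pi / 4 + 1 / 8)) := by
        rw [Real.cos_two_mul, ← hr]
        linear_combination hab
      rw [this, show 2 * (Real.pi / 4 + 1 / 8) = 1 / 4 + Real.pi / 2 by ring, Real.cos_add_pi_div_two,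
        neg_neg]
    rw [h1]
    nlinarith [Real.sin_gt_sub_cube (show (0 : ℝ) < 1 / 4 by norm_num)]
  have hprod : a * b ≤ 1 := by nlinarith [sq_nonneg (a - b)]
  have hK : 1 / 8 < angA (Real.pi / 2) * a ^ 2 + angB (Real.pi / 2) * b ^ 2 := by
    by_contra hle
    have hab' : 0 < a * b := mul_pos hsn hc
    nlinarith
  unfold kap
  rw [h2, hs, ← ha, ← hb]
  linarith

lemma kap_periodic : Periodic kap (2 * Real.pi) := by
  intro s
  have h : rad (s + 2 * Real.pi) = rad s := by simp [rad]
  have h1 : r1 (s + 2 * Real.pi) = r1 s := by simp [r1]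
  have h2 : r2 (s + 2 * Real.pi) = r2 s := by simp [r2]
  simp only [kap, angA, angB, spd, h, h1, h2]

/-- Some point where the goodness determinant of the tube does not vanish. -/
theorem exists_point :
    ∃ s, deriv (deriv kap) s * (kap s ^ 2 + 4) ≠ 2 * kap s * deriv kap s ^ 2 := by
  by_contra h
  push Not at h
  have hk1 : Differentiable ℝ kap := contDiff_kap.differentiable (by simp)
  have hk2 : Differentiable ℝ (deriv kap) :=
    (contDiff_infty_iff_deriv.1 contDiff_kap).2.differentiable (by simp)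
  let g : ℝ → ℝ := fun s => deriv kap s / (kap s ^ 2 + 4)
  have hg : ∀ s, HasDerivAt g 0 s := fun s => by
    refine ((hk2 s).hasDerivAt.div (((hk1 s).hasDerivAt.fun_pow 2).add_const 4)
      (by positivity)).congr_deriv ?_
    rw [div_eq_zero_iff]
    left
    push_cast
    linear_combination h s
  have hconst : ∀ s, deriv kap s = g 0 * (kap s ^ 2 + 4) := fun s => by
    have e := is_const_of_deriv_eq_zero (fun u => (hg u).differentiableAt) (fun u => (hg u).deriv) s 0
    rw [← e]
    show deriv kap s = deriv kap s / (kap s ^ 2 + 4) * (kap s ^ 2 + 4)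
    field_simp
  rcases lt_trichotomy (g 0) 0 with hc | hc | hc
  · have hmono : StrictAnti kap := strictAnti_of_deriv_neg fun s => by
      rw [hconst s]; exact mul_neg_of_neg_of_pos hc (by positivity)
    have := hmono (show (0 : ℝ) < 0 + 2 * Real.pi by positivity)
    rw [kap_periodic 0] at this
    exact lt_irrefl _ this
  · have e := is_const_of_deriv_eq_zero hk1 (fun s => by rw [hconst s, hc, zero_mul])
      (Real.pi / 2) 0
    linarith [kap_pi_div_two, kap_zero]
  · have hmono : StrictMono kap := strictMono_of_deriv_pos fun s => by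
      rw [hconst s]; exact mul_pos hc (by positivity)
    have := hmono (show (0 : ℝ) < 0 + 2 * Real.pi by positivity)
    rw [kap_periodic 0] at this
    exact lt_irrefl _ this

end Vale.Agent.P205F.Start.Tube
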