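import Vale.Agent.P205F.Start.Family

/-!
# START, reduced: assembly

Base map, germs at scale `ε`, a small perturbation for goodness, and the slack as `σ² P`.
-/

namespace Vale.Agent.P205F.Start

open scoped Manifold ContDiff RealInnerProductSpace Topology
open Set Function Filter

universe u

variable {M : Type u} [TopologicalSpace M] [ChartedSpace E2 M]

/-- The local correction that inserts a germ. -/
noncomputable def germD (c lam : ℝ) (R : R4 ≃ₗᵢ[ℝ] R4) (F f' : E2 → R4) (y : E2) : R4 :=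
  c • R (f' y - Real.sqrt (1 - lam) • F y)

lemma germD_smooth {c lam : ℝ} {R : R4 ≃ₗᵢ[ℝ] R4} {F f' : E2 → R4} (hF : ContDiff ℝ ∞ F)
    (hf : ContDiff ℝ ∞ f') : ContDiff ℝ ∞ (germD c lam R F f') :=
  (R.toContinuousLinearEquiv.contDiff.comp (hf.sub (hF.const_smul _))).const_smul c

lemma germD_zero {c lam : ℝ} {R : R4 ≃ₗᵢ[ℝ] R4} {F f' : E2 → R4} {y : E2}
    (h : f' y = Real.sqrt (1 - lam) • F y) : germD c lam R F f' y = 0 := by
  simp [germD, h]

lemma eventually_ball {y : E2} {r : ℝ} (h : ‖y‖ < r) : ∀ᶠ z in 𝓝 y, ‖z‖ < r :=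
  (continuous_norm.tendsto y).eventually (gt_mem_nhds h)

theorem startGlue : StartGlueStmt.{u} := by
  intro hMo hFl hB hG hGe hP M _ _ _ _ _ g f0 n0 hF
  obtain ⟨h, hQ⟩ := hMo M f0 n0 hF
  obtain ⟨rad, hrad, hB⟩ := hB
  obtain ⟨P, hPn, hPg⟩ := hFl rad hrad
  obtain ⟨ψ, hψ0, hψg, hdisj, hbase⟩ := hB M g f0 n0 hQ.toFinset P hF hPn
  obtain ⟨lam, e, k, κ, B, hlam0, hlam, he, hκ, hgerm⟩ := hG P hPg
  obtain ⟨ε0, hε0, hbase⟩ := hbase lam hlam0 hlam
  -- the scale
  have hsmall : ∀ᶠ ε in 𝓝[>] (0 : ℝ), ε < ε0 := nhdsWithin_le_nhds (gt_mem_nhds hε0)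
  obtain ⟨ε, hεsc, hεlt, hεpos⟩ := ((eventually_all.2 fun q : hQ.toFinset =>
    small_scale (G := fun z => gc g (ψ q) z - euc) ((contDiff_gc' g _).sub contDiff_const)
      (by rw [hψg, sub_self]) k he).and
    (hsmall.and self_mem_nhdsWithin)).exists
  have hεpos : 0 < ε := hεpos
  have hεne := hεpos.ne'
  obtain ⟨fb, nb, hfbF, hshort, hflat⟩ := hbase ε hεpos hεlt
  choose a R hflat using hflat
  obtain ⟨hfb, hnb, hnb1, hfbI⟩ := hfbF
  let χ : hQ.toFinset → Chart M := fun q => dil (ψ q) ε hεne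
  have hd : Pairwise fun i j => Disjoint (range (χ i).toFun) (range (χ j).toFun) := fun i j hij => by
    simpa only [χ, range_dil] using hdisj hij
  have hχ0 : ∀ q, (χ q).toFun 0 = q.1 := fun q => by simp [χ, hψ0]
  have hcl : ∀ r : ℝ, IsCompact (⋃ q, (χ q).toFun '' Metric.closedBall 0 r) := fun r =>
    isCompact_iUnion fun q => (isCompact_closedBall 0 r).image (χ q).continuous
  have hop : ∀ r : ℝ, IsOpen (⋃ q, (χ q).toFun '' Metric.ball 0 r) := fun r =>
    isOpen_iUnion fun q => (χ q).open_emb.isOpenMap _ Metric.isOpen_ball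
  have hin : ∀ {r : ℝ} {q y}, ‖y‖ < r → (χ q).toFun y ∈ ⋃ q, (χ q).toFun '' Metric.ball 0 r :=
    fun {r q y} hy => mem_iUnion.2 ⟨q, y, by simpa using hy, rfl⟩
  have hout : ∀ {r : ℝ} {q y}, (χ q).toFun y ∈ (⋃ q, (χ q).toFun '' Metric.closedBall 0 r) →
      ‖y‖ ≤ r := by
    intro r q y hy
    obtain ⟨q', z, hz, e⟩ := mem_iUnion.1 hy
    obtain rfl : q' = q := by_contra fun hne => disjoint_left.1 (hd hne) ⟨z, rfl⟩ ⟨y, e.symm⟩
    rw [← (χ q').injective e]
    simpa using hz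
  -- the cutoffs
  let θf : M → ℝ := offM χ (rcut (1 / 64) (1 / 16))
  let θ0 : M → ℝ := offM χ (rcut (9 / 64) (1 / 4))
  let σ : M → ℝ := offM χ scut
  let β : M → ℝ := offM χ (rcut (2304 / 2500) 1)
  have u1 : ∀ y : E2, (1 / 4 : ℝ) ≤ ‖y‖ → rcut (1 / 64) (1 / 16) y = 1 := fun y hy =>
    rcut_one (r := 1 / 4) (by norm_num) (by norm_num) (by norm_num) hy
  have u2 : ∀ y : E2, (1 / 2 : ℝ) ≤ ‖y‖ → rcut (9 / 64) (1 / 4) y = 1 := fun y hy =>
    rcut_one (r := 1 / 2) (by norm_num) (by norm_num) (by norm_num) hy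
  have u3 : ∀ y : E2, (15 / 16 : ℝ) ≤ ‖y‖ → scut y = 1 := fun y hy => by
    rw [scut_eq]; exact rcut_one (r := 15 / 16) (by norm_num) (by norm_num) (by norm_num) hy
  have u4 : ∀ y : E2, (1 : ℝ) ≤ ‖y‖ → rcut (2304 / 2500) 1 y = 1 := fun y hy =>
    rcut_one (r := 1) (by norm_num) (by norm_num) (by norm_num) hy
  have z1 : ∀ y : E2, ‖y‖ < 1 / 8 → rcut (1 / 64) (1 / 16) y = 0 := fun y hy =>
    rcut_zero (r := 1 / 8) (by norm_num) (by norm_num) hy.le
  have z2 : ∀ y : E2, ‖y‖ < 3 / 8 → rcut (9 / 64) (1 / 4) y = 0 := fun y hy =>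
    rcut_zero (r := 3 / 8) (by norm_num) (by norm_num) hy.le
  have z3 : ∀ y : E2, ‖y‖ < 7 / 8 → scut y = 0 := fun y hy => by
    rw [scut_eq]; exact rcut_zero (r := 7 / 8) (by norm_num) (by norm_num) hy.le
  have z4 : ∀ y : E2, ‖y‖ < 24 / 25 → rcut (2304 / 2500) 1 y = 0 := fun y hy =>
    rcut_zero (r := 24 / 25) (by norm_num) (by norm_num) hy.le
  have hθf : ContMDiff (𝓡 2) 𝓘(ℝ, ℝ) ∞ θf := offM_smooth (rcut_smooth _ _) u1
  have hθ0 : ContMDiff (𝓡 2) 𝓘(ℝ, ℝ) ∞ θ0 := offM_smooth (rcut_smooth _ _) u2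
  have hσ : ContMDiff (𝓡 2) 𝓘(ℝ, ℝ) ∞ σ :=
    offM_smooth (by rw [scut_eq]; exact rcut_smooth _ _) u3
  have hβ : ContMDiff (𝓡 2) 𝓘(ℝ, ℝ) ∞ β := offM_smooth (rcut_smooth _ _) u4
  let Z : Set M := ⋃ q, (χ q).toFun '' Metric.ball 0 (3 / 4)
  have hZcl : closure Z ⊆ ⋃ q, (χ q).toFun '' Metric.closedBall 0 (3 / 4) :=
    closure_minimal (iUnion_mono fun q => image_mono Metric.ball_subset_closedBall)
      (hcl _).isClosed
  have hcrit : ∀ {p}, p ∈ h.crit → ∃ q, (χ q).toFun 0 = p := fun {p} hp =>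
    ⟨⟨p, hQ.mem_toFinset.2 hp⟩, hχ0 _⟩
  refine ⟨⟨h, θf, θ0, Z, κ / ε, B / ε, hQ, hθf, hθ0, offM_mem hd u1 (rcut_mem _ _),
    offM_mem hd u2 (rcut_mem _ _), hop _, by positivity, ?_, ?_, ?_⟩, ?_⟩
  · refine disjoint_left.2 fun p hp hs => ?_
    obtain ⟨q, rfl⟩ := hcrit hp
    exact tsupport_offM hd z1 hs q ⟨0, by simp, rfl⟩
  · intro p hp
    refine offM_eventually_one u1 fun q hq => tsupport_offM hd z2 hp q (image_mono ?_ hq)
    exact Metric.closedBall_subset_ball (by norm_num)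
  · intro p _
    by_cases hp : p ∈ Z
    · exact Or.inl hp
    · exact Or.inr (offM_eventually_one u2 fun q hq => hp (mem_iUnion.2
        ⟨q, image_mono (Metric.closedBall_subset_ball (by norm_num)) hq⟩))
  intro η0 hη0
  -- the tensor to be absorbed, and its size
  let T0 : Ten M := Tn.add (Tn.fmul _ (hθf.pow 2) (Tn.nuT g h)) (Tn.fmul _ (hθ0.pow 2) (Tn.dT h))
  let Tq : hQ.toFinset → E2 → S3 := fun q y => (ε ^ 2)⁻¹ • T0.val (χ q) y
  have hTq : ∀ q, ContDiff ℝ ∞ (Tq q) := fun q => (T0.smooth _).const_smul _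
  let base : ℝ → Ten M := fun η => Tn.sub (Tn.sub (Tn.gcT g) (Tn.metT hfb)) (Tn.cmul η T0)
  have hbase_open : IsOpen {q : ℝ × M | PosAt (base q.1) q.2} := isOpen_posAt _ fun φ => by
    show Continuous fun q : ℝ × E2 =>
      gc g φ q.2 - met (fun z => fb (φ.toFun z)) q.2 - q.1 • T0.val φ q.2
    exact (((Tn.gcT g).smooth φ).continuous.comp continuous_snd).sub
      (((Tn.metT hfb).smooth φ).continuous.comp continuous_snd) |>.sub
      (continuous_fst.smul ((T0.smooth φ).continuous.comp continuous_snd))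
  have hev : ∀ᶠ η in 𝓝 (0 : ℝ), (∀ q, BdOn (fun y => η • Tq q y) (Metric.ball 0 3) k e) ∧
      (∀ p ∈ (univ : Set M), (η, p) ∈ {q : ℝ × M | PosAt (base q.1) q.2}) ∧ η < η0 :=
    (eventually_all.2 fun q : hQ.toFinset => small_smul (hTq q) k he).and
      ((tube hbase_open isCompact_univ (z0 := 0) fun p _ φ x _ => pd_iff.2 fun v hv => by
        show 0 < bil (gc g φ x - met (fun z => fb (φ.toFun z)) x - (0 : ℝ) • T0.val φ x) v v
        rw [zero_smul, sub_zero, Tn.bil_sub]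
        linarith [hshort φ x v hv]).and (gt_mem_nhds hη0))
  obtain ⟨η, ⟨hηT, hηb, hηlt⟩, hηpos⟩ :=
    ((hev.filter_mono nhdsWithin_le_nhds).and (self_mem_nhdsWithin (s := Ioi (0 : ℝ)))).exists
  have hηpos : 0 < η := hηpos
  refine ⟨η, hηpos, hηlt.le, ?_⟩
  -- the germs
  let G : hQ.toFinset → E2 → S3 := fun q y => gc g (ψ q) (ε • y)
  have hgcχ : ∀ q y, gc g (χ q) y = ε ^ 2 • G q y := fun q y => gc_dil g (ψ q) ε hεne y
  have hTχ : ∀ q y, η • T0.val (χ q) y = ε ^ 2 • (η • Tq q y) := fun q y => by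
    simp only [Tq, smul_smul]; congr 1; field_simp
  have hge : ∀ q, _ := fun q => hgerm (G q) (fun y => η • Tq q y)
    ((contDiff_gc' g (ψ q)).comp (contDiff_const_smul ε)) ((hTq q).const_smul η) (hεsc q) (hηT q)
  choose f' n' hf's hf'out hf'in hf'ex hf'P hf'S hf'cap using hge
  -- the glued map
  let f1 : M → R4 := fun p => fb p + ∑ q, (χ q).ext (germD ε lam (R q) P.F (f' q)) p
  have hD0 : ∀ q (y : E2), 7 / 4 ≤ ‖y‖ → germD ε lam (R q) P.F (f' q) y = 0 := fun q y hy =>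
    germD_zero (hf'out q y hy)
  have hf1 : ContMDiff (𝓡 2) (𝓡 4) ∞ f1 :=
    hfb.add (ContMDiff.sum fun q _ => Chart.ext_contMDiff _ (germD_smooth P.smooth (hf's q))
      (HasCompactSupport.intro (isCompact_closedBall (0 : E2) (7 / 4)) fun y hy =>
        hD0 q y (le_of_lt (by simpa using hy))))
  have hf1χ : ∀ q y, ‖y‖ < 2 → f1 ((χ q).toFun y) = a q + ε • R q (f' q y) := by
    intro q y hy
    simp only [f1]
    rw [Finset.sum_eq_single q (fun j _ hjq => Chart.ext_of_notMem _ _ fun hj =>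
      disjoint_left.1 (hd hjq) hj ⟨y, rfl⟩) (by simp), Chart.ext_apply,
      show fb ((χ q).toFun y) = _ from (hflat q y hy).1, germD, map_sub, map_smul, smul_sub,
      smul_smul]
    abel
  have hnbχ : ∀ q y, ‖y‖ < 2 → nb ((χ q).toFun y) = R q (P.V y) := fun q y hy => (hflat q y hy).2
  have hf1out : ∀ p, p ∉ (⋃ q, (χ q).toFun '' Metric.closedBall 0 (7 / 4)) → f1 p = fb p := by
    intro p hp
    simp only [f1]
    rw [Finset.sum_eq_zero fun q _ => ?_, add_zero]
    by_cases hr : p ∈ range (χ q).toFun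
    · obtain ⟨y, rfl⟩ := hr
      rw [Chart.ext_apply]
      exact hD0 q y (le_of_lt (not_le.1 fun hy => hp (mem_iUnion.2 ⟨q, y, by simpa using hy, rfl⟩)))
    · exact Chart.ext_of_notMem _ _ hr
  -- behaviour of `f1` in the germ charts
  have hev1 : ∀ q y, ‖y‖ < 2 → (fun z => f1 ((χ q).toFun z)) =ᶠ[𝓝 y]
      fun z => a q + ε • R q (f' q z) := fun q y hy =>
    (eventually_ball hy).mono fun z hz => hf1χ q z hz
  have hmet1 : ∀ q y, ‖y‖ < 2 →
      met (fun z => f1 ((χ q).toFun z)) y = ε ^ 2 • met (f' q) y := fun q y hy => by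
    rw [← met_similar (hf's q) (a q) ε (R q) y]
    simp only [met, pd, (hev1 q y hy).fderiv_eq]
  have hnrm1 : ∀ q y, ‖y‖ < 2 →
      nrm (fun z => f1 ((χ q).toFun z)) y (nb ((χ q).toFun y)) = R q (nrm (f' q) y (P.V y)) := by
    intro q y hy
    rw [← nrm_similar (hf's q) (a q) hεne (R q) y, hnbχ q y hy]
    simp only [nrm, (hev1 q y hy).fderiv_eq]
  have hev1' : ∀ p, p ∉ (⋃ q, (χ q).toFun '' Metric.closedBall 0 (7 / 4)) → f1 =ᶠ[𝓝 p] fb :=
    fun p hp => mem_of_superset ((hcl _).isClosed.isOpen_compl.mem_nhds hp) fun q hq => hf1out q hq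
  have hcases : ∀ p, (∃ q y, ‖y‖ < 2 ∧ (χ q).toFun y = p) ∨
      p ∉ (⋃ q, (χ q).toFun '' Metric.closedBall 0 (7 / 4)) := fun p => by
    by_cases hp : p ∈ (⋃ q, (χ q).toFun '' Metric.closedBall 0 (7 / 4))
    · obtain ⟨q, y, hy, e⟩ := mem_iUnion.1 hp
      exact Or.inl ⟨q, y, lt_of_le_of_lt (by simpa using hy) (by norm_num), e⟩
    · exact Or.inr hp
  -- the perturbation
  obtain ⟨d, Φ, hΦ, hΦU, hgen⟩ := hGe M f1
    (⋃ q, (χ q).toFun '' Metric.ball 0 (3 / 2))ᶜ (⋃ q, (χ q).toFun '' Metric.closedBall 0 (5 / 4))ᶜ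
    hf1 (fun φ x => by
      rcases hcases (φ.toFun x) with ⟨q, y, hy, e⟩ | hp
      · rw [fderiv_change (χ q) φ hf1 ⟨y, e⟩, Chart.trans_eq e.symm, (hev1 q y hy).fderiv_eq]
        exact (similar_injective (hf's q) _ hεne _ (hf'in q y hy).1).comp
          ((χ q).trans_fderiv_injective φ ⟨y, e⟩)
      · rw [show fderiv ℝ (fun z => f1 (φ.toFun z)) x = _ from
          ((hev1' _ hp).comp_tendsto φ.continuous.continuousAt).fderiv_eq]
        exact (hfbI φ).1 x)
    ((hop _).isClosed_compl.isCompact) (hcl _).isClosed.isOpen_compl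
    (compl_subset_compl.2 (iUnion_mono fun q =>
      image_mono (Metric.closedBall_subset_ball (by norm_num))))
  have hΦ0 : ∀ q y, ‖y‖ < 5 / 4 → ∀ l, fam f1 Φ l =ᶠ[𝓝 ((χ q).toFun y)] f1 := by
    intro q y hy l
    refine mem_of_superset (((χ q).open_emb.isOpenMap _ Metric.isOpen_ball).mem_nhds
      ⟨y, (by simpa using hy : y ∈ Metric.ball (0 : E2) (5 / 4)), rfl⟩) ?_
    rintro _ ⟨z, hz, rfl⟩
    show fam f1 Φ l _ = f1 _
    simp only [fam]
    rw [Finset.sum_eq_zero fun j _ => ?_, add_zero]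
    rw [image_eq_zero_of_notMem_tsupport fun hj => hΦU j hj
      (mem_iUnion.2 ⟨q, z, Metric.ball_subset_closedBall hz, rfl⟩), smul_zero]
  have hfam0 : fam f1 Φ 0 = f1 := funext fun p => by simp [fam]
  let slack : (Fin d → ℝ) → Ten M := fun l =>
    Tn.sub (Tn.sub (Tn.gcT g) (Tn.metT (fam_smooth hf1 hΦ l))) (Tn.cmul η T0)
  have hslack_open : IsOpen {q : (Fin d → ℝ) × M | PosAt (slack q.1) q.2} := isOpen_posAt _ fun φ => by
    show Continuous fun q : (Fin d → ℝ) × E2 =>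
      gc g φ q.2 - met (fun z => fam f1 Φ q.1 (φ.toFun z)) q.2 - η • T0.val φ q.2
    refine ((((Tn.gcT g).smooth φ).continuous.comp continuous_snd).sub
      (continuous_pi fun j => ?_)).sub
      (((T0.smooth φ).continuous.comp continuous_snd).const_smul η)
    have hp : ∀ i, Continuous fun q : (Fin d → ℝ) × E2 =>
        pd i (fun z => fam f1 Φ q.1 (φ.toFun z)) q.2 := fun i =>
      (continuous_fderiv_fam hf1 hΦ φ).clm_apply continuous_const
    fin_cases j
    · exact (hp 0).inner (hp 0)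
    · exact (hp 0).inner (hp 1)
    · exact (hp 1).inner (hp 1)
  have hS1 : ∀ p, p ∉ (⋃ q, (χ q).toFun '' Metric.ball 0 1) → PosAt (slack 0) p := by
    intro p hp
    rcases hcases p with ⟨q, y, hy, rfl⟩ | hp'
    · have hy1 : 1 ≤ ‖y‖ := not_lt.1 fun h1 => hp (hin h1)
      rw [posAt_iff, pd_iff]
      intro v hv
      show 0 < bil (gc g (χ q) y - met (fun z => fam f1 Φ 0 ((χ q).toFun z)) y
        - η • T0.val (χ q) y) v v
      rw [hfam0, hmet1 q y hy, hgcχ, hTχ, ← smul_sub, ← smul_sub, bil_smul]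
      exact mul_pos (by positivity) (hf'S q y v hy1 hy hv)
    · intro φ x e
      subst e
      rw [pd_iff]
      intro v hv
      show 0 < bil (gc g φ x - met (fun z => fam f1 Φ 0 (φ.toFun z)) x - η • T0.val φ x) v v
      have he := (hev1' _ hp').comp_tendsto φ.continuous.continuousAt
      rw [hfam0, show met (fun z => f1 (φ.toFun z)) x = met (fun z => fb (φ.toFun z)) x by
        simp only [met, pd, show fderiv ℝ (fun z => f1 (φ.toFun z)) x = _ from he.fderiv_eq]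
        rfl]
      exact (pd_iff.1 (hηb _ (mem_univ _) φ x rfl)) v hv
  have hfp : ∀ᶠ l in 𝓝 (0 : Fin d → ℝ), (∀ p ∈ (univ : Set M), Transv (fam f1 Φ l) nb p) ∧
      (∀ p ∈ (⋃ q, (χ q).toFun '' Metric.closedBall 0 (3 / 2)) \
        (⋃ q, (χ q).toFun '' Metric.ball 0 (1 / 16)), GdAt (fam f1 Φ l) p) ∧
      ∀ p ∈ (⋃ q, (χ q).toFun '' Metric.ball 0 1)ᶜ, PosAt (slack l) p := by
    refine (tube (isOpen_transv hf1 hΦ hnb) isCompact_univ fun p _ => ?_).and
      ((tube (isOpen_gdAt_fam hf1 hΦ) ((hcl _).diff (hop _)) fun p hp => ?_).and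
      (tube hslack_open (hop _).isClosed_compl.isCompact fun p hp => hS1 p hp))
    · show Transv (fam f1 Φ 0) nb p
      rw [hfam0]
      rcases hcases p with ⟨q, y, hy, rfl⟩ | hp
      · rw [transv_iff hf1, frameMap_iff, (hev1 q y hy).fderiv_eq, hnrm1 q y hy]
        exact ⟨similar_injective (hf's q) _ hεne _ (hf'in q y hy).1,
          fun h0 => (hf'in q y hy).2.2.1 ((R q).map_eq_zero_iff.1 h0)⟩
      · intro φ x e
        subst e
        have he := (hev1' _ hp).comp_tendsto φ.continuous.continuousAt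
        obtain ⟨hi, ho⟩ := hfbI φ
        rw [frameMap_iff, show fderiv ℝ (fun z => f1 (φ.toFun z)) x = _ from he.fderiv_eq]
        refine ⟨hi x, ?_⟩
        have hn : nrm (fun z => f1 (φ.toFun z)) x (nb (φ.toFun x)) = nb (φ.toFun x) := by
          refine nrm_self_of_orth _ _ fun v => ?_
          rw [show fderiv ℝ (fun z => f1 (φ.toFun z)) x = _ from he.fderiv_eq]
          show ⟪fderiv ℝ (fun z => fb (φ.toFun z)) x v, nb (φ.toFun x)⟫ = 0
          rw [apply_eq_pd, inner_add_left, real_inner_smul_left, real_inner_smul_left,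
            real_inner_comm, ho x 0, real_inner_comm, ho x 1]
          simp
        rw [hn]
        exact fun h0 => by simpa [h0] using hnb1 (φ.toFun x)
    · show GdAt (fam f1 Φ 0) p
      rw [hfam0]
      obtain ⟨q, y, hy, rfl⟩ := mem_iUnion.1 hp.1
      have hy2 : ‖y‖ < 2 := lt_of_le_of_lt (by simpa using hy) (by norm_num)
      rw [← gdAt_chart_iff]
      exact (gdAt_similar (hf's q) (a q) hεne (R q) (hf'in q y hy2).2.1).congr
        (Filter.EventuallyEq.symm (hev1 q y hy2))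
  obtain ⟨r, hr, hball⟩ := Metric.eventually_nhds_iff_ball.1 hfp
  obtain ⟨l, hl, hgood⟩ := hgen r hr
  obtain ⟨hT, hgd, hpos⟩ := hball l (by simpa using hl)
  -- the map
  let f : M → R4 := fam f1 Φ l
  have hf : ContMDiff (𝓡 2) (𝓡 4) ∞ f := fam_smooth hf1 hΦ l
  have hT' : ∀ (φ : Chart M) x, Injective (fderiv ℝ (fun z => f (φ.toFun z)) x) ∧
      nrm (fun z => f (φ.toFun z)) x (nb (φ.toFun x)) ≠ 0 := fun φ x =>
    (frameMap_iff _ _ _).1 (hT _ (mem_univ _) φ x rfl)
  have hFr : Framed f (unitN f nb) := framed_unitN hf hnb (fun φ x => (hT' φ x).1) fun p => by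
    obtain ⟨φ, x, rfl, -⟩ := Chart.exists_mem (Filter.univ_mem (f := 𝓝 p))
    rw [nrmM_chart hf]
    exact (hT' φ x).2
  have hgdall : ∀ p, (∀ q, p ∉ (χ q).toFun '' Metric.ball 0 (1 / 8)) → GdAt f p := by
    intro p hp
    by_cases h1 : p ∈ ⋃ q, (χ q).toFun '' Metric.closedBall 0 (3 / 2)
    · refine hgd p ⟨h1, fun h2 => ?_⟩
      obtain ⟨q, hq⟩ := mem_iUnion.1 h2
      exact hp q (image_mono (Metric.ball_subset_ball (by norm_num)) hq)
    · exact hgood p fun h2 => h1 (iUnion_mono (fun q => image_mono Metric.ball_subset_closedBall) h2)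
  have hevf : ∀ q y, ‖y‖ < 5 / 4 → (fun z => f ((χ q).toFun z)) =ᶠ[𝓝 y]
      fun z => a q + ε • R q (f' q z) := fun q y hy =>
    Filter.EventuallyEq.trans ((hΦ0 q y hy l).comp_tendsto (χ q).continuous.continuousAt)
      (hev1 q y (by linarith))
  -- the slack
  let S : Ten M := slack l
  let L : Ten M := Tn.sub (Tn.cmul lam (Tn.gcT g)) (Tn.cmul η T0)
  let Pt : Ten M :=
    Tn.add (Tn.fmul β hβ S) (Tn.fmul (fun p => 1 - β p) (contMDiff_const.sub hβ) L)
  have hSχ : ∀ q y, ‖y‖ ≤ 1 → S.val (χ q) y = scut y ^ 2 • L.val (χ q) y := by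
    intro q y hy
    show gc g (χ q) y - met (fun z => f ((χ q).toFun z)) y - η • T0.val (χ q) y =
      scut y ^ 2 • (lam • gc g (χ q) y - η • T0.val (χ q) y)
    rw [show met (fun z => f ((χ q).toFun z)) y = ε ^ 2 • met (f' q) y by
      rw [← met_similar (hf's q) (a q) ε (R q) y]
      simp only [met, pd, (hevf q y (by linarith)).fderiv_eq],
      hgcχ, hTχ, smul_comm lam, ← smul_sub, ← smul_sub, ← smul_sub, hf'ex q y hy, smul_comm]
  have hSP : ∀ φ x, S.val φ x = σ (φ.toFun x) ^ 2 • Pt.val φ x := by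
    intro φ x
    refine bil_inj fun v w => ?_
    rcases offM_cases (χ := χ) u4 (φ.toFun x) with ⟨q, y, hy, e⟩ | hb
    · have hr : φ.toFun x ∈ range (χ q).toFun := ⟨y, e⟩
      rw [bil_smul, S.change (χ q) φ x hr, Pt.change (χ q) φ x hr, Chart.trans_eq e.symm, ← e]
      show _ = σ ((χ q).toFun y) ^ 2 * bil (β ((χ q).toFun y) • S.val (χ q) y +
        (1 - β ((χ q).toFun y)) • L.val (χ q) y) _ _
      simp only [σ, β, offM_apply hd, hSχ q y hy.le, bil_add, bil_smul]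
      by_cases hy' : ‖y‖ < 24 / 25
      · rw [z4 y hy']; ring
      · rw [u3 y (by linarith)]; ring
    · have hs : σ (φ.toFun x) = 1 := by
        rcases offM_cases (χ := χ) u3 (φ.toFun x) with ⟨q, y, hy, e⟩ | hs
        · rw [← e, show offM χ (rcut (2304 / 2500) 1) ((χ q).toFun y) = _ from offM_apply hd q y,
            z4 y (by linarith)] at hb
          exact absurd hb zero_ne_one
        · exact hs
      have hb' : β (φ.toFun x) = 1 := hb
      show _ = bil (σ (φ.toFun x) ^ 2 • (β (φ.toFun x) • S.val φ x +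
        (1 - β (φ.toFun x)) • L.val φ x)) v w
      rw [hs, hb']
      simp
  let W : Set M := {p | GdAt f p} ∩ (⋃ q, (χ q).toFun '' Metric.closedBall 0 (3 / 4))ᶜ
  have hWpos : ∀ (φ : Chart M) x v, φ.toFun x ∈ W → v ≠ 0 → 0 < bil (Pt.val φ x) v v := by
    intro φ x v hW hv
    refine pd_iff.1 ?_ v hv
    have hSpd : φ.toFun x ∉ (⋃ q, (χ q).toFun '' Metric.ball 0 1) → PD (S.val φ x) := fun h1 =>
      hpos _ h1 φ x rfl
    rcases offM_cases (χ := χ) u4 (φ.toFun x) with ⟨q, y, hy, e⟩ | hb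
    · refine Tn.pd_change Pt (χ q) φ e (pd_iff.2 fun v hv => ?_)
      show 0 < bil (β ((χ q).toFun y) • S.val (χ q) y + (1 - β ((χ q).toFun y)) • L.val (χ q) y) v v
      simp only [β, offM_apply hd, hSχ q y hy.le, bil_add, bil_smul]
      have hL : 0 < bil (L.val (χ q) y) v v := by
        show 0 < bil (lam • gc g (χ q) y - η • T0.val (χ q) y) v v
        rw [hgcχ, hTχ, smul_comm lam, ← smul_sub, bil_smul]
        exact mul_pos (by positivity) (hf'P q y v hv (by linarith))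
      have hb1 := rcut_mem (2304 / 2500) 1 y
      by_cases hy' : ‖y‖ < 24 / 25
      · rw [z4 y hy']; simpa using hL
      · rw [u3 y (by linarith)]; ring_nf; exact hL
    · have hb' : β (φ.toFun x) = 1 := hb
      show PD (β (φ.toFun x) • S.val φ x + (1 - β (φ.toFun x)) • L.val φ x)
      rw [hb', one_smul, sub_self, zero_smul, add_zero]
      refine hSpd fun h1 => ?_
      obtain ⟨q, y, hy, e⟩ := mem_iUnion.1 h1
      have hy' : ‖y‖ < 1 := by simpa using hy
      have hlt : rcut (2304 / 2500) 1 y < 1 := Real.smoothTransition.lt_one_of_lt_one (by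
        rw [div_lt_one (by norm_num)]; nlinarith [norm_nonneg y])
      rw [← e, show β ((χ q).toFun y) = _ from offM_apply hd q y] at hb'
      exact hlt.ne hb'
  obtain ⟨N, Pr, hsum, hPr⟩ := hP M g h W σ Pt
    ((isOpen_gdAt hf).inter (hcl _).isClosed.isOpen_compl)
    (disjoint_left.2 fun p hp hc => by
      obtain ⟨q, rfl⟩ := hcrit hc
      exact hp.2 (mem_iUnion.2 ⟨q, 0, Metric.mem_closedBall_self (by norm_num), rfl⟩))
    hσ (fun p hp => ⟨hgdall p fun q hq => tsupport_offM hd z3 hp q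
        (image_mono (Metric.ball_subset_ball (by norm_num)) hq), fun h2 => by
      obtain ⟨q, hq⟩ := mem_iUnion.1 h2
      exact tsupport_offM hd z3 hp q (image_mono (Metric.closedBall_subset_ball (by norm_num)) hq)⟩)
    hWpos
  refine ⟨f, unitN f nb, N, Pr, hFr, ?_, fun φ x => ?_,
    fun p hp => hgdall p fun q hq => tsupport_offM hd z1 hp q hq,
    fun i x => ⟨(hPr i).2 x, ((hPr i).1 ⟨x, rfl⟩).1⟩,
    fun i x _ => ⟨fun hc => ((hPr i).1 ⟨x, rfl⟩).2 (hZcl hc),
      offM_eventually_one u2 fun q hq => ((hPr i).1 ⟨x, rfl⟩).2 (mem_iUnion.2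
        ⟨q, image_mono (Metric.closedBall_subset_closedBall (by norm_num)) hq⟩)⟩⟩
  · -- bounds near the critical points
    intro φ x hx
    obtain ⟨q, y, hy, e⟩ := mem_iUnion.1 hx
    have hy' : ‖y‖ < 3 / 4 := by simpa using hy
    have hr : φ.toFun x ∈ range (χ q).toFun := ⟨y, e⟩
    have hlen : ∀ w : E2, gc g φ x 0 * w 0 ^ 2 + 2 * gc g φ x 1 * w 0 * w 1 +
        gc g φ x 2 * w 1 ^ 2 =
        ε ^ 2 * bil (G q y) (fderiv ℝ ((χ q).trans φ) x w) (fderiv ℝ ((χ q).trans φ) x w) := by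
      intro w
      rw [show gc g φ x 0 * w 0 ^ 2 + 2 * gc g φ x 1 * w 0 * w 1 + gc g φ x 2 * w 1 ^ 2 =
        bil (gc g φ x) w w by simp [bil]; ring, bil_gc_change g (χ q) φ hr, Chart.trans_eq e.symm,
        hgcχ, bil_smul]
    have hII : ∀ w, II (fun z => f (φ.toFun z)) x w =
        ε • R q (II (f' q) y (fderiv ℝ ((χ q).trans φ) x w)) := by
      intro w
      rw [II_change (χ q) φ hf hr, Chart.trans_eq e.symm, II_congr (hevf q y (by linarith)),
        II_similar (hf's q) _ hεne]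
    have hn : (fun z => unitN f nb ((χ q).toFun z)) =ᶠ[𝓝 y] fun z => R q (n' q z) := by
      filter_upwards [eventually_ball (r := 5 / 4) (by linarith : ‖y‖ < 5 / 4)] with z hz
      have hN : nrmM f nb ((χ q).toFun z) = R q (nrm (f' q) z (P.V z)) := by
        rw [nrmM_chart hf, ← nrm_similar (hf's q) (a q) hεne (R q) z, hnbχ q z (by linarith)]
        simp only [nrm, (hevf q z hz).fderiv_eq]
      rw [unitN, hN, (R q).norm_map, (hf'in q z (by linarith)).2.2.2, map_smul]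
    have hdn : ∀ w, fderiv ℝ (fun z => unitN f nb (φ.toFun z)) x w =
        R q (fderiv ℝ (n' q) y (fderiv ℝ ((χ q).trans φ) x w)) := by
      intro w
      rw [fderiv_change (χ q) φ hFr.2.1 hr, Chart.trans_eq e.symm, ContinuousLinearMap.comp_apply,
        hn.fderiv_eq, show (fun z => R q (n' q z)) = ⇑(R q).toContinuousLinearEquiv ∘ n' q from rfl,
        ContinuousLinearEquiv.comp_fderiv]
      rfl
    have hnval : unitN f nb (φ.toFun x) = R q (n' q y) := by
      rw [← e]; exact hn.eq_of_nhds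
    refine ⟨fun w => ?_, fun w => ?_, ?_⟩ <;> dsimp only
    · rw [hlen, hII, norm_smul, (R q).norm_map, Real.norm_eq_abs, abs_of_pos hεpos]
      exact (mul_le_mul_of_nonneg_left (hf'cap q y _ (by linarith)).1 hεpos.le).trans
        (le_of_eq (by field_simp))
    · rw [hlen, hdn, (R q).norm_map]
      exact (hf'cap q y _ (by linarith)).2.1.trans (le_of_eq (by field_simp))
    · show κ / ε * _ ≤ _
      rw [hlen, hII, hnval, real_inner_smul_right, (R q).inner_map_map]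
      exact (le_of_eq (by field_simp)).trans
        (mul_le_mul_of_nonneg_left (hf'cap q y _ (by linarith)).2.2 hεpos.le)
  · rw [hsum φ x, ← hSP φ x]
    show gc g φ x = met (fun z => f (φ.toFun z)) x + (η * θf (φ.toFun x) ^ 2) • sq (h.nu g φ x)
      + (η * θ0 (φ.toFun x) ^ 2) • sq (h.d φ x) + (gc g φ x - met (fun z => f (φ.toFun z)) x -
        η • (θf (φ.toFun x) ^ 2 • sq (h.nu g φ x) + θ0 (φ.toFun x) ^ 2 • sq (h.d φ x)))
    module

end Vale.Agent.P205F.Start
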