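import Vale.Agent.P205F.InterfacesTwist
import Vale.Agent.P205F.Chart.Transfer

/-!
# P205, every closed surface: sub-statements of START

`StartStmt` follows from `MorseStmt`, `FlatStmt`, `BaseStmt`, `GermStmt`, `GenericStmt`, `PrimStmt`.

A flat piece of a Hopf tube, shrunk by `ε` and contracted radially, is inserted in the scaled
immersion at every critical point; Nash-Moser gives the exact germ there for all small `η`;
a small perturbation gives goodness elsewhere.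
-/

namespace Vale.Agent.P205F

open scoped Manifold ContDiff RealInnerProductSpace Topology

universe u

/-- The euclidean metric. -/
def euc : S3 := ![1, 0, 1]

/-- The square root of the weight of the slack inside a germ: `0` on the ball of radius `7/8`,
`1` outside the ball of radius `15/16`. -/
noncomputable def scut (y : E2) : ℝ :=
  Real.smoothTransition ((‖y‖ ^ 2 - 49 / 64) / (29 / 256))

/-- A twisted function with finitely many critical points. -/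
def MorseStmt : Prop :=
  ∀ (M : Type u) [TopologicalSpace M] [T2Space M] [CompactSpace M] [ChartedSpace E2 M]
    [IsManifold (𝓡 2) ∞ M] (f0 n0 : M → R4), Framed f0 n0 → ∃ h : Twisted M, h.crit.Finite

/-- A flat immersion of the plane with a normal `V` along which it is strictly convex. -/
structure FlatPiece where
  F : E2 → R4
  V : E2 → R4
  c : ℝ
  smooth : ContDiff ℝ ∞ F
  V_smooth : ContDiff ℝ ∞ V
  zero : F 0 = 0
  flat : ∀ y, met F y = euc
  V_unit : ∀ y, ‖V y‖ = 1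
  V_orth : ∀ y i, ⟪V y, pd i F y⟫ = 0
  c_pos : 0 < c
  convex : ∀ (y v : E2), c * ‖v‖ ^ 2 ≤ ⟪V y, fderiv ℝ (fun z => fderiv ℝ F z v) y v⟫

/-- Close to affine on the ball of radius `r`. -/
def FlatPiece.Near (P : FlatPiece) (r : ℝ) : Prop :=
  ∀ y, ‖y‖ ≤ r → ‖fderiv ℝ P.F y - fderiv ℝ P.F 0‖ ≤ 1 / r ∧ ‖P.V y - P.V 0‖ ≤ 1 / r

/-- Flat pieces, as close to affine as desired, good on the ball of radius two. -/
def FlatStmt : Prop :=
  ∀ r : ℝ, 0 < r → ∃ P : FlatPiece, P.Near r ∧ ∀ y : E2, ‖y‖ ≤ 2 → GdAt P.F y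

/-- The base map: strictly short, a shrunk flat piece at every point of `Q`. -/
def BaseStmt : Prop :=
  ∃ r : ℝ, 0 < r ∧ ∀ (M : Type u) [TopologicalSpace M] [T2Space M] [CompactSpace M] [ChartedSpace E2 M]
    [IsManifold (𝓡 2) ∞ M] (g : Metric M) (f0 n0 : M → R4) (Q : Finset M) (P : FlatPiece),
    Framed f0 n0 → P.Near r →
    ∃ ψ : Q → Chart M, (∀ q, (ψ q) 0 = q.1) ∧ (∀ q, gc g (ψ q) 0 = euc) ∧
      (Pairwise fun q q' => Disjoint (Set.range (ψ q).toFun) (Set.range (ψ q').toFun)) ∧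
      ∀ lam : ℝ, 0 < lam → lam ≤ 1 / 2 → ∃ ε0 : ℝ, 0 < ε0 ∧ ∀ ε : ℝ, 0 < ε → ε < ε0 →
        ∃ fb nb : M → R4, Framed fb nb ∧
          (∀ (φ : Chart M) x v, v ≠ 0 → bil (met (fun z => fb (φ z)) x) v v < bil (gc g φ x) v v) ∧
          ∀ q, ∃ (a : R4) (R : R4 ≃ₗᵢ[ℝ] R4), ∀ y : E2, ‖y‖ < 2 →
            fb (ψ q (ε • y)) = a + (ε * Real.sqrt (1 - lam)) • R (P.F y) ∧
            nb (ψ q (ε • y)) = R (P.V y)

/-- The germ at unit scale: exact for `G - T` inside the unit ball up to the slack `scut²`,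
with second derivatives under control independently of `G` and `T`. -/
def GermStmt : Prop :=
  ∀ (P : FlatPiece), (∀ y : E2, ‖y‖ ≤ 2 → GdAt P.F y) →
    ∃ (lam e : ℝ) (k : ℕ) (κ B : ℝ), 0 < lam ∧ lam ≤ 1 / 2 ∧ 0 < e ∧ 0 < κ ∧
      ∀ G T : E2 → S3, ContDiff ℝ ∞ G → ContDiff ℝ ∞ T →
        BdOn (fun y => G y - euc) (Metric.ball 0 3) k e → BdOn T (Metric.ball 0 3) k e →
        ∃ (f n : E2 → R4), ContDiff ℝ ∞ f ∧
          (∀ y, 7 / 4 ≤ ‖y‖ → f y = Real.sqrt (1 - lam) • P.F y) ∧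
          (∀ y, ‖y‖ < 2 → Function.Injective (fderiv ℝ f y) ∧ GdAt f y ∧ nrm f y (P.V y) ≠ 0 ∧
            n y = ‖nrm f y (P.V y)‖⁻¹ • nrm f y (P.V y)) ∧
          (∀ y, ‖y‖ ≤ 1 → G y - met f y - T y = scut y ^ 2 • (lam • G y - T y)) ∧
          (∀ y v, v ≠ 0 → ‖y‖ < 3 → 0 < bil (lam • G y - T y) v v) ∧
          (∀ y v, 1 ≤ ‖y‖ → ‖y‖ < 2 → v ≠ 0 → 0 < bil (G y - met f y - T y) v v) ∧
          ∀ y v, ‖y‖ ≤ 1 → ‖II f y v‖ ≤ B * bil (G y) v v ∧
            ‖fderiv ℝ n y v‖ ^ 2 ≤ B ^ 2 * bil (G y) v v ∧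
            κ * bil (G y) v v ≤ ⟪n y, II f y v⟫

/-- Goodness on a compact set after an arbitrarily small perturbation from a fixed finite family. -/
def GenericStmt : Prop :=
  ∀ (M : Type u) [TopologicalSpace M] [T2Space M] [CompactSpace M] [ChartedSpace E2 M]
    [IsManifold (𝓡 2) ∞ M] (f : M → R4) (K U : Set M), ContMDiff (𝓡 2) (𝓡 4) ∞ f →
    (∀ ψ : Chart M, IsImm fun z => f (ψ z)) → IsCompact K → IsOpen U → K ⊆ U →
    ∃ (d : ℕ) (Φ : Fin d → M → R4), (∀ k, ContMDiff (𝓡 2) (𝓡 4) ∞ (Φ k)) ∧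
      (∀ k, tsupport (Φ k) ⊆ U) ∧
      ∀ ε : ℝ, 0 < ε → ∃ l : Fin d → ℝ, ‖l‖ < ε ∧
        ∀ p ∈ K, GdAt (fun q => f q + ∑ k, l k • Φ k q) p

/-- A field of symmetric two-tensors, given in every chart. -/
structure Ten (M : Type*) [TopologicalSpace M] [ChartedSpace E2 M] where
  val : Chart M → E2 → S3
  smooth : ∀ ψ, ContDiff ℝ ∞ (val ψ)
  change : ∀ (ψ φ : Chart M) (x : E2), φ.toFun x ∈ Set.range ψ.toFun → ∀ v w,
    bil (val φ x) v w = bil (val ψ (ψ.trans φ x))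
      (fderiv ℝ (ψ.trans φ) x v) (fderiv ℝ (ψ.trans φ) x w)

/-- Primitive terms: `σ² P`, with `P` positive, as squares of first coordinates inside `W`,
transversally to `ν`. -/
def PrimStmt : Prop :=
  ∀ (M : Type u) [TopologicalSpace M] [T2Space M] [CompactSpace M] [ChartedSpace E2 M]
    [IsManifold (𝓡 2) ∞ M] (g : Metric M) (h : Twisted M) (W : Set M) (σ : M → ℝ) (P : Ten M),
    IsOpen W → Disjoint W h.crit → ContMDiff (𝓡 2) 𝓘(ℝ, ℝ) ∞ σ → tsupport σ ⊆ W →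
    (∀ (φ : Chart M) x v, φ x ∈ W → v ≠ 0 → 0 < bil (P.val φ x) v v) →
    ∃ (N : ℕ) (Q : Fin N → Prim M),
      (∀ φ x, ∑ i, (Q i).val φ x = σ (φ x) ^ 2 • P.val φ x) ∧
      ∀ i, Set.range (Q i).ψ.toFun ⊆ W ∧ ∀ x, h.nu g (Q i).ψ x 1 ≠ 0

/-- START, reduced. -/
def StartGlueStmt : Prop :=
  MorseStmt.{u} → FlatStmt → BaseStmt.{u} → GermStmt → GenericStmt.{u} → PrimStmt.{u} →
    StartStmt.{u}

end Vale.Agent.P205F
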