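import Vale.Agent.P205F.Start.Family

/-!
# START: the contracted flat piece

`W = G ∘ c`: `c` contracts radially with slope in `log r` at most `1/2`, `G` is the flat piece near
the origin and linear far away. So `W` is the flat piece on the ball of radius two, linear of size
`s` far away and nowhere longer than an isometry.
-/

namespace Vale.Agent.P205F.Start

open scoped Manifold ContDiff RealInnerProductSpace Topology
open Set Function Filter

lemma exists_slope : ∃ K : ℝ, 0 < K ∧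
    ∀ t, 0 ≤ deriv Real.smoothTransition t ∧ deriv Real.smoothTransition t ≤ K := by
  have hd : Continuous (deriv Real.smoothTransition) :=
    (Real.smoothTransition.contDiff (n := 1)).continuous_deriv le_rfl
  obtain ⟨K, hK⟩ := (isCompact_Icc (a := (0 : ℝ)) (b := 1)).exists_bound_of_continuousOn hd.continuousOn
  refine ⟨max K 1, lt_of_lt_of_le one_pos (le_max_right _ _),
    fun t => ⟨Real.smoothTransition.monotone.deriv_nonneg, ?_⟩⟩
  by_cases h : t ∈ Icc (0 : ℝ) 1
  · exact ((le_abs_self _).trans (hK t h)).trans (le_max_left _ _)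
  · refine le_trans (le_of_eq ?_) (le_trans zero_le_one (le_max_right _ _))
    rcases not_and_or.1 h with h | h
    · have e : Real.smoothTransition =ᶠ[𝓝 t] fun _ => (0 : ℝ) :=
        (gt_mem_nhds (not_le.1 h) : ∀ᶠ z in 𝓝 t, z < 0).mono fun z hz =>
          Real.smoothTransition.zero_of_nonpos hz.le
      rw [e.deriv_eq, deriv_const]
    · have e : Real.smoothTransition =ᶠ[𝓝 t] fun _ => (1 : ℝ) :=
        (lt_mem_nhds (not_le.1 h) : ∀ᶠ z in 𝓝 t, 1 < z).mono fun z hz =>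
          Real.smoothTransition.one_of_one_le hz.le
      rw [e.deriv_eq, deriv_const]

/-- A cutoff varying in `log ‖y‖`: `0` for `‖y‖² + b / 2 ≤ b`, `1` for `b e^W ≤ ‖y‖² + b / 2`. -/
noncomputable def lcut (b W : ℝ) (y : E2) : ℝ :=
  Real.smoothTransition ((Real.log (‖y‖ ^ 2 + b / 2) - Real.log b) / W)

lemma lcut_smooth {b : ℝ} (hb : 0 < b) (W : ℝ) : ContDiff ℝ ∞ (lcut b W) :=
  Real.smoothTransition.contDiff.comp ((((contDiff_norm_sq ℝ).add contDiff_const).log
    (fun y => ne_of_gt (by positivity))).sub contDiff_const |>.div_const W)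

lemma lcut_mem (b W : ℝ) (y : E2) : lcut b W y ∈ Icc (0 : ℝ) 1 :=
  ⟨Real.smoothTransition.nonneg _, Real.smoothTransition.le_one _⟩

lemma lcut_zero {b W : ℝ} (hb : 0 < b) (hW : 0 < W) {y : E2} (hy : ‖y‖ ^ 2 ≤ b / 2) :
    lcut b W y = 0 :=
  Real.smoothTransition.zero_of_nonpos <| div_nonpos_of_nonpos_of_nonneg
    (sub_nonpos.2 (Real.log_le_log (by positivity) (by linarith))) hW.le

lemma lcut_one {b W : ℝ} (hb : 0 < b) (hW : 0 < W) {y : E2}
    (hy : b * Real.exp W ≤ ‖y‖ ^ 2 + b / 2) : lcut b W y = 1 := by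
  refine Real.smoothTransition.one_of_one_le ((one_le_div hW).2 ?_)
  have := Real.log_le_log (by positivity) hy
  rw [Real.log_mul hb.ne' (Real.exp_pos W).ne', Real.log_exp] at this
  linarith

lemma lcut_fderiv {K : ℝ}
    (hK : ∀ t, 0 ≤ deriv Real.smoothTransition t ∧ deriv Real.smoothTransition t ≤ K)
    {b W : ℝ} (hb : 0 < b) (hW : 0 < W) (y : E2) :
    ∃ k : ℝ, 0 ≤ k ∧ k * ‖y‖ ^ 2 ≤ 2 * K / W ∧ ∀ v, fderiv ℝ (lcut b W) y v = k * ⟪y, v⟫ := by
  have hp : 0 < ‖y‖ ^ 2 + b / 2 := by positivity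
  set D := deriv Real.smoothTransition ((Real.log (‖y‖ ^ 2 + b / 2) - Real.log b) / W) with hD
  obtain ⟨hD0, hDK⟩ := hK ((Real.log (‖y‖ ^ 2 + b / 2) - Real.log b) / W)
  refine ⟨2 * D / (W * (‖y‖ ^ 2 + b / 2)), by positivity, ?_, fun v => ?_⟩
  · rw [div_mul_eq_mul_div, div_le_div_iff₀ (by positivity) hW]
    have h1 : D * ‖y‖ ^ 2 ≤ K * (‖y‖ ^ 2 + b / 2) :=
      mul_le_mul hDK (by linarith) (by positivity) (hD0.trans hDK)
    nlinarith
  · have h1 : HasFDerivAt (fun z : E2 => ‖z‖ ^ 2 + b / 2) (2 • innerSL ℝ y) y :=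
      (hasStrictFDerivAt_norm_sq y).hasFDerivAt.add_const _
    have h2 : HasFDerivAt (fun z : E2 => (Real.log (‖z‖ ^ 2 + b / 2) - Real.log b) * W⁻¹)
        (W⁻¹ • ((‖y‖ ^ 2 + b / 2)⁻¹ • (2 • innerSL ℝ y))) y :=
      ((h1.log hp.ne').sub_const _).mul_const _
    have h3 := ((Real.smoothTransition.contDiffAt (n := 1)).differentiableAt one_ne_zero).hasDerivAt.comp_hasFDerivAt y h2
    rw [show lcut b W = Real.smoothTransition ∘
      fun z : E2 => (Real.log (‖z‖ ^ 2 + b / 2) - Real.log b) * W⁻¹ from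
        funext fun z => by simp [lcut, div_eq_mul_inv], h3.fderiv]
    simp [hD, div_eq_mul_inv]
    ring

/-- The radial contraction. -/
theorem exists_contraction : ∃ R1 : ℝ, 2 ≤ R1 ∧ ∀ s : ℝ, 0 < s → s ≤ 1 / 2 →
    ∃ (c : E2 → E2) (R2 : ℝ), ContDiff ℝ ∞ c ∧ (∀ y, ‖y‖ ≤ 2 → c y = y) ∧
      (∀ y, R2 ≤ ‖y‖ → c y = s • y) ∧
      ∀ y, Injective (fderiv ℝ c y) ∧ (∀ v, ‖fderiv ℝ c y v‖ ≤ ‖v‖) ∧
        (R1 ≤ ‖c y‖ → ∀ v, ‖fderiv ℝ c y v‖ ≤ 1 / 2 * ‖v‖) := by
  obtain ⟨K, hK0, hK⟩ := exists_slope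
  have hA : 0 < Real.log 2 := Real.log_pos (by norm_num)
  set W1 := 8 * Real.log 2 * K with hW1
  have hW1p : 0 < W1 := by positivity
  refine ⟨8 * Real.exp W1, by linarith [Real.add_one_le_exp W1], fun s hs hs2 => ?_⟩
  set T := Real.log (1 / (2 * s)) with hT
  have hT0 : 0 ≤ T := Real.log_nonneg (by rw [le_div_iff₀ (by positivity)]; linarith)
  set W2 := 8 * (T + 1) * K with hW2
  have hW2p : 0 < W2 := by positivity
  let Θ : E2 → ℝ := fun y => Real.log 2 * lcut 8 W1 y + T * lcut 8 W2 y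
  have hΘs : ContDiff ℝ ∞ Θ := (contDiff_const.mul (lcut_smooth (by norm_num) W1)).add
    (contDiff_const.mul (lcut_smooth (by norm_num) W2))
  have hΘ0 : ∀ y, 0 ≤ Θ y := fun y =>
    add_nonneg (mul_nonneg hA.le (lcut_mem _ _ y).1) (mul_nonneg hT0 (lcut_mem _ _ y).1)
  let c : E2 → E2 := fun y => Real.exp (-Θ y) • y
  have big : ∀ (W : ℝ) (y : E2), 8 * Real.exp W ≤ ‖y‖ → 0 < W →
      8 * Real.exp W ≤ ‖y‖ ^ 2 + 8 / 2 := fun W y hy hW => by
    nlinarith [Real.add_one_le_exp W, norm_nonneg y]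
  refine ⟨c, 8 * Real.exp W1 + 8 * Real.exp W2, hΘs.neg.exp.smul contDiff_id, fun y hy => ?_,
    fun y hy => ?_, fun y => ?_⟩
  · have h4 : ‖y‖ ^ 2 ≤ 8 / 2 := by nlinarith [norm_nonneg y]
    simp [c, Θ, lcut_zero (by norm_num : (0 : ℝ) < 8) hW1p h4,
      lcut_zero (by norm_num : (0 : ℝ) < 8) hW2p h4]
  · have h1 := lcut_one (by norm_num : (0 : ℝ) < 8) hW1p
      (big W1 y (by linarith [Real.exp_pos W2]) hW1p)
    have h2 := lcut_one (by norm_num : (0 : ℝ) < 8) hW2p
      (big W2 y (by linarith [Real.exp_pos W1]) hW2p)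
    have he : Θ y = -Real.log s := by
      simp only [Θ, h1, h2, hT, one_div, Real.log_inv, Real.log_mul two_ne_zero hs.ne', mul_one]
      ring
    simp [c, he, Real.exp_log hs]
  · obtain ⟨k1, hk1, hk1', hd1⟩ := lcut_fderiv hK (by norm_num : (0 : ℝ) < 8) hW1p y
    obtain ⟨k2, hk2, hk2', hd2⟩ := lcut_fderiv hK (by norm_num : (0 : ℝ) < 8) hW2p y
    set k := Real.log 2 * k1 + T * k2 with hk
    have hk0 : 0 ≤ k := by positivity
    have hkb : k * ‖y‖ ^ 2 ≤ 1 / 2 := by
      have a1 : Real.log 2 * (2 * K / W1) = 1 / 4 := by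
        rw [hW1]; field_simp; norm_num
      have a2 : (T + 1) * (2 * K / W2) = 1 / 4 := by
        rw [hW2]; field_simp; norm_num
      have b1 := mul_le_mul_of_nonneg_left hk1' hA.le
      have b2 := mul_le_mul_of_nonneg_left hk2' hT0
      have b3 : 0 ≤ 2 * K / W2 := by positivity
      rw [hk]; linarith
    have hdΘ : ∀ v, fderiv ℝ Θ y v = k * ⟪y, v⟫ := fun v => by
      have d : ∀ W, DifferentiableAt ℝ (lcut 8 W) y := fun W =>
        (lcut_smooth (by norm_num) W).differentiable (by simp) y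
      simp only [Θ]
      rw [fderiv_fun_add ((d W1).const_mul _) ((d W2).const_mul _), fderiv_const_mul (d W1),
        fderiv_const_mul (d W2)]
      simp [hd1, hd2, hk]
      ring
    have hdc : ∀ v, fderiv ℝ c y v = Real.exp (-Θ y) • (v - (k * ⟪y, v⟫) • y) := fun v => by
      simp only [c]
      rw [fderiv_fun_smul (f := fun z : E2 => z) (hΘs.neg.exp.differentiable (by simp) y) differentiableAt_fun_id,
        show fderiv ℝ (fun z => Real.exp (-Θ z)) y = _ from
          ((hΘs.differentiable (by simp) y).hasFDerivAt.neg.exp).fderiv]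
      simp [hdΘ, smul_sub, smul_smul]
      module
    have he1 : Real.exp (-Θ y) ≤ 1 := Real.exp_le_one_iff.2 (by linarith [hΘ0 y])
    have hn : ∀ v : E2, ‖v - (k * ⟪y, v⟫) • y‖ ≤ ‖v‖ := fun v => by
      refine (sq_le_sq₀ (norm_nonneg _) (norm_nonneg _)).1 ?_
      rw [norm_sub_sq_real, real_inner_smul_right, norm_smul, Real.norm_eq_abs, mul_pow, sq_abs,
        real_inner_comm y v]
      nlinarith [mul_nonneg (mul_nonneg hk0 (sq_nonneg ⟪y, v⟫))
        (by linarith : 0 ≤ 2 - k * ‖y‖ ^ 2)]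
    refine ⟨(injective_iff_map_eq_zero _).2 fun v hv => ?_, fun v => ?_, fun hy v => ?_⟩
    · rw [hdc, smul_eq_zero, or_iff_right (Real.exp_pos _).ne', sub_eq_zero] at hv
      have h := congrArg (fun w => ⟪y, w⟫) hv
      simp only [real_inner_smul_right, real_inner_self_eq_norm_sq] at h
      have h0 : ⟪y, v⟫ = 0 := by
        by_contra hne
        have : k * ‖y‖ ^ 2 = 1 := mul_left_cancel₀ hne (by linarith)
        linarith
      simpa [h0] using hv
    · rw [hdc, norm_smul, Real.norm_eq_abs, abs_of_pos (Real.exp_pos _)]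
      exact (mul_le_mul he1 (hn v) (norm_nonneg _) zero_le_one).trans (le_of_eq (one_mul _))
    · have hy' : 8 * Real.exp W1 ≤ ‖y‖ := hy.trans (by
        simp only [c, norm_smul, Real.norm_eq_abs, abs_of_pos (Real.exp_pos _)]
        exact mul_le_of_le_one_left (norm_nonneg _) he1)
      have h1 := lcut_one (by norm_num : (0 : ℝ) < 8) hW1p (big W1 y hy' hW1p)
      have he2 : Real.exp (-Θ y) ≤ 1 / 2 := by
        rw [show (1 / 2 : ℝ) = Real.exp (-Real.log 2) by rw [Real.exp_neg, Real.exp_log]; all_goals norm_num]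
        refine Real.exp_le_exp.2 ?_
        simp only [Θ, h1]
        linarith [mul_nonneg hT0 (lcut_mem 8 W2 y).1]
      rw [hdc, norm_smul, Real.norm_eq_abs, abs_of_pos (Real.exp_pos _)]
      exact mul_le_mul he2 (hn v) (norm_nonneg _) (by norm_num)

lemma flat_norm (P : FlatPiece) (y v : E2) : ‖fderiv ℝ P.F y v‖ = ‖v‖ := by
  refine (sq_eq_sq₀ (norm_nonneg _) (norm_nonneg _)).1 ?_
  rw [← real_inner_self_eq_norm_sq, ← bil_met, P.flat, EuclideanSpace.norm_sq_eq, Fin.sum_univ_two]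
  simp [bil, euc, pow_two]

lemma flat_orth (P : FlatPiece) (y v : E2) : ⟪P.V y, fderiv ℝ P.F y v⟫ = 0 := by
  rw [apply_eq_pd, inner_add_right, real_inner_smul_right, real_inner_smul_right, P.V_orth y 0,
    P.V_orth y 1]
  ring

/-- The flat piece near the origin, linear far away. -/
theorem exists_blend (R1 : ℝ) (hR : 2 ≤ R1) : ∃ r : ℝ, 0 < r ∧ ∀ P : FlatPiece, P.Near r →
    ∃ (G V : E2 → R4), ContDiff ℝ ∞ G ∧ ContDiff ℝ ∞ V ∧
      (∀ z, ‖z‖ ≤ R1 → G z = P.F z ∧ V z = P.V z) ∧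
      (∀ z, 2 * R1 ≤ ‖z‖ → G z = fderiv ℝ P.F 0 z ∧ V z = P.V 0) ∧
      ∀ z, (∀ v, ‖fderiv ℝ G z v‖ ≤ 5 / 4 * ‖v‖) ∧
        Injective (frameMap G z (V z)) := by
  let β : E2 → ℝ := fun z => 1 - rcut (R1 ^ 2) ((2 * R1) ^ 2) z
  have hab : R1 ^ 2 < (2 * R1) ^ 2 := by nlinarith
  have hβ : ContDiff ℝ ∞ β := contDiff_const.sub (rcut_smooth _ _)
  have hβ01 : ∀ z, |β z| ≤ 1 := fun z => abs_le.2
    ⟨by simp only [β]; linarith [(rcut_mem (R1 ^ 2) ((2 * R1) ^ 2) z).2],
      by simp only [β]; linarith [(rcut_mem (R1 ^ 2) ((2 * R1) ^ 2) z).1]⟩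
  obtain ⟨Cb, hCb⟩ := (isCompact_closedBall (0 : E2) (2 * R1)).exists_bound_of_continuousOn
    (hβ.continuous_fderiv (by simp)).continuousOn
  have hCb0 : 0 ≤ Cb := (norm_nonneg _).trans (hCb 0 (by simp; linarith))
  have hq : 0 ≤ Cb * (2 * R1) := mul_nonneg hCb0 (by linarith)
  refine ⟨max (2 * R1) (4 * (1 + Cb * (2 * R1))), by positivity, fun P hP => ?_⟩
  generalize hr : max (2 * R1) (4 * (1 + Cb * (2 * R1))) = r at hP
  have hr0 : 0 < r := hr ▸ lt_of_lt_of_le (by linarith) (le_max_left _ _)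
  have hτ : (1 + Cb * (2 * R1)) * (1 / r) ≤ 1 / 4 := by
    rw [mul_one_div, div_le_iff₀ hr0]
    have : 4 * (1 + Cb * (2 * R1)) ≤ r := hr ▸ le_max_right _ _
    linarith
  set L0 := fderiv ℝ P.F 0
  let G : E2 → R4 := fun z => L0 z + β z • (P.F z - L0 z)
  let V : E2 → R4 := fun z => P.V 0 + β z • (P.V z - P.V 0)
  have hG : ContDiff ℝ ∞ G := L0.contDiff.add (hβ.smul (P.smooth.sub L0.contDiff))
  refine ⟨G, V, hG, contDiff_const.add (hβ.smul (P.V_smooth.sub contDiff_const)),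
    fun z hz => ?_, fun z hz => ?_, fun z => ?_⟩
  · have : β z = 1 := by simp [β, rcut_zero hab le_rfl hz]
    simp [G, V, this]
  · have : β z = 0 := by simp [β, rcut_one hab le_rfl (by linarith) hz]
    simp [G, V, this]
  have key : ∀ v, ‖fderiv ℝ G z v - L0 v‖ ≤ 1 / 4 * ‖v‖ ∧ ‖V z - P.V 0‖ ≤ 1 / 4 := by
    intro v
    by_cases hz : ‖z‖ ≤ 2 * R1
    · have hb : ∀ x ∈ Metric.closedBall (0 : E2) (2 * R1),
          ‖fderiv ℝ P.F x - L0‖ ≤ 1 / r ∧ ‖P.V x - P.V 0‖ ≤ 1 / r := fun x hx =>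
        hP x ((mem_closedBall_zero_iff.1 hx).trans (hr ▸ le_max_left _ _))
      have hz' : z ∈ Metric.closedBall (0 : E2) (2 * R1) := mem_closedBall_zero_iff.2 hz
      have hF : ‖P.F z - L0 z‖ ≤ 1 / r * ‖z‖ := by
        have := Convex.norm_image_sub_le_of_norm_fderiv_le' (φ := L0) (C := 1 / r)
          (fun x _ => P.smooth.differentiable (by simp) x) (fun x hx => (hb x hx).1)
          (convex_closedBall _ _) (Metric.mem_closedBall_self (by linarith)) hz'
        simpa [P.zero] using this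
      have hdG : fderiv ℝ G z v - L0 v =
          fderiv ℝ β z v • (P.F z - L0 z) + β z • (fderiv ℝ P.F z v - L0 v) := by
        simp only [G]
        have hd : DifferentiableAt ℝ (fun x => β x • (P.F x - L0 x)) z :=
          (hβ.smul (P.smooth.sub L0.contDiff)).differentiable (by simp) z
        rw [fderiv_fun_add L0.differentiableAt hd, fderiv_fun_smul (hβ.differentiable (by simp) z)
          ((P.smooth.sub L0.contDiff).differentiable (by simp) z),
          fderiv_fun_sub (P.smooth.differentiable (by simp) z) L0.differentiableAt, L0.fderiv]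
        simp
        abel
      refine ⟨?_, ?_⟩
      · rw [hdG]
        refine (norm_add_le _ _).trans ?_
        rw [norm_smul, norm_smul]
        have a1 : ‖fderiv ℝ β z v‖ * ‖P.F z - L0 z‖ ≤ (Cb * ‖v‖) * (1 / r * (2 * R1)) :=
          mul_le_mul ((ContinuousLinearMap.le_opNorm _ v).trans
            (mul_le_mul_of_nonneg_right (hCb z hz') (norm_nonneg _)))
            (hF.trans (mul_le_mul_of_nonneg_left hz (by positivity))) (norm_nonneg _) (by positivity)
        have a2 : ‖β z‖ * ‖fderiv ℝ P.F z v - L0 v‖ ≤ 1 * (1 / r * ‖v‖) :=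
          mul_le_mul (hβ01 z) ((fderiv ℝ P.F z - L0).le_opNorm v |>.trans
            (mul_le_mul_of_nonneg_right (hb z hz').1 (norm_nonneg _))) (norm_nonneg _) zero_le_one
        have := mul_le_mul_of_nonneg_right hτ (norm_nonneg v)
        linarith
      · simp only [V, add_sub_cancel_left, norm_smul]
        calc ‖β z‖ * ‖P.V z - P.V 0‖ ≤ 1 * (1 / r) :=
              mul_le_mul (hβ01 z) (hb z hz').2 (norm_nonneg _) zero_le_one
          _ ≤ 1 / 4 := by
              refine le_trans ?_ hτ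
              exact mul_le_mul_of_nonneg_right (by linarith) (by positivity)
    · have he : ∀ᶠ x in 𝓝 z, β x = 0 := by
        filter_upwards [(continuous_norm.tendsto z).eventually (lt_mem_nhds (not_le.1 hz))] with x hx
        simp [β, rcut_one hab le_rfl (by linarith) hx.le]
      have heG : G =ᶠ[𝓝 z] fun x => L0 x := he.mono fun x hx => by simp [G, hx]
      rw [heG.fderiv_eq, L0.fderiv, sub_self, norm_zero]
      simp [V, he.self_of_nhds]
  refine ⟨fun v => ?_, (injective_iff_map_eq_zero _).2 ?_⟩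
  · have := (norm_le_norm_add_norm_sub' (fderiv ℝ G z v) (L0 v))
    have h2 := (key v).1
    rw [flat_norm P 0 v] at this
    linarith
  · rintro ⟨w, t⟩ e
    simp [frameMap] at e
    have hk := key w
    have e' : L0 w + t • P.V 0 = -((fderiv ℝ G z w - L0 w) + t • (V z - P.V 0)) := by
      rw [eq_neg_iff_add_eq_zero]
      refine Eq.trans ?_ e
      module
    have hb : ‖L0 w + t • P.V 0‖ ≤ 1 / 4 * ‖w‖ + |t| * (1 / 4) := by
      rw [e', norm_neg]
      refine (norm_add_le _ _).trans (add_le_add hk.1 ?_)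
      rw [norm_smul, Real.norm_eq_abs]
      exact mul_le_mul_of_nonneg_left hk.2 (abs_nonneg t)
    have hsq : ‖L0 w + t • P.V 0‖ ^ 2 = ‖w‖ ^ 2 + t ^ 2 := by
      rw [norm_add_sq_real, flat_norm, real_inner_smul_right, real_inner_comm, flat_orth, norm_smul,
        P.V_unit, Real.norm_eq_abs, mul_one, sq_abs]
      ring
    have h2 := pow_le_pow_left₀ (norm_nonneg _) hb 2
    rw [hsq] at h2
    have : ‖w‖ ^ 2 + t ^ 2 ≤ 0 := by
      nlinarith [sq_nonneg (‖w‖ - |t|), sq_abs t]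
    have hw : ‖w‖ = 0 := by nlinarith [sq_nonneg t, norm_nonneg w]
    have ht : t = 0 := by nlinarith [sq_nonneg ‖w‖]
    exact Prod.ext (norm_eq_zero.1 hw) ht

/-- The model: flat on the ball of radius two, linear of size `s` far away, never longer. -/
theorem exists_model : ∃ r : ℝ, 0 < r ∧ ∀ P : FlatPiece, P.Near r → ∀ s : ℝ, 0 < s → s ≤ 1 / 2 →
    ∃ (W V : E2 → R4) (R3 : ℝ), 2 ≤ R3 ∧ ContDiff ℝ ∞ W ∧ ContDiff ℝ ∞ V ∧
      (∀ y, ‖y‖ ≤ 2 → W y = P.F y ∧ V y = P.V y) ∧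
      (∀ y, R3 ≤ ‖y‖ → W y = s • fderiv ℝ P.F 0 y ∧ V y = P.V 0) ∧
      ∀ y, Injective (frameMap W y (V y)) ∧ ∀ v, ‖fderiv ℝ W y v‖ ≤ ‖v‖ := by
  obtain ⟨R1, hR1, hc⟩ := exists_contraction
  obtain ⟨r, hr, hG⟩ := exists_blend R1 hR1
  refine ⟨r, hr, fun P hP s hs hs2 => ?_⟩
  obtain ⟨c, R2, hcs, hc0, hcout, hcd⟩ := hc s hs hs2
  obtain ⟨G, V, hGs, hVs, hin, hout, hd⟩ := hG P hP
  refine ⟨fun y => G (c y), fun y => V (c y), max (max R2 2) (2 * R1 / s),
    le_trans (le_max_right _ _) (le_max_left _ _), hGs.comp hcs, hVs.comp hcs,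
    fun y hy => by simp only [hc0 y hy]; exact hin y (hy.trans hR1), fun y hy => ?_, fun y => ?_⟩
  · have h1 : c y = s • y := hcout y ((le_trans (le_max_left _ _) (le_max_left _ _)).trans hy)
    have h2 : 2 * R1 ≤ ‖c y‖ := by
      rw [h1, norm_smul, Real.norm_eq_abs, abs_of_pos hs, mul_comm s, ← div_le_iff₀ hs]
      exact (le_max_right _ _).trans hy
    have h3 := hout _ h2
    simp only [h1, map_smul] at h3 ⊢
    exact h3
  · have hD : fderiv ℝ (fun z => G (c z)) y = (fderiv ℝ G (c y)).comp (fderiv ℝ c y) :=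
      fderiv_comp_plane (hGs.differentiable (by simp) _) (hcs.differentiable (by simp) _)
    refine ⟨(frameMap_iff _ _ _).2 ⟨?_, ?_⟩, fun v => ?_⟩
    · rw [hD]
      exact ((frameMap_iff _ _ _).1 (hd (c y)).2).1.comp (hcd y).1
    · rw [nrm_comp (hGs.differentiable (by simp) _) (hcs.differentiable (by simp) _)
        (LinearMap.injective_iff_surjective.1 (hcd y).1)]
      exact ((frameMap_iff _ _ _).1 (hd (c y)).2).2
    · rw [hD, ContinuousLinearMap.comp_apply]
      rcases le_or_gt R1 ‖c y‖ with hR | hR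
      · calc _ ≤ 5 / 4 * ‖fderiv ℝ c y v‖ := (hd _).1 _
          _ ≤ 5 / 4 * (1 / 2 * ‖v‖) := mul_le_mul_of_nonneg_left ((hcd y).2.2 hR v) (by norm_num)
          _ ≤ ‖v‖ := by linarith [norm_nonneg v]
      · have he : G =ᶠ[𝓝 (c y)] P.F := ((continuous_norm.tendsto (c y)).eventually
          (gt_mem_nhds hR)).mono fun z hz => (hin z hz.le).1
        rw [he.fderiv_eq, flat_norm]
        exact (hcd y).2.1 v

end Vale.Agent.P205F.Start
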