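import Vale.Agent.P205F.Start.Model

/-!
# START: straightening the immersion at a point

Normal coordinates at a point, the isometry of the target matching the flat piece to the tangent
plane and the normal, and the logarithmic blend into the affine map.
-/

namespace Vale.Agent.P205F.Start

open scoped Manifold ContDiff RealInnerProductSpace Topology
open Set Function Filter

lemma contDiff_cle (A : E2 ≃L[ℝ] E2) : ContDiff ℝ ∞ fun z => A z := A.contDiff

/-- An affine chart of the plane. -/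
noncomputable def affineC (x0 : E2) (A : E2 ≃L[ℝ] E2) : Chart E2 where
  toFun z := x0 + A z
  inv z := A.symm (z - x0)
  open_emb := (A.toHomeomorph.trans (Homeomorph.addLeft x0)).isOpenEmbedding
  smooth := (contDiff_const.add A.contDiff).contMDiff
  left_inv z := by simp
  smooth_inv := (A.symm.contDiff.comp (contDiff_id.sub contDiff_const)).contMDiff.contMDiffOn

/-- Normal coordinates at a point. -/
lemma exists_normal_chart {M : Type*} [TopologicalSpace M] [ChartedSpace E2 M]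
    [IsManifold (𝓡 2) ∞ M] (g : Metric M) {p : M} {U : Set M} (hU : U ∈ 𝓝 p) :
    ∃ ψ : Chart M, ψ.toFun 0 = p ∧ range ψ.toFun ⊆ U ∧ gc g ψ 0 = euc := by
  obtain ⟨χ, x0, rfl, hsub⟩ := Chart.exists_mem hU
  set q := gc g χ x0 with hq
  obtain ⟨h0, -, hdet⟩ := gc_pos g χ x0
  rw [← hq] at h0 hdet
  set Δ := q 0 * q 2 - q 1 ^ 2 with hΔ
  have hs0 : Real.sqrt (q 0) ≠ 0 := Real.sqrt_ne_zero'.2 h0
  have hs1 : Real.sqrt (q 0 * Δ) ≠ 0 := Real.sqrt_ne_zero'.2 (mul_pos h0 hdet)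
  let A : E2 →ₗ[ℝ] E2 :=
    { toFun := fun w => (w 0 / Real.sqrt (q 0)) • ev 0 +
        (w 1 / Real.sqrt (q 0 * Δ)) • (q 0 • ev 1 - q 1 • ev 0)
      map_add' := fun v w => by simp [add_div, add_smul]; abel
      map_smul' := fun r w => by simp [mul_div_assoc, mul_smul, smul_add] }
  have hA : Injective A := by
    rw [injective_iff_map_eq_zero]
    intro w hw
    have e1 := congrArg (fun v : E2 => v 1) hw
    have e0 := congrArg (fun v : E2 => v 0) hw
    simp [A, ev, hs1, h0.ne'] at e1 e0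
    simp [e1, hs0] at e0
    ext i; fin_cases i <;> simp [e0, e1]
  let Ae : E2 ≃L[ℝ] E2 := (LinearEquiv.ofInjectiveEndo A hA).toContinuousLinearEquiv
  have hAe : ∀ w, Ae w = A w := fun w => rfl
  refine ⟨χ.comp (affineC x0 Ae), ?_, (χ.range_comp_subset _).trans hsub, ?_⟩
  · show χ.toFun (x0 + Ae 0) = _
    simp
  · refine bil_inj fun v w => ?_
    have hr : (χ.comp (affineC x0 Ae)).toFun 0 ∈ range χ.toFun := ⟨_, rfl⟩
    have ht : χ.trans (χ.comp (affineC x0 Ae)) = fun z => x0 + Ae z :=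
      funext fun z => χ.left_inv _
    rw [bil_gc_change g χ _ hr, ht]
    simp only [map_zero, add_zero, fderiv_const_add, Ae.fderiv, ContinuousLinearEquiv.coe_coe,
      hAe, ← hq]
    have key : ∀ a b c d : ℝ,
        bil q (a • ev 0 + b • (q 0 • ev 1 - q 1 • ev 0)) (c • ev 0 + d • (q 0 • ev 1 - q 1 • ev 0)) =
          a * c * q 0 + b * d * (q 0 * Δ) := fun a b c d => by
      simp [bil, ev, hΔ]; ring
    have hf : fderiv ℝ (⇑A) 0 = (Ae : E2 →L[ℝ] E2) := Ae.fderiv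
    rw [hf]
    simp only [ContinuousLinearEquiv.coe_coe, hAe, A, LinearMap.coe_mk, AddHom.coe_mk]
    rw [key]
    simp only [div_mul_div_comm, Real.mul_self_sqrt h0.le, Real.mul_self_sqrt (mul_pos h0 hdet).le]
    rw [div_mul_cancel₀ _ h0.ne', div_mul_cancel₀ _ (mul_pos h0 hdet).ne']
    simp [bil, euc]

lemma orth3 {a b c : R4} (ha : ‖a‖ = 1) (hb : ‖b‖ = 1) (hc : ‖c‖ = 1) (hab : ⟪a, b⟫ = 0)
    (hac : ⟪a, c⟫ = 0) (hbc : ⟪b, c⟫ = 0) :
    ∃ e : OrthonormalBasis (Fin 4) ℝ R4, e 0 = a ∧ e 1 = b ∧ e 2 = c := by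
  have hv : Orthonormal ℝ (Set.restrict {i : Fin 4 | i.1 < 3} ![a, b, c, 0]) := by
    rw [orthonormal_iff_ite]
    rintro ⟨i, hi⟩ ⟨j, hj⟩
    fin_cases i <;> fin_cases j <;>
      first
      | exact (lt_irrefl (3 : ℕ) hi).elim
      | exact (lt_irrefl (3 : ℕ) hj).elim
      | simp_all [Set.restrict, real_inner_self_eq_norm_sq, real_inner_comm a b, real_inner_comm a c,
        real_inner_comm b c]
  obtain ⟨e, he⟩ := hv.exists_orthonormalBasis_extension_of_card_eq (by simp)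
  exact ⟨e, he 0 (by norm_num), he 1 (by norm_num), he 2 (by norm_num)⟩

/-- The isometry of the target. -/
lemma exists_isom (P : FlatPiece) {D0 : E2 →L[ℝ] R4} (hD : Injective D0) {n : R4} (hn : ‖n‖ = 1)
    (ho : ∀ v, ⟪n, D0 v⟫ = 0) :
    ∃ R : R4 ≃ₗᵢ[ℝ] R4, R (P.V 0) = n ∧ ∀ t ∈ Icc (0 : ℝ) 1, Injective
      (((1 - t) • ((R.toContinuousLinearEquiv : R4 →L[ℝ] R4).comp (fderiv ℝ P.F 0)) +
        t • D0).coprod (ContinuousLinearMap.toSpanSingleton ℝ n)) := by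
  set L0 := fderiv ℝ P.F 0
  set a := D0 (ev 0)
  have ha : a ≠ 0 := fun h => by
    have h1 := hD (h.trans (map_zero D0).symm)
    simpa [ev] using congrArg (fun y : E2 => y 0) h1
  set u1 := ‖a‖⁻¹ • a
  have hu1 : ‖u1‖ = 1 := norm_smul_inv_norm ha
  set b' := D0 (ev 1) - ⟪u1, D0 (ev 1)⟫ • u1
  have hb' : b' ≠ 0 := fun h => by
    have h1 : D0 (ev 1 - (⟪u1, D0 (ev 1)⟫ * ‖a‖⁻¹) • ev 0) = 0 := by
      rw [map_sub, map_smul, ← smul_smul]; exact h
    have h2 := congrArg (fun y : E2 => y 1) (hD (h1.trans (map_zero D0).symm))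
    simp [ev] at h2
  set u2 := ‖b'‖⁻¹ • b'
  have hu2 : ‖u2‖ = 1 := norm_smul_inv_norm hb'
  have h12 : ⟪u1, u2⟫ = 0 := by
    simp [u2, b', real_inner_smul_right, inner_sub_right, real_inner_self_eq_norm_sq, hu1]
  have h1n : ⟪u1, n⟫ = 0 := by
    rw [real_inner_comm]
    simp [u1, real_inner_smul_right, a, ho]
  have h2n : ⟪u2, n⟫ = 0 := by
    rw [real_inner_comm]
    simp [u2, b', u1, a, real_inner_smul_right, inner_sub_right, ho]
  obtain ⟨e', e0', e1', e2'⟩ := orth3 hu1 hu2 hn h12 h1n h2n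
  have hL : ∀ i, ‖L0 (ev i)‖ = 1 := fun i => by rw [flat_norm]; simp [ev]
  have hL01 : ⟪L0 (ev 0), L0 (ev 1)⟫ = 0 := by
    rw [← bil_met, P.flat]; simp [bil, euc, ev]
  obtain ⟨e, e0, e1, e2⟩ := orth3 (hL 0) (hL 1) (P.V_unit 0) hL01
    (by rw [real_inner_comm]; exact flat_orth P 0 _) (by rw [real_inner_comm]; exact flat_orth P 0 _)
  let R : R4 ≃ₗᵢ[ℝ] R4 := e.equiv e' (Equiv.refl _)
  have hR : ∀ i, R (e i) = e' i := fun i => by simp [R]
  have R0 : R (L0 (ev 0)) = u1 := by rw [← e0, hR, e0']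
  have R1 : R (L0 (ev 1)) = u2 := by rw [← e1, hR, e1']
  refine ⟨R, by rw [← e2, hR, e2'], fun t ht => (injective_iff_map_eq_zero _).2 ?_⟩
  rintro ⟨w, x⟩ h
  have hU : R (L0 w) = w 0 • u1 + w 1 • u2 := by
    conv_lhs => rw [vec_eq w, map_add, map_smul, map_smul, map_add, map_smul, map_smul, R0, R1]
  have hD0 : D0 w = w 0 • (‖a‖ • u1) + w 1 • (⟪u1, D0 (ev 1)⟫ • u1 + ‖b'‖ • u2) := by
    conv_lhs => rw [vec_eq w, map_add, map_smul, map_smul]
    have z0 : ‖a‖ • u1 = a := smul_inv_smul₀ (norm_ne_zero_iff.2 ha) a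
    have z1 : ‖b'‖ • u2 = b' := smul_inv_smul₀ (norm_ne_zero_iff.2 hb') b'
    rw [z0, z1]
    simp only [a, b', add_sub_cancel]
  simp [hU, hD0] at h
  have i0 := congrArg (fun y => ⟪u1, y⟫) h
  have i1 := congrArg (fun y => ⟪u2, y⟫) h
  have i2 := congrArg (fun y => ⟪n, y⟫) h
  simp [inner_add_right, real_inner_smul_right, real_inner_self_eq_norm_sq, hu1, hu2, hn, h12,
    real_inner_comm u1 u2, h1n, h2n, real_inner_comm u1 n, real_inner_comm u2 n] at i0 i1 i2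
  have hpos : ∀ c : ℝ, 0 < c → 0 < 1 - t + t * c := fun c hc => by
    rcases ht.2.lt_or_eq with h1 | h1
    · linarith [mul_nonneg ht.1 hc.le]
    · subst h1; linarith
  have w1 : w 1 = 0 := by
    have : w 1 * (1 - t + t * ‖b'‖) = 0 := by linarith
    exact (mul_eq_zero.1 this).resolve_right (hpos _ (norm_pos_iff.2 hb')).ne'
  rw [w1] at i0
  have w0 : w 0 = 0 := by
    have : w 0 * (1 - t + t * ‖a‖) = 0 := by linarith
    exact (mul_eq_zero.1 this).resolve_right (hpos _ (norm_pos_iff.2 ha)).ne'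
  refine Prod.ext ?_ i2
  ext i; fin_cases i
  · exact w0
  · exact w1

/-- A small perturbation of a map bounded below stays injective. -/
lemma perturb_zero {E F : Type*} [NormedAddCommGroup E] [NormedAddCommGroup F] {μ : ℝ} (hμ : 0 < μ)
    {p : E} {Tp a b c : F} (h : μ * ‖p‖ ≤ ‖Tp‖) (e : Tp = -(a + b + c)) (ha : ‖a‖ ≤ μ / 8 * ‖p‖)
    (hb : ‖b‖ ≤ μ / 4 * ‖p‖) (hc : ‖c‖ ≤ μ / 8 * ‖p‖) : p = 0 := by
  rw [e, norm_neg] at h
  have := norm_add₃_le (a := a) (b := b) (c := c)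
  by_contra hp
  have : 0 < μ * ‖p‖ := mul_pos hμ (norm_pos_iff.2 hp)
  linarith

lemma fderiv_blend {χ : E2 → ℝ} {u0 : E2 → R4} (hχ : ContDiff ℝ ∞ χ) (hu : ContDiff ℝ ∞ u0)
    (a : R4) (U : E2 →L[ℝ] R4) (y w : E2) :
    fderiv ℝ (fun z => a + U z + χ z • (u0 z - (a + U z))) y w =
      (1 - χ y) • U w + χ y • fderiv ℝ u0 y w + fderiv ℝ χ y w • (u0 y - (a + U y)) := by
  have haff : ContDiff ℝ ∞ fun z => a + U z := contDiff_const.add U.contDiff
  have d1 : DifferentiableAt ℝ χ y := hχ.differentiable (by simp) y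
  have d2 : DifferentiableAt ℝ (fun z => u0 z - (a + U z)) y :=
    (hu.sub haff).differentiable (by simp) y
  have d3 : DifferentiableAt ℝ (fun z => χ z • (u0 z - (a + U z))) y := d1.smul d2
  rw [fderiv_fun_add (haff.differentiable (by simp) y) d3, fderiv_fun_smul d1 d2,
    fderiv_fun_sub (hu.differentiable (by simp) y) (haff.differentiable (by simp) y),
    fderiv_const_add, U.fderiv]
  simp
  module

/-- Blend a map and a transversal field into an affine map and a constant. -/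
theorem exists_blend_affine {u0 n : E2 → R4} (hu : ContDiff ℝ ∞ u0) (hn : ContDiff ℝ ∞ n)
    (hframe : ∀ y, Injective (frameMap u0 y (n y))) {U : E2 →L[ℝ] R4}
    (hU : ∀ t ∈ Icc (0 : ℝ) 1, Injective
      (((1 - t) • U + t • fderiv ℝ u0 0).coprod (ContinuousLinearMap.toSpanSingleton ℝ (n 0)))) :
    ∃ (u v : E2 → R4) (ρ : ℝ), 0 < ρ ∧ ContDiff ℝ ∞ u ∧ ContDiff ℝ ∞ v ∧
      (∀ y, 1 ≤ ‖y‖ → u y = u0 y ∧ v y = n y) ∧
      (∀ y, ‖y‖ ≤ ρ → u y = u0 0 + U y ∧ v y = n 0) ∧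
      ∀ y, Injective (frameMap u y (v y)) := by
  obtain ⟨K, hK0, hK⟩ := exists_slope
  set D0 := fderiv ℝ u0 0
  let T : ℝ → E2 × ℝ →L[ℝ] R4 := fun t =>
    ((1 - t) • U + t • D0).coprod (ContinuousLinearMap.toSpanSingleton ℝ (n 0))
  have hTc : Continuous fun p : ℝ × (E2 × ℝ) => ‖T p.1 p.2‖ := by
    refine Continuous.norm ?_
    simp only [T, ContinuousLinearMap.coprod_apply]
    fun_prop
  obtain ⟨μ, hμ, hμl⟩ := ((isCompact_Icc (a := (0 : ℝ)) (b := 1)).prod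
    (isCompact_sphere (0 : E2 × ℝ) 1)).exists_forall_le' hTc.continuousOn (a := 0) fun p hp => by
      refine norm_pos_iff.2 fun h => ?_
      have := hU p.1 hp.1 (h.trans (map_zero (T p.1)).symm)
      simp [this] at hp
  have hlow : ∀ t ∈ Icc (0 : ℝ) 1, ∀ p, μ * ‖p‖ ≤ ‖T t p‖ := by
    intro t ht p
    rcases eq_or_ne p 0 with rfl | hp
    · simp
    have h : ((t, ‖p‖⁻¹ • p) : ℝ × (E2 × ℝ)) ∈ Icc (0 : ℝ) 1 ×ˢ Metric.sphere 0 1 :=
      ⟨ht, by simp [norm_smul, hp]⟩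
    have h2 := hμl _ h
    rw [map_smul, norm_smul, norm_inv, norm_norm, le_inv_mul_iff₀ (norm_pos_iff.2 hp)] at h2
    linarith
  set Mt := ‖D0‖ + μ / 8 + ‖U‖ + 1 with hMt
  have hMt0 : 0 < Mt := by positivity
  set W := 8 * K * Mt / μ + 1 with hW
  have hW0 : 0 < W := by positivity
  obtain ⟨δ1, hδ1, hD1⟩ := Metric.continuousAt_iff.1
    ((hu.continuous_fderiv (by simp)).continuousAt (x := 0)) (μ / 8) (by positivity)
  obtain ⟨δ2, hδ2, hn1⟩ := Metric.continuousAt_iff.1 (hn.continuous.continuousAt (x := 0))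
    (μ / 8) (by positivity)
  obtain ⟨δ, hδ, hδa, hδb, hδc⟩ : ∃ δ : ℝ, 0 < δ ∧ δ < δ1 ∧ δ < δ2 ∧ δ ≤ 1 :=
    ⟨min (min δ1 δ2) 1 / 2, by positivity,
      lt_of_lt_of_le (half_lt_self (by positivity)) ((min_le_left _ _).trans (min_le_left _ _)),
      lt_of_lt_of_le (half_lt_self (by positivity)) ((min_le_left _ _).trans (min_le_right _ _)),
      (half_le_self (by positivity)).trans (min_le_right _ _)⟩
  set b := δ ^ 2 / 4 * Real.exp (-W) with hb
  have hb0 : 0 < b := by positivity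
  have hbW : b * Real.exp W = δ ^ 2 / 4 := by
    rw [hb, mul_assoc, ← Real.exp_add]; simp
  let χ := lcut b W
  have hχ : ContDiff ℝ ∞ χ := lcut_smooth hb0 W
  have hχ1 : ∀ y : E2, δ / 2 ≤ ‖y‖ → χ y = 1 := fun y hy => lcut_one hb0 hW0 (by
    rw [hbW]; nlinarith)
  let u : E2 → R4 := fun y => u0 0 + U y + χ y • (u0 y - (u0 0 + U y))
  let v : E2 → R4 := fun y => n 0 + χ y • (n y - n 0)
  have haff : ContDiff ℝ ∞ fun y => u0 0 + U y := contDiff_const.add U.contDiff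
  refine ⟨u, v, Real.sqrt (b / 2), by positivity, haff.add (hχ.smul (hu.sub haff)),
    contDiff_const.add (hχ.smul (hn.sub contDiff_const)), fun y hy => ?_, fun y hy => ?_,
    fun y => ?_⟩
  · simp [u, v, hχ1 y (by linarith)]
  · have h : χ y = 0 := lcut_zero hb0 hW0 (by
      have := pow_le_pow_left₀ (norm_nonneg y) hy 2
      rwa [Real.sq_sqrt (by positivity)] at this)
    simp [u, v, h]
  by_cases hy : δ ≤ ‖y‖
  · have he : ∀ᶠ z in 𝓝 y, χ z = 1 := by
      filter_upwards [(continuous_norm.tendsto y).eventually (lt_mem_nhds (by linarith : δ / 2 < ‖y‖))]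
        with z hz
      exact hχ1 z hz.le
    have heu : u =ᶠ[𝓝 y] u0 := he.mono fun z hz => by simp [u, hz]
    have hev : v y = n y := by simp [v, he.self_of_nhds]
    rw [frameMap, heu.fderiv_eq, hev]
    exact hframe y
  have hyδ : ‖y‖ < δ := not_le.1 hy
  have hDy : ∀ z : E2, ‖z‖ ≤ ‖y‖ → ‖fderiv ℝ u0 z - D0‖ ≤ μ / 8 := fun z hz => by
    rw [← dist_eq_norm]; exact (hD1 (by rw [dist_zero_right]; linarith)).le
  have hny : ‖n y - n 0‖ ≤ μ / 8 := by
    rw [← dist_eq_norm]; exact (hn1 (by rw [dist_zero_right]; linarith)).le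
  have hsec : ‖u0 y - (u0 0 + U y)‖ ≤ Mt * ‖y‖ := by
    have h := Convex.norm_image_sub_le_of_norm_fderiv_le (C := ‖D0‖ + μ / 8)
      (fun x _ => hu.differentiable (by simp) x)
      (fun x hx => by
        have := norm_le_norm_add_norm_sub' (fderiv ℝ u0 x) D0
        linarith [hDy x (mem_closedBall_zero_iff.1 hx)])
      (convex_closedBall (0 : E2) ‖y‖) (Metric.mem_closedBall_self (norm_nonneg y))
      (mem_closedBall_zero_iff.2 le_rfl)
    rw [sub_zero] at h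
    have h2 := norm_sub_le (u0 y - u0 0) (U y)
    rw [sub_sub] at h2
    rw [hMt]
    linarith [U.le_opNorm y, norm_nonneg y]
  obtain ⟨k, hk0, hk, hdχ⟩ := lcut_fderiv hK hb0 hW0 y
  have hdu : ∀ w, fderiv ℝ u y w = (1 - χ y) • U w + χ y • fderiv ℝ u0 y w
      + (k * ⟪y, w⟫) • (u0 y - (u0 0 + U y)) := fun w => by
    rw [show u = fun z => u0 0 + U z + χ z • (u0 z - (u0 0 + U z)) from rfl,
      fderiv_blend hχ hu, ← hdχ]
  obtain ⟨c0, c1⟩ := lcut_mem b W y
  rw [injective_iff_map_eq_zero]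
  rintro ⟨w, x⟩ e
  simp only [frameMap, ContinuousLinearMap.coprod_apply, hdu,
    ContinuousLinearMap.toSpanSingleton_apply, v] at e
  have eT : T (χ y) (w, x) = -(χ y • (fderiv ℝ u0 y w - D0 w)
      + (k * ⟪y, w⟫) • (u0 y - (u0 0 + U y)) + (x * χ y) • (n y - n 0)) := by
    rw [eq_neg_iff_add_eq_zero]
    refine Eq.trans ?_ e
    simp [T]
    module
  have hb1 : ‖χ y • (fderiv ℝ u0 y w - D0 w)‖ ≤ μ / 8 * ‖w‖ := by
    rw [norm_smul, Real.norm_eq_abs, abs_of_nonneg c0]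
    exact (mul_le_of_le_one_left (norm_nonneg _) c1).trans
      (((fderiv ℝ u0 y - D0).le_opNorm w).trans
        (mul_le_mul_of_nonneg_right (hDy y le_rfl) (norm_nonneg _)))
  have hb2 : ‖(k * ⟪y, w⟫) • (u0 y - (u0 0 + U y))‖ ≤ μ / 4 * ‖w‖ := by
    rw [norm_smul, Real.norm_eq_abs, abs_mul, abs_of_nonneg hk0]
    have hkM : 2 * K / W * Mt ≤ μ / 4 := by
      rw [div_mul_eq_mul_div, div_le_iff₀ hW0, hW]
      field_simp
      nlinarith
    calc k * |⟪y, w⟫| * ‖u0 y - (u0 0 + U y)‖ ≤ k * (‖y‖ * ‖w‖) * (Mt * ‖y‖) :=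
          mul_le_mul (mul_le_mul_of_nonneg_left (abs_real_inner_le_norm y w) hk0) hsec
            (norm_nonneg _) (by positivity)
      _ = k * ‖y‖ ^ 2 * Mt * ‖w‖ := by ring
      _ ≤ 2 * K / W * Mt * ‖w‖ := by gcongr
      _ ≤ μ / 4 * ‖w‖ := by gcongr
  have hb3 : ‖(x * χ y) • (n y - n 0)‖ ≤ μ / 8 * |x| := by
    rw [norm_smul, Real.norm_eq_abs, abs_mul, abs_of_nonneg c0, mul_comm (μ / 8)]
    exact mul_le_mul (mul_le_of_le_one_right (abs_nonneg x) c1) hny (norm_nonneg _) (abs_nonneg x)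
  have hw : ‖w‖ ≤ ‖(w, x)‖ := norm_fst_le (w, x)
  have hx : |x| ≤ ‖(w, x)‖ := norm_snd_le (w, x)
  exact perturb_zero hμ (hlow (χ y) ⟨c0, c1⟩ (w, x)) eT
    (hb1.trans (mul_le_mul_of_nonneg_left hw (by positivity)))
    (hb2.trans (mul_le_mul_of_nonneg_left hw (by positivity)))
    (hb3.trans (mul_le_mul_of_nonneg_left hx (by positivity)))

end Vale.Agent.P205F.Start
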